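import Vale.Agent.P083.Defs

/-!
Calculus in the algebra of bounded families modulo null families: positivity and the spectral
projection produced by a gap inequality.
-/

namespace Vale.Agent.P083

open Filter Topology

set_option linter.unusedSectionVars false

section single

variable {A : Type*} [CStarAlgebra A] [PartialOrder A] [StarOrderedRing A]

/-- The cut-off function equal to 1 at 0 and vanishing outside a neighbourhood of 0. -/
noncomputable def cutF (c x : ℝ) : ℝ := 1 - (2 * x / c) ^ 2 / max 1 ((2 * x / c) ^ 2)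

/-- The function with `x * cutG c x = 1 - cutF c x`. -/
noncomputable def cutG (c x : ℝ) : ℝ := (4 / c ^ 2) * x / max 1 ((2 * x / c) ^ 2)

lemma continuous_cutF (c : ℝ) : Continuous (cutF c) := by
  unfold cutF
  refine continuous_const.sub (Continuous.div (by fun_prop) (by fun_prop) (fun x => ?_))
  exact ne_of_gt (lt_of_lt_of_le one_pos (le_max_left _ _))

lemma continuous_cutG (c : ℝ) : Continuous (cutG c) := by
  unfold cutG
  refine Continuous.div (by fun_prop) (by fun_prop) (fun x => ?_)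
  exact ne_of_gt (lt_of_lt_of_le one_pos (le_max_left _ _))

lemma cutF_mem (c x : ℝ) : 0 ≤ cutF c x ∧ cutF c x ≤ 1 := by
  have hpos : (0 : ℝ) < max 1 ((2 * x / c) ^ 2) := lt_of_lt_of_le one_pos (le_max_left _ _)
  constructor
  · rw [cutF, sub_nonneg, div_le_one hpos]; exact le_max_right _ _
  · rw [cutF, sub_le_self_iff]; positivity

lemma cutF_eq_zero (c x : ℝ) (hc : 0 < c) (h : c / 2 ≤ x) : cutF c x = 0 := by
  have : 1 ≤ (2 * x / c) ^ 2 := by
    have : 1 ≤ 2 * x / c := by rw [le_div_iff₀ hc]; linarith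
    nlinarith
  rw [cutF, max_eq_right this, div_self (by linarith), sub_self]

lemma cutG_mul (c x : ℝ) : cutG c x * x = 1 - cutF c x := by
  rw [cutG, cutF]; ring

lemma abs_cutG_le (c x : ℝ) (hc : 0 < c) : |cutG c x| ≤ 2 / c := by
  have hpos : (0 : ℝ) < max 1 ((2 * x / c) ^ 2) := lt_of_lt_of_le one_pos (le_max_left _ _)
  set m := max 1 ((2 * x / c) ^ 2) with hm
  have h1 : |2 * x / c| ≤ m := by
    rcases le_total |2 * x / c| 1 with h | h
    · exact h.trans (le_max_left _ _)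
    · refine le_trans ?_ (le_max_right _ _)
      calc |2 * x / c| ≤ |2 * x / c| * |2 * x / c| := le_mul_of_one_le_left (abs_nonneg _) h
        _ = (2 * x / c) ^ 2 := by rw [← abs_mul, abs_of_nonneg (mul_self_nonneg _)]; ring
  have : cutG c x = (2 / c) * ((2 * x / c) / m) := by rw [cutG, ← hm]; ring
  rw [this, abs_mul, abs_of_pos (by positivity : (0:ℝ) < 2 / c)]
  calc 2 / c * |2 * x / c / m| ≤ 2 / c * 1 := by
        apply mul_le_mul_of_nonneg_left _ (by positivity)
        rw [abs_div, abs_of_pos hpos, div_le_one hpos]; exact h1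
    _ = 2 / c := mul_one _

/-- Spectral consequence of an approximate gap inequality. -/
lemma norm_mul_cutF_le {a : A} {c δ : ℝ} (hc : 0 < c) (hδ : 0 ≤ δ) (ha : 0 ≤ a)
    (hgap : -algebraMap ℝ A δ ≤ a * a - c • a) :
    ‖a * cfc (cutF c) a‖ ≤ 2 * δ / c := by
  have hsa : IsSelfAdjoint a := IsSelfAdjoint.of_nonneg ha
  have hcont : ContinuousOn (cutF c) (spectrum ℝ a) := (continuous_cutF c).continuousOn
  have key : a * a - c • a + algebraMap ℝ A δ = cfc (fun x : ℝ => x * x - c * x + δ) a := by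
    rw [cfc_add_const _ (fun x : ℝ => x * x - c * x) a, cfc_sub (fun x : ℝ => x * x) (fun x => c * x) a,
      cfc_mul (fun x : ℝ => x) (fun x => x) a, cfc_const_mul c (fun x => x) a, cfc_id' ℝ a]
  have hspec : ∀ x ∈ spectrum ℝ a, 0 ≤ x * x - c * x + δ := by
    have h0 : (0 : A) ≤ cfc (fun x : ℝ => x * x - c * x + δ) a := by
      rw [← key]
      exact neg_le_iff_add_nonneg.mp hgap
    exact (cfc_nonneg_iff (fun x : ℝ => x * x - c * x + δ) a).mp h0
  have : a * cfc (cutF c) a = cfc (fun x : ℝ => x * cutF c x) a := by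
    rw [cfc_mul (fun x : ℝ => x) (cutF c) a, cfc_id' ℝ a]
  rw [this]
  refine norm_cfc_le (by positivity) fun x hx => ?_
  have hx0 : 0 ≤ x := spectrum_nonneg_of_nonneg ha hx
  rw [Real.norm_eq_abs]
  rcases le_or_gt (c / 2) x with h | h
  · rw [cutF_eq_zero c x hc h, mul_zero, abs_zero]; positivity
  · have h2 := hspec x hx
    have hb : x ≤ 2 * δ / c := by
      rw [le_div_iff₀ hc]; nlinarith
    rw [abs_of_nonneg (mul_nonneg hx0 (cutF_mem c x).1)]
    calc x * cutF c x ≤ x * 1 := mul_le_mul_of_nonneg_left (cutF_mem c x).2 hx0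
      _ ≤ _ := by simpa using hb

lemma cutG_cfc_mul {a : A} {c : ℝ} (ha : IsSelfAdjoint a) :
    cfc (cutG c) a * a = 1 - cfc (cutF c) a := by
  have h1 : cfc (fun x : ℝ => cutG c x * x) a = cfc (cutG c) a * a := by
    rw [cfc_mul (cutG c) (fun x : ℝ => x) a (continuous_cutG c).continuousOn, cfc_id' ℝ a]
  rw [← h1]
  simp_rw [cutG_mul]
  rw [cfc_sub (fun _ : ℝ => (1:ℝ)) (cutF c) a continuousOn_const (continuous_cutF c).continuousOn,
    cfc_const_one ℝ a]

lemma norm_cutF_le (a : A) (c : ℝ) : ‖cfc (cutF c) a‖ ≤ 1 := by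
  refine norm_cfc_le zero_le_one fun x _ => ?_
  rw [Real.norm_eq_abs, abs_of_nonneg (cutF_mem c x).1]
  exact (cutF_mem c x).2

lemma norm_cutG_le (a : A) {c : ℝ} (hc : 0 < c) : ‖cfc (cutG c) a‖ ≤ 2 / c := by
  refine norm_cfc_le (by positivity) fun x _ => ?_
  rw [Real.norm_eq_abs]
  exact abs_cutG_le c x hc

end single

variable {J : Type*} {M : J → Type*} [∀ j, CStarAlgebra (M j)] {l : Filter J}

/-- A bounded family from a function and a bound. -/
def BddFam.mk (f : ∀ j, M j) (C : ℝ) (h : ∀ j, ‖f j‖ ≤ C) : BddFam M := ⟨f, C, h⟩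

@[simp] lemma BddFam.mk_apply (f : ∀ j, M j) (C : ℝ) (h : ∀ j, ‖f j‖ ≤ C) (j : J) :
    (BddFam.mk f C h).1 j = f j := rfl

variable (M l) in
/-- The quotient map. -/
noncomputable def asyMk : BddFam M →⋆ₐ[ℂ] AsympQuot M l where
  toAlgHom := (nullCon M l).mkₐ (α := ℂ)
  map_star' _ := rfl

lemma asyMk_surjective : Function.Surjective (asyMk M l) :=
  Quotient.ind' fun f => ⟨f, rfl⟩

lemma asyMk_eq_iff {f g : BddFam M} :
    asyMk M l f = asyMk M l g ↔ Tendsto (fun j => ‖f.1 j - g.1 j‖) l (𝓝 0) :=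
  RingCon.eq _

lemma asyMk_eq_zero_iff {f : BddFam M} :
    asyMk M l f = 0 ↔ Tendsto (fun j => ‖f.1 j‖) l (𝓝 0) := by
  rw [← map_zero (asyMk M l), asyMk_eq_iff]
  simp

lemma asyMk_eq_of_bound {f g : BddFam M} (u : J → ℝ) (hu : Tendsto u l (𝓝 0))
    (h : ∀ j, ‖f.1 j - g.1 j‖ ≤ u j) : asyMk M l f = asyMk M l g :=
  asyMk_eq_iff.mpr (squeeze_zero (fun _ => norm_nonneg _) h hu)

lemma asy_star_mul_self_eq_zero {x : AsympQuot M l} (h : star x * x = 0) : x = 0 := by
  obtain ⟨f, rfl⟩ := asyMk_surjective x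
  rw [← map_star, ← map_mul, asyMk_eq_zero_iff] at h
  rw [asyMk_eq_zero_iff]
  have h2 := (Real.continuous_sqrt.tendsto 0).comp h
  rw [Real.sqrt_zero] at h2
  refine h2.congr fun j => ?_
  show Real.sqrt ‖star (f.1 j) * f.1 j‖ = _
  rw [CStarRing.norm_star_mul_self, Real.sqrt_mul_self (norm_nonneg _)]

variable [∀ j, PartialOrder (M j)] [∀ j, StarOrderedRing (M j)]

/-- An element is positive when it is represented by a family of positive elements. -/
def APos (x : AsympQuot M l) : Prop := ∃ r : BddFam M, (∀ j, 0 ≤ r.1 j) ∧ asyMk M l r = x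

lemma APos.add {x y : AsympQuot M l} (hx : APos x) (hy : APos y) : APos (x + y) := by
  obtain ⟨r, hr, rfl⟩ := hx
  obtain ⟨s, hs, rfl⟩ := hy
  exact ⟨r + s, fun j => add_nonneg (hr j) (hs j), map_add _ _ _⟩

lemma APos.star_mul_self (x : AsympQuot M l) : APos (star x * x) := by
  obtain ⟨f, rfl⟩ := asyMk_surjective x
  exact ⟨star f * f, fun j => _root_.star_mul_self_nonneg (f.1 j), by rw [map_mul, map_star]⟩

lemma APos.smul {x : AsympQuot M l} (hx : APos x) {t : ℝ} (ht : 0 ≤ t) :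
    APos ((t : ℂ) • x) := by
  obtain ⟨r, hr, rfl⟩ := hx
  refine ⟨(t : ℂ) • r, fun j => ?_, map_smul _ _ _⟩
  show 0 ≤ (t : ℂ) • r.1 j
  rw [Complex.coe_smul]
  exact smul_nonneg ht (hr j)

lemma APos.of_proj {x : AsympQuot M l} (h1 : star x = x) (h2 : x * x = x) : APos x := by
  have := APos.star_mul_self x
  rwa [h1, h2] at this

lemma APos.eq_zero_of_add {x y : AsympQuot M l} (hx : APos x) (hy : APos y) (h : x + y = 0) :
    x = 0 := by
  obtain ⟨r, hr, rfl⟩ := hx
  obtain ⟨s, hs, rfl⟩ := hy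
  rw [← map_add, asyMk_eq_zero_iff] at h
  rw [asyMk_eq_zero_iff]
  refine squeeze_zero (fun _ => norm_nonneg _) (fun j => ?_) h
  exact CStarAlgebra.norm_le_norm_of_nonneg_of_le (hr j) (le_add_of_nonneg_right (hs j))

/-- A gap inequality produces a kernel projection. -/
theorem exists_gap_proj {D : AsympQuot M l} {c : ℝ} (hc : 0 < c) (hD : APos D)
    (hgap : APos (D * D - (c : ℂ) • D)) :
    ∃ F G : AsympQuot M l, star F = F ∧ D * F = 0 ∧ G * D = 1 - F := by
  obtain ⟨r, hr, rfl⟩ := hD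
  obtain ⟨s, hs, hs'⟩ := hgap
  let δ : J → ℝ := fun j => ‖(r * r - (c : ℂ) • r).1 j - s.1 j‖
  have hδ : Tendsto δ l (𝓝 0) := by
    rw [← map_mul, ← map_smul, ← map_sub, eq_comm, asyMk_eq_iff] at hs'
    exact hs'
  let F : BddFam M := BddFam.mk (fun j => cfc (cutF c) (r.1 j)) 1 (fun j => norm_cutF_le _ _)
  let G : BddFam M := BddFam.mk (fun j => cfc (cutG c) (r.1 j)) (2 / c) (fun j => norm_cutG_le _ hc)
  refine ⟨asyMk M l F, asyMk M l G, ?_, ?_, ?_⟩
  · rw [← map_star]
    congr 1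
    ext j
    exact (cfc_predicate (cutF c) (r.1 j) : IsSelfAdjoint _).star_eq
  · rw [← map_mul, asyMk_eq_zero_iff]
    refine squeeze_zero (fun _ => norm_nonneg _) (g := fun j => 2 * δ j / c) (fun j => ?_) ?_
    · refine norm_mul_cutF_le hc (norm_nonneg _) (hr j) ?_
      have e : (r * r - (c : ℂ) • r).1 j = r.1 j * r.1 j - c • r.1 j := by
        show r.1 j * r.1 j - (c : ℂ) • r.1 j = _
        rw [Complex.coe_smul]
      have hsa : IsSelfAdjoint ((r * r - (c : ℂ) • r).1 j - s.1 j) := by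
        rw [e]
        have hra := IsSelfAdjoint.of_nonneg (hr j)
        have h2 : IsSelfAdjoint (r.1 j * r.1 j) := by rw [← pow_two]; exact hra.pow 2
        exact (h2.sub
          (IsSelfAdjoint.smul (IsSelfAdjoint.all c) hra)).sub (IsSelfAdjoint.of_nonneg (hs j))
      have := hsa.neg_algebraMap_norm_le_self
      refine this.trans ?_
      rw [← e]
      exact sub_le_self _ (hs j)
    · simpa using (hδ.const_mul 2).div_const c
  · rw [← map_mul, ← map_one (asyMk M l), ← map_sub]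
    congr 1
    ext j
    exact cutG_cfc_mul (IsSelfAdjoint.of_nonneg (hr j))

end Vale.Agent.P083
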