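import Vale.Agent.P083.Shift

/-!
The first level carries a nonzero invariant new vector.
-/

namespace Vale.Agent.P083

open Filter Topology

set_option linter.unusedSectionVars false
set_option linter.unusedSimpArgs false

noncomputable section

lemma qmat_zero_mul_single (x a : Lev (0 + 1)) :
    qmat 0 * Matrix.single x a (1 : ℂ) = ∑ y, qmat 0 y x • Matrix.single y a (1 : ℂ) := by
  ext p q
  rw [Matrix.sum_apply, Matrix.mul_apply]
  simp [Matrix.single_apply, ite_and]

lemma pmat_mul_single {k : ℕ} (σ : Equiv.Perm (Lev k)) (x a : Lev k) :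
    pmat σ * Matrix.single x a (1 : ℂ) = Matrix.single (σ x) a (1 : ℂ) := by
  ext p q
  rw [pmat_mul_apply, Matrix.single_apply, Matrix.single_apply]
  refine if_congr ?_ rfl rfl
  constructor
  · rintro ⟨h1, h2⟩; exact ⟨by rw [h1]; simp, h2⟩
  · rintro ⟨h1, h2⟩; exact ⟨by rw [← h1]; simp, h2⟩

lemma headAct_bijective (g : Aff) : Function.Bijective (headAct g) := by
  refine ⟨fun a b h => ?_, fun a => ⟨headAct g⁻¹ a, ?_⟩⟩
  · have := congrArg (headAct g⁻¹) h
    simpa [← headAct_mul] using this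
  · rw [← headAct_mul, mul_inv_cancel, headAct_one]

variable {B : Type} [CStarAlgebra B] [PartialOrder B] [StarOrderedRing B]

variable (B) in
/-- Constant scalar matrices at the first level. -/
def constFam : Matrix (Lev (0 + 1)) (Lev (0 + 1)) ℂ →⋆ₐ[ℂ] BddFam (LevM B lev0) where
  toFun M := ⟨fun _ => sc B M, ‖sc B M‖, fun _ => le_rfl⟩
  map_one' := Subtype.ext (funext fun _ => map_one (sc B))
  map_mul' M N := Subtype.ext (funext fun _ => map_mul (sc B) M N)
  map_zero' := Subtype.ext (funext fun _ => map_zero (sc B))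
  map_add' M N := Subtype.ext (funext fun _ => map_add (sc B) M N)
  commutes' r := Subtype.ext (funext fun _ => AlgHomClass.commutes (sc B) r)
  map_star' M := Subtype.ext (funext fun _ => map_star (sc B) M)

variable {ω : Ultrafilter ℕ}

variable (B ω) in
/-- Constant scalar matrices in the first-level algebra. -/
def constEl : Matrix (Lev (0 + 1)) (Lev (0 + 1)) ℂ →⋆ₐ[ℂ] AsympQuot (LevM B lev0) (ω : Filter ℕ) :=
  (asyMk (LevM B lev0) (ω : Filter ℕ)).comp (constFam B)

lemma constEl_comm (M : Matrix (Lev (0 + 1)) (Lev (0 + 1)) ℂ) (a : ultrapower B ω) :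
    constEl B ω M * diagMap B lev0 (tendsto_id_nat ω) a
      = diagMap B lev0 (tendsto_id_nat ω) a * constEl B ω M := by
  obtain ⟨f, rfl⟩ := asyMk_surjective a
  show asyMk (LevM B lev0) _ (constFam B M) * _ = _ * asyMk (LevM B lev0) _ (constFam B M)
  rw [diagMap, asyMap_mk, ← map_mul, ← map_mul]
  exact congrArg _ (Subtype.ext (funext fun j => sc_dg_comm M (f.1 j)))

variable {A : Type} [CStarAlgebra A] {φ : A →⋆ₙₐ[ℂ] ultrapower B ω}

/-- The vector in the first level. -/
def vec0 (V : Lett → A) (e₀ : A) (p : Lev (0 + 1)) : A :=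
  V (p 0) * e₀ - ((1 : ℂ) / 125) • ∑ i, V i * e₀

/-- The first-level element built from the invariant vector. -/
def baseVec (φ : A →⋆ₙₐ[ℂ] ultrapower B ω) (V : Lett → A) (e₀ : A) :
    AsympQuot (LevM B lev0) (ω : Filter ℕ) :=
  ∑ p : Lev (0 + 1), constEl B ω (Matrix.single p 0 1)
    * diagMap B lev0 (tendsto_id_nat ω) (φ (vec0 V e₀ p))

lemma vec0_sum (V : Lett → A) (e₀ : A) : ∑ p, vec0 V e₀ p = 0 := by
  simp only [vec0, Finset.sum_sub_distrib, Finset.sum_const, Finset.card_univ]
  rw [← (Fin.consEquiv (fun _ : Fin 1 => Lett)).sum_comp]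
  simp only [Fin.consEquiv, Equiv.coe_fn_mk, Fin.cons_zero]
  rw [Fintype.sum_prod_type]
  simp only [Finset.sum_const, Finset.card_univ]
  rw [← Nat.cast_smul_eq_nsmul ℂ _ (((1 : ℂ) / 125) • _), smul_smul]
  simp [ZMod.card]

lemma baseVec_fixed {u : Aff → A} {V : Lett → A} {e₀ : A}
    (hVu : ∀ g i, u g * V i = V (headAct g i) * u (sect g i)) (he : ∀ g, u g * e₀ = e₀) (g : Aff) :
    rep0 B ω φ u g * baseVec φ V e₀ = baseVec φ V e₀ := by
  have hfirst : ∀ p : Lev (0 + 1), levAct (0 + 1) g p 0 = headAct g (p 0) := by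
    intro p
    conv_lhs => rw [← Fin.cons_self_tail p, levAct_cons, Fin.cons_zero]
  have hξ : ∀ p, u g * vec0 V e₀ p = vec0 V e₀ (levAct (0 + 1) g p) := by
    intro p
    simp only [vec0, mul_sub, mul_smul_comm, Finset.mul_sum, ← mul_assoc, hVu]
    simp only [mul_assoc, he, hfirst]
    congr 2
    exact (headAct_bijective g).sum_comp (fun i => V i * e₀)
  rw [baseVec, Finset.mul_sum]
  have e : ∀ p, rep0 B ω φ u g * (constEl B ω (Matrix.single p 0 1)
        * diagMap B lev0 (tendsto_id_nat ω) (φ (vec0 V e₀ p)))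
      = constEl B ω (Matrix.single (levPerm (0 + 1) g p) 0 1)
        * diagMap B lev0 (tendsto_id_nat ω) (φ (vec0 V e₀ (levPerm (0 + 1) g p))) := by
    intro p
    show constEl B ω (pmat (levPerm (0 + 1) g)) * diagMap B lev0 _ (φ (u g)) * (_ * _) = _
    rw [mul_assoc, ← mul_assoc (diagMap B lev0 _ (φ (u g))), ← constEl_comm, mul_assoc, ← mul_assoc,
      ← map_mul (constEl B ω), ← map_mul (diagMap B lev0 _), ← map_mul φ, pmat_mul_single, hξ]
    rfl
  simp only [e]
  exact Equiv.sum_comp (levPerm (0 + 1) g) (fun p => constEl B ω (Matrix.single p 0 1)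
    * diagMap B lev0 (tendsto_id_nat ω) (φ (vec0 V e₀ p)))

lemma qEl_baseVec (V : Lett → A) (e₀ : A) :
    baseMap B ω (qEl B ω) * baseVec φ V e₀ = baseVec φ V e₀ := by
  have hq : ∀ y p : Lev (0 + 1), qmat 0 y p = (if y = p then 1 else 0) - (1 : ℂ) / 125 := by
    intro y p
    simp only [qmat, Matrix.of_apply]
    rw [if_pos (Subsingleton.elim (Fin.init y) (Fin.init p))]
  have hξ0 : ∀ y, ∑ p, qmat 0 y p • vec0 V e₀ p = vec0 V e₀ y := by
    intro y
    simp only [hq, sub_smul, Finset.sum_sub_distrib, ite_smul, one_smul, zero_smul, Finset.sum_ite_eq,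
      Finset.mem_univ, if_true, ← Finset.smul_sum, vec0_sum, smul_zero, sub_zero]
  have eQ : baseMap B ω (qEl B ω) = constEl B ω (qmat 0) := rfl
  rw [eQ, baseVec, Finset.mul_sum]
  simp only [← mul_assoc, ← map_mul (constEl B ω), qmat_zero_mul_single, map_sum, Finset.sum_mul]
  rw [Finset.sum_comm]
  refine Finset.sum_congr rfl fun y _ => ?_
  conv_rhs => rw [← hξ0 y]
  simp only [map_sum, map_smul, Finset.mul_sum, smul_mul_assoc, mul_smul_comm]

/-- The entry of the first-level vector is not asymptotically null. -/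
lemma baseVec_lower {V : Lett → A} {e₀ : A} (hφ : Function.Injective φ)
    (hne : V 0 * e₀ - ((1 : ℂ) / 125) • ∑ i, V i * e₀ ≠ 0) :
    ∃ z : BddFam (LevM B lev0), asyMk (LevM B lev0) (ω : Filter ℕ) z = baseVec φ V e₀ ∧
      ∃ c > 0, ∀ᶠ n in (ω : Filter ℕ), c ≤ ‖z.1 n‖ := by
  choose ξr hξr using fun p => asyMk_surjective (φ (vec0 V e₀ p))
  let z : BddFam (LevM B lev0) := ∑ p : Lev (0 + 1),
    constFam B (Matrix.single p 0 1)
      * famMap (M' := LevM B lev0) (fun n => n)
          (fun n => (dg (n := Lev (0 + 1)) (B := B)).toNonUnitalStarAlgHom) (ξr p)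
  refine ⟨z, ?_, ?_⟩
  · rw [baseVec, map_sum]
    refine Finset.sum_congr rfl fun p _ => ?_
    rw [map_mul, ← hξr p]
    rfl
  have hval : ∀ n, z.1 n 0 0 = (ξr 0).1 n := by
    intro n
    have e : z.1 n = ∑ p : Lev (0 + 1),
        sc B (Matrix.single p 0 1) * (dg ((ξr p).1 n) : LevM B lev0 n) := by
      simp only [z, AddSubmonoidClass.coe_finsetSum, Finset.sum_apply]
      rfl
    rw [e]
    refine (Matrix.sum_apply (0 : Lev (0 + 1)) 0 Finset.univ _).trans ?_
    rw [Finset.sum_eq_single (0 : Lev (0 + 1))]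
    · exact (sc_mul_dg_apply _ _ _ _).trans (by simp)
    · intro p _ hp
      refine (sc_mul_dg_apply _ _ _ _).trans ?_
      simp [Matrix.single_apply, hp]
    · simp
  have hnz : ∃ c > 0, ∀ᶠ n in (ω : Filter ℕ), c ≤ ‖(ξr 0).1 n‖ := by
    by_contra hcon
    simp only [not_exists, not_and, ← Ultrafilter.eventually_not, not_le] at hcon
    have : asyMk (fun _ : ℕ => B) (ω : Filter ℕ) (ξr 0) = 0 := by
      rw [asyMk_eq_zero_iff, Metric.tendsto_nhds]
      intro ε hε
      have h := hcon ε hε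
      filter_upwards [h] with n hn
      simpa [abs_of_nonneg (norm_nonneg _)] using hn
    rw [hξr, ← map_zero φ] at this
    exact hne (hφ this)
  obtain ⟨c, hc, hev⟩ := hnz
  refine ⟨c, hc, ?_⟩
  filter_upwards [hev] with n hn
  rw [← hval n] at hn
  exact hn.trans CStarMatrix.norm_entry_le_norm

end

end Vale.Agent.P083
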