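import Vale.Agent.P083.Core

/-!
The concrete algebra on the square-summable functions on finite words, and a concrete algebra
generated by a Cuntz pair.
-/

namespace Vale.Agent.P083

open Filter Topology
open scoped InnerProductSpace

set_option linter.unusedSectionVars false
set_option linter.unusedSimpArgs false
set_option linter.style.haveILetI false
set_option linter.deprecated false

noncomputable section

/-- Square-summable functions. -/
abbrev L2 (ι : Type) : Type := lp (fun _ : ι => ℂ) 2

variable {ι κ : Type} [DecidableEq ι] [DecidableEq κ]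

lemma memℓp_comp {f : ι → κ} (hf : Function.Injective f) (x : L2 κ) :
    Memℓp (fun i => x (f i)) 2 := by
  refine memℓp_gen' (C := ‖x‖ ^ (2 : ENNReal).toReal) fun s => ?_
  calc ∑ i ∈ s, ‖x (f i)‖ ^ (2 : ENNReal).toReal
      = ∑ j ∈ s.image f, ‖x j‖ ^ (2 : ENNReal).toReal :=
        (Finset.sum_image (g := f) (f := fun j => ‖x j‖ ^ (2 : ENNReal).toReal) hf.injOn).symm
    _ ≤ _ := lp.sum_rpow_le_norm_rpow (by norm_num) x _

/-- Composition with an injective map. -/
def compOp (f : ι → κ) (hf : Function.Injective f) : L2 κ →L[ℂ] L2 ι :=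
  LinearMap.mkContinuous
    { toFun := fun x => ⟨fun i => x (f i), memℓp_comp hf x⟩
      map_add' := fun x y => by ext i; rfl
      map_smul' := fun c x => by ext i; rfl }
    1 fun x => by
      rw [one_mul]
      refine lp.norm_le_of_forall_sum_le (by norm_num) (norm_nonneg _) fun s => ?_
      calc ∑ i ∈ s, ‖x (f i)‖ ^ (2 : ENNReal).toReal
          = ∑ j ∈ s.image f, ‖x j‖ ^ (2 : ENNReal).toReal :=
            (Finset.sum_image (g := f) (f := fun j => ‖x j‖ ^ (2 : ENNReal).toReal) hf.injOn).symm
        _ ≤ _ := lp.sum_rpow_le_norm_rpow (by norm_num) x _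

@[simp] lemma compOp_apply (f : ι → κ) (hf : Function.Injective f) (x : L2 κ) (i : ι) :
    compOp f hf x i = x (f i) := rfl

/-- The isometry moving basis vectors along an injective map. -/
def moveOp (f : ι → κ) (hf : Function.Injective f) : L2 ι →L[ℂ] L2 κ :=
  ContinuousLinearMap.adjoint (compOp f hf)

lemma compOp_single (f : ι → κ) (hf : Function.Injective f) (i : ι) :
    compOp f hf (lp.single 2 (f i) (1 : ℂ)) = lp.single 2 i 1 := by
  ext j
  simp only [compOp_apply, lp.single_apply, Pi.single_apply, hf.eq_iff]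

lemma compOp_single_of_not (f : ι → κ) (hf : Function.Injective f) (k : κ) (h : ∀ i, f i ≠ k) :
    compOp f hf (lp.single 2 k (1 : ℂ)) = 0 := by
  ext j
  simp [lp.single_apply, Pi.single_apply, h j]

lemma moveOp_single (f : ι → κ) (hf : Function.Injective f) (i : ι) :
    moveOp f hf (lp.single 2 i (1 : ℂ)) = lp.single 2 (f i) 1 := by
  refine ext_inner_right ℂ fun y => ?_
  rw [moveOp, ContinuousLinearMap.adjoint_inner_left, lp.inner_single_left, lp.inner_single_left,
    compOp_apply]

lemma op_ext {E : Type} [NormedAddCommGroup E] [NormedSpace ℂ E] {T S : L2 ι →L[ℂ] E}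
    (h : ∀ i, T (lp.single 2 i (1 : ℂ)) = S (lp.single 2 i 1)) : T = S := by
  refine ContinuousLinearMap.ext fun x => ?_
  have hx := lp.hasSum_single (E := fun _ : ι => ℂ) (p := 2) (by norm_num) x
  refine (hx.mapL T).unique ?_
  have e : ∀ i, T (lp.single 2 i (x i)) = S (lp.single 2 i (x i)) := by
    intro i
    have : lp.single 2 i (x i) = (x i) • lp.single (E := fun _ : ι => ℂ) 2 i (1 : ℂ) := by
      rw [← lp.single_smul, smul_eq_mul, mul_one]
    rw [this, map_smul, map_smul, h]
  simp only [e]
  exact hx.mapL S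

/-! ### The self-similar action on words -/

/-- The action on finite words. -/
def wordAct : Aff → List Lett → List Lett
  | _, [] => []
  | g, i :: w => headAct g i :: wordAct (sect g i) w

lemma wordAct_mul (g h : Aff) (w : List Lett) : wordAct (g * h) w = wordAct g (wordAct h w) := by
  induction w generalizing g h with
  | nil => rfl
  | cons i w ih => simp only [wordAct, headAct_mul, sect_mul, ih]

lemma wordAct_one (w : List Lett) : wordAct 1 w = w := by
  induction w with
  | nil => rfl
  | cons i w ih => simp only [wordAct, headAct_one, sect_one, ih]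

lemma wordAct_injective (g : Aff) : Function.Injective (wordAct g) :=
  Function.LeftInverse.injective (g := wordAct g⁻¹) fun w => by
    rw [← wordAct_mul, inv_mul_cancel, wordAct_one]

lemma consWord_injective (i : Lett) : Function.Injective (fun w : List Lett => i :: w) :=
  fun _ _ h => (List.cons.inj h).2

lemma twoMulAdd_injective (i : Fin 2) : Function.Injective (fun n : ℕ => 2 * n + (i : ℕ)) :=
  fun a b h => by simpa using h

/-- The unitary of a group element. -/
def uOp (g : Aff) : L2 (List Lett) →L[ℂ] L2 (List Lett) := compOp (wordAct g⁻¹) (wordAct_injective _)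

/-- The prefix isometry. -/
def vOp (i : Lett) : L2 (List Lett) →L[ℂ] L2 (List Lett) :=
  moveOp (fun w => i :: w) (consWord_injective i)

lemma uOp_single (g : Aff) (w : List Lett) :
    uOp g (lp.single 2 w (1 : ℂ)) = lp.single 2 (wordAct g w) 1 := by
  have e : w = wordAct g⁻¹ (wordAct g w) := by rw [← wordAct_mul, inv_mul_cancel, wordAct_one]
  conv_lhs => rw [e]
  exact compOp_single _ _ _

lemma uOp_mul (g h : Aff) : uOp g * uOp h = uOp (g * h) := by
  refine op_ext fun w => ?_
  rw [ContinuousLinearMap.mul_apply, uOp_single, uOp_single, uOp_single, wordAct_mul]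

lemma uOp_one : uOp 1 = 1 := by
  refine op_ext fun w => ?_
  rw [uOp_single, wordAct_one]
  rfl

lemma uOp_star (g : Aff) : star (uOp g) = uOp g⁻¹ := by
  refine op_ext fun w => ?_
  rw [uOp_single]
  exact moveOp_single _ _ _

lemma vOp_single (i : Lett) (w : List Lett) :
    vOp i (lp.single 2 w (1 : ℂ)) = lp.single 2 (i :: w) 1 := moveOp_single _ _ _

lemma star_vOp (i : Lett) :
    star (vOp i) = compOp (fun w : List Lett => i :: w) (consWord_injective i) :=
  ContinuousLinearMap.adjoint_adjoint _

lemma vOp_star_mul (i : Lett) : star (vOp i) * vOp i = uOp 1 := by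
  refine op_ext fun w => ?_
  rw [uOp_one, ContinuousLinearMap.mul_apply, vOp_single, star_vOp]
  exact compOp_single (fun w : List Lett => i :: w) _ w

lemma uOp_vOp (g : Aff) (i : Lett) : uOp g * vOp i = vOp (headAct g i) * uOp (sect g i) := by
  refine op_ext fun w => ?_
  rw [ContinuousLinearMap.mul_apply, ContinuousLinearMap.mul_apply, vOp_single, uOp_single,
    uOp_single, vOp_single]
  rfl

/-- The projection on the empty word. -/
def eOp : L2 (List Lett) →L[ℂ] L2 (List Lett) := 1 - ∑ i, vOp i * star (vOp i)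

lemma eOp_single (w : List Lett) :
    eOp (lp.single 2 w (1 : ℂ)) = if w = [] then lp.single 2 w 1 else 0 := by
  rw [eOp, sub_apply, ContinuousLinearMap.sum_apply, ContinuousLinearMap.one_apply]
  simp only [ContinuousLinearMap.mul_apply, star_vOp]
  cases w with
  | nil =>
    rw [if_pos rfl, Finset.sum_eq_zero fun i _ => ?_, sub_zero]
    rw [compOp_single_of_not _ _ _ (fun v => by simp), map_zero]
  | cons j v =>
    rw [if_neg (by simp), Finset.sum_eq_single j]
    · rw [compOp_single (fun w : List Lett => j :: w) _ v, vOp_single, sub_self]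
    · intro i _ hi
      rw [compOp_single_of_not _ _ _ (fun u => by simp [hi]), map_zero]
    · simp

lemma uOp_eOp (g : Aff) : uOp g * eOp = eOp := by
  refine op_ext fun w => ?_
  rw [ContinuousLinearMap.mul_apply, eOp_single]
  split_ifs with h
  · subst h; rw [uOp_single]; rfl
  · rw [map_zero]

lemma vec_ne_zero : vOp 0 * eOp - ((1 : ℂ) / 125) • ∑ i, vOp i * eOp ≠ 0 := by
  intro h
  have h2 := congrArg (fun T => T (lp.single 2 ([] : List Lett) (1 : ℂ)) [(0 : Lett)]) h
  simp only [sub_apply, smul_apply, ContinuousLinearMap.sum_apply, ContinuousLinearMap.mul_apply,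
    eOp_single, if_true, vOp_single, lp.coeFn_sub, lp.coeFn_smul, lp.coeFn_sum, Pi.sub_apply,
    Pi.smul_apply, Finset.sum_apply, lp.single_apply, Pi.single_apply, zero_apply, lp.coeFn_zero,
    Pi.zero_apply, List.cons.injEq, and_true, Finset.sum_ite_eq, Finset.mem_univ, smul_eq_mul] at h2
  norm_num at h2

/-- The counterexample algebra. -/
def algA : StarSubalgebra ℂ (L2 (List Lett) →L[ℂ] L2 (List Lett)) :=
  (StarAlgebra.adjoin ℂ (Set.range uOp ∪ Set.range vOp)).topologicalClosure

instance algA_closed : IsClosed (algA : Set (L2 (List Lett) →L[ℂ] L2 (List Lett))) :=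
  StarSubalgebra.isClosed_topologicalClosure _

lemma mem_algA_of_gen {x : L2 (List Lett) →L[ℂ] L2 (List Lett)}
    (hx : x ∈ Set.range uOp ∪ Set.range vOp) : x ∈ algA :=
  StarSubalgebra.le_topologicalClosure _ (StarAlgebra.subset_adjoin ℂ _ hx)

lemma eOp_mem : eOp ∈ algA :=
  sub_mem (one_mem _) (sum_mem fun i _ => mul_mem (mem_algA_of_gen (Or.inr ⟨i, rfl⟩))
    (star_mem (mem_algA_of_gen (Or.inr ⟨i, rfl⟩))))

lemma countable_submonoid_closure {M : Type*} [Monoid M] {S : Set M} (hS : S.Countable) :
    (Submonoid.closure S : Set M).Countable := by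
  haveI := hS.to_subtype
  rw [Submonoid.closure_eq_mrange, MonoidHom.coe_mrange]
  haveI : Countable (FreeMonoid S) := inferInstanceAs (Countable (List S))
  exact Set.countable_range _

lemma adjoin_isSeparable {X : Type*} [NormedRing X] [NormedAlgebra ℂ X] [StarRing X] [StarModule ℂ X]
    {S : Set X} (hS : S.Countable) :
    TopologicalSpace.IsSeparable (StarAlgebra.adjoin ℂ S : Set X) := by
  have h2 : (S ∪ star S).Countable := by
    refine hS.union ?_
    rw [← Set.image_star]
    exact hS.image _
  have e : (StarAlgebra.adjoin ℂ S : Set X)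
      = (Submodule.span ℂ (Submonoid.closure (S ∪ star S) : Set X) : Set X) := by
    rw [← Algebra.adjoin_eq_span]
    rfl
  rw [e]
  exact (countable_submonoid_closure h2).isSeparable.span

instance algA_separable : TopologicalSpace.SeparableSpace algA := by
  have h : TopologicalSpace.IsSeparable (algA : Set (L2 (List Lett) →L[ℂ] L2 (List Lett))) := by
    rw [algA, StarSubalgebra.topologicalClosure_coe]
    exact (adjoin_isSeparable ((Set.countable_range _).union (Set.countable_range _))).closure
  exact h.separableSpace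

lemma l2_nontrivial {ι : Type} [DecidableEq ι] (i : ι) : (1 : L2 ι →L[ℂ] L2 ι) ≠ 0 := by
  intro h
  have h2 := congrArg (fun T => T (lp.single 2 i (1 : ℂ)) i) h
  simp at h2

instance algA_nontrivial : Nontrivial algA :=
  nontrivial_of_ne 1 0 fun h => l2_nontrivial ([] : List Lett) (congrArg Subtype.val h)


lemma val_vec_eq_zero {R : Type*} [Ring R] [Algebra ℂ R] [StarRing R] [StarModule ℂ R]
    (S : StarSubalgebra ℂ R) {ι : Type*} [Fintype ι] (a : ι → S) (e : S) (i₀ : ι) (c : ℂ)
    (h : a i₀ * e - c • ∑ i, a i * e = 0) :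
    (a i₀ : R) * (e : R) - c • ∑ i, (a i : R) * (e : R) = 0 := by
  have h2 := congrArg Subtype.val h
  simpa using h2

set_option maxRecDepth 8000 in
theorem algA_no_embedding {B : Type} [CStarAlgebra B] [Nontrivial B] (hB : IsCuntzTwo B)
    (ω : Ultrafilter ℕ) (φ : algA →⋆ₙₐ[ℂ] ultrapower B ω) : ¬ Function.Injective φ := by
  letI : PartialOrder B := CStarAlgebra.spectralOrder B
  haveI : StarOrderedRing B := CStarAlgebra.spectralOrderedRing B
  let u : Aff → algA := fun g => ⟨uOp g, mem_algA_of_gen (Or.inl ⟨g, rfl⟩)⟩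
  let V : Lett → algA := fun i => ⟨vOp i, mem_algA_of_gen (Or.inr ⟨i, rfl⟩)⟩
  let e₀ : algA := ⟨eOp, eOp_mem⟩
  refine core_no_embedding (u := u) (V := V) (e₀ := e₀) (fun g h => Subtype.ext (uOp_mul g h))
    (fun g => Subtype.ext (uOp_star g)) (fun i => Subtype.ext (vOp_star_mul i))
    (fun g i => Subtype.ext (uOp_vOp g i)) (fun g => Subtype.ext (uOp_eOp g)) ?_ hB
  intro h
  apply vec_ne_zero
  exact val_vec_eq_zero algA V e₀ 0 _ h

/-! ### A concrete algebra generated by a Cuntz pair -/

/-- The two standard isometries. -/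
def cuntzOp (i : Fin 2) : L2 ℕ →L[ℂ] L2 ℕ :=
  moveOp (fun n => 2 * n + (i : ℕ)) (twoMulAdd_injective i)

lemma cuntzOp_single (i : Fin 2) (n : ℕ) :
    cuntzOp i (lp.single 2 n (1 : ℂ)) = lp.single 2 (2 * n + (i : ℕ)) 1 := moveOp_single _ _ _

lemma star_cuntzOp (i : Fin 2) :
    star (cuntzOp i) = compOp (fun n => 2 * n + (i : ℕ)) (twoMulAdd_injective i) :=
  ContinuousLinearMap.adjoint_adjoint _

lemma cuntz_isometry (i : Fin 2) : star (cuntzOp i) * cuntzOp i = 1 := by
  refine op_ext fun n => ?_
  rw [ContinuousLinearMap.mul_apply, cuntzOp_single, star_cuntzOp]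
  exact compOp_single (fun n => 2 * n + (i : ℕ)) _ n

lemma cuntz_sum : cuntzOp 0 * star (cuntzOp 0) + cuntzOp 1 * star (cuntzOp 1) = 1 := by
  refine op_ext fun n => ?_
  simp only [add_apply, ContinuousLinearMap.mul_apply, ContinuousLinearMap.one_apply, star_cuntzOp]
  rcases Nat.even_or_odd' n with ⟨m, rfl | rfl⟩
  · have h0 : compOp (fun n => 2 * n + ((0 : Fin 2) : ℕ)) (twoMulAdd_injective _)
        (lp.single 2 (2 * m) (1 : ℂ)) = lp.single 2 m 1 := by
      exact compOp_single (fun n => 2 * n + ((0 : Fin 2) : ℕ)) _ m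
    rw [h0, compOp_single_of_not (fun n => 2 * n + ((1 : Fin 2) : ℕ)) _ _ (fun a => by simp; omega),
      cuntzOp_single, map_zero, add_zero]
    simp
  · have h1 : compOp (fun n => 2 * n + ((1 : Fin 2) : ℕ)) (twoMulAdd_injective _)
        (lp.single 2 (2 * m + 1) (1 : ℂ)) = lp.single 2 m 1 := by
      exact compOp_single (fun n => 2 * n + ((1 : Fin 2) : ℕ)) _ m
    rw [compOp_single_of_not (fun n => 2 * n + ((0 : Fin 2) : ℕ)) _ _ (fun a => by simp; omega), h1,
      cuntzOp_single, map_zero, zero_add]
    simp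

/-- A concrete algebra generated by a Cuntz pair. -/
def algB : StarSubalgebra ℂ (L2 ℕ →L[ℂ] L2 ℕ) :=
  (StarAlgebra.adjoin ℂ (Set.range cuntzOp)).topologicalClosure

instance algB_closed : IsClosed (algB : Set (L2 ℕ →L[ℂ] L2 ℕ)) :=
  StarSubalgebra.isClosed_topologicalClosure _

instance algB_nontrivial : Nontrivial algB :=
  nontrivial_of_ne 1 0 fun h => l2_nontrivial (0 : ℕ) (congrArg Subtype.val h)

lemma algB_cuntz : IsCuntzTwo algB := by
  let s : Fin 2 → algB := fun i =>
    ⟨cuntzOp i, StarSubalgebra.le_topologicalClosure _ (StarAlgebra.subset_adjoin ℂ _ ⟨i, rfl⟩)⟩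
  refine ⟨s, fun i => Subtype.ext (cuntz_isometry i), Subtype.ext cuntz_sum, ?_⟩
  refine eq_top_iff.mpr fun x _ => ?_
  rw [← SetLike.mem_coe, StarSubalgebra.topologicalClosure_coe, closure_subtype]
  have e : ((↑) : algB → L2 ℕ →L[ℂ] L2 ℕ) '' (StarAlgebra.adjoin ℂ (Set.range s) : Set algB)
      = (StarAlgebra.adjoin ℂ (Set.range cuntzOp) : Set (L2 ℕ →L[ℂ] L2 ℕ)) := by
    have h := StarAlgHom.map_adjoin (StarSubalgebra.subtype algB) (Set.range s)
    rw [← Set.range_comp] at h
    exact congrArg (fun S : StarSubalgebra ℂ (L2 ℕ →L[ℂ] L2 ℕ) => (S : Set (L2 ℕ →L[ℂ] L2 ℕ))) h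
  rw [e, ← StarSubalgebra.topologicalClosure_coe]
  exact x.2

end

end Vale.Agent.P083
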