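import Vale.Agent.P083.Base

/-!
The core contradiction: a C*-algebra carrying the self-similar structure has no embedding into
the ultrapower of an algebra generated by a Cuntz pair.
-/

namespace Vale.Agent.P083

open Filter Topology

set_option linter.unusedSectionVars false
set_option linter.unusedSimpArgs false

noncomputable section

lemma norm_le_of_null {C : Type*} [CStarAlgebra C] {a e : C} {δ : ℝ}
    (h1 : ‖star e * e - e‖ ≤ δ) (h2 : ‖star a * a - e‖ ≤ δ) : ‖a‖ ≤ 1 + δ := by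
  have e1 : ‖e‖ * ‖e‖ ≤ ‖e‖ + δ := by
    rw [← CStarRing.norm_star_mul_self]
    have := norm_le_norm_add_norm_sub' (star e * e) e
    linarith
  have a1 : ‖a‖ * ‖a‖ ≤ ‖e‖ + δ := by
    rw [← CStarRing.norm_star_mul_self]
    have := norm_le_norm_add_norm_sub' (star a * a) e
    linarith
  have hδ : 0 ≤ δ := (norm_nonneg _).trans h1
  have e2 : ‖e‖ ≤ 1 + δ := by nlinarith [norm_nonneg e]
  nlinarith [norm_nonneg a]

lemma half_le_of_bounds {r s c : ℝ} (hc : 0 < c) (hs : c ≤ s) (h : s ≤ r * s + c / 4) :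
    1 / 2 ≤ r := by
  by_contra hr
  push Not at hr
  nlinarith

lemma sum_star_mul_sum {R : Type*} [Ring R] [StarRing R] {ι : Type*} [Fintype ι] [DecidableEq ι]
    (w : ι → R) (c X : R) (h : ∀ i m, star (w i) * w m = if i = m then c else 0) :
    star ((∑ i, w i) * X) * ((∑ i, w i) * X) = Fintype.card ι • (star X * (c * X)) := by
  rw [star_mul, mul_assoc, ← mul_assoc (star (∑ i, w i)), star_sum, Finset.sum_mul]
  simp only [Finset.mul_sum, h, Finset.sum_ite_eq, Finset.mem_univ, if_true, Finset.sum_const,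
    Finset.card_univ, smul_mul_assoc, mul_smul_comm]

lemma sum_fixed {R : Type*} [Ring R] [StarRing R] [Algebra ℂ R] {ι : Type*} [Fintype ι]
    (w : ι → R) (X : R) (h : ∀ i, w i * X = X ∧ star (w i) * X = X) :
    star X * (∑ i, (w i + star (w i))) * X = ((2 * Fintype.card ι : ℝ) : ℂ) • (star X * X) := by
  rw [mul_assoc, Finset.sum_mul]
  simp only [add_mul, (h _).1, (h _).2, Finset.sum_const, Finset.card_univ]
  rw [← Nat.cast_smul_eq_nsmul ℂ, ← two_smul ℂ X, smul_smul, mul_smul_comm]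
  congr 1
  push_cast
  ring

variable {A : Type} [CStarAlgebra A] {B : Type} [CStarAlgebra B] [PartialOrder B]
  [StarOrderedRing B] {ω : Ultrafilter ℕ} {φ : A →⋆ₙₐ[ℂ] ultrapower B ω}
  {u : Aff → A} (hu : ∀ g h, u g * u h = u (g * h)) (hus : ∀ g, star (u g) = u g⁻¹)
  {V : Lett → A} (hV : ∀ i, star (V i) * V i = u 1)
  (hVu : ∀ g i, u g * V i = V (headAct g i) * u (sect g i))
  {e₀ : A} (he : ∀ g, u g * e₀ = e₀)
  (hne : V 0 * e₀ - ((1 : ℂ) / 125) • ∑ i, V i * e₀ ≠ 0)

include hu hus in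
/-- The invariant new part at all levels. -/
lemma exists_new_part : ∃ (F G : AsympQuot (LevM B levK) (pairFilter ω)),
    G * lap (repK B ω φ u) = 1 - F ∧
      ∀ g ∈ G₀, repK B ω φ u g * (qEl B ω * F) = qEl B ω * F := by
  obtain ⟨F, G, sF, hF, hG, hFinv⟩ :=
    exists_kernel_proj (L := repK B ω φ u) (levL_mul hu) (levL_star hus)
  refine ⟨F, G, hG, fun g hg => ?_⟩
  rw [← mul_assoc, ← qEl_rep, mul_assoc, hFinv g hg]

include hu hus hV hVu in
/-- The propagation identities. -/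
lemma propagation {F G : AsympQuot (LevM B levK) (pairFilter ω)}
    (hG : G * lap (repK B ω φ u) = 1 - F)
    (hLX : ∀ g ∈ G₀, repK B ω φ u g * (qEl B ω * F) = qEl B ω * F) :
    ∃ Y : AsympQuot (LevM B levK1) (pairFilter ω),
      nextMap B ω (qEl B ω * F) * Y = Y ∧
        star Y * Y = (125 : ℂ) • cornerMap B ω (star (qEl B ω * F) * (qEl B ω * F)) := by
  set X := qEl B ω * F with hX
  refine ⟨(∑ i, wEl B ω φ V i) * cornerMap B ω X, ?_, ?_⟩
  · set Y := (∑ i, wEl B ω φ V i) * cornerMap B ω X with hY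
    have hLY : ∀ g ∈ gens, repK1 B ω φ u g * Y = Y := by
      intro g hg
      rw [hY, ← mul_assoc, Finset.mul_sum]
      simp only [shift_rel φ hVu, Finset.sum_mul, mul_assoc]
      simp only [← map_mul, hLX _ (sect_gen_mem hg _)]
      exact (headAct_bijective g).sum_comp (fun i => wEl B ω φ V i * cornerMap B ω X)
    have hF'Y : nextMap B ω F * Y = Y := by
      have h1 : lap (repK1 B ω φ u) * Y = 0 := lap_mul_eq_zero hLY
      have h2 : (nextMap B ω 1 - nextMap B ω F) * Y = 0 := by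
        rw [← map_sub, ← hG, map_mul, nextMap_lap, mul_assoc, h1, mul_zero]
      rw [nextMap_one, sub_mul, one_mul, sub_eq_zero] at h2
      exact h2.symm
    have hQY : nextMap B ω (qEl B ω) * Y = Y := by
      rw [hY, ← mul_assoc, Finset.mul_sum, Finset.sum_mul, Finset.sum_mul]
      refine Finset.sum_congr rfl fun i _ => ?_
      rw [qEl_wEl, mul_assoc, ← map_mul, hX, ← mul_assoc, qEl_idem]
    rw [hX, map_mul, mul_assoc, hF'Y, hQY]
  · rw [sum_star_mul_sum (wEl B ω φ V) (cornerMap B ω (repK B ω φ u 1)) (cornerMap B ω X)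
      (wEl_star_mul φ hV), ← map_mul, hLX 1 G₀.one_mem, ← map_star (cornerMap B ω), ← map_mul,
      ← Nat.cast_smul_eq_nsmul ℂ]
    have hcard : ((Fintype.card Lett : ℕ) : ℂ) = 125 := by simp [ZMod.card]
    simp only [hcard]

include hu hus hVu he hne in
/-- The base level. -/
lemma base_event {F G : AsympQuot (LevM B levK) (pairFilter ω)}
    (hG : G * lap (repK B ω φ u) = 1 - F) (hφ : Function.Injective φ)
    {x : BddFam (LevM B levK)} (hx : asyMk (LevM B levK) (pairFilter ω) x = qEl B ω * F) :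
    ∀ᶠ n in (ω : Filter ℕ), 1 / 2 ≤ ‖x.1 (n, 0)‖ := by
  obtain ⟨z, hz, c, hc, hev⟩ := baseVec_lower (V := V) (e₀ := e₀) hφ hne
  have hFΞ : baseMap B ω F * baseVec φ V e₀ = baseVec φ V e₀ := by
    have h1 : lap (rep0 B ω φ u) * baseVec φ V e₀ = 0 :=
      lap_mul_eq_zero fun g _ => baseVec_fixed hVu he g
    have h2 : (baseMap B ω 1 - baseMap B ω F) * baseVec φ V e₀ = 0 := by
      rw [← map_sub, ← hG, map_mul, baseMap_lap, mul_assoc, h1, mul_zero]
    rw [baseMap_one, sub_mul, one_mul, sub_eq_zero] at h2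
    exact h2.symm
  have hXz : Tendsto (fun n : ℕ => ‖x.1 (n, 0) * z.1 n - z.1 n‖) (ω : Filter ℕ) (𝓝 0) := by
    have h : baseMap B ω (asyMk (LevM B levK) (pairFilter ω) x) * asyMk (LevM B lev0) (ω : Filter ℕ) z
        = asyMk (LevM B lev0) (ω : Filter ℕ) z := by
      rw [hx, hz, map_mul, mul_assoc, hFΞ, qEl_baseVec]
    rw [baseMap, asyMap_mk, ← map_mul, asyMk_eq_iff] at h
    exact h
  filter_upwards [hev, hXz.eventually (ge_mem_nhds (show (0:ℝ) < c / 4 by linarith))] with n p1 p2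
  obtain ⟨a, ha⟩ : ∃ a : LevM B lev0 n, a = x.1 (n, 0) := ⟨_, rfl⟩
  show 1 / 2 ≤ ‖(x.1 (n, 0) : LevM B lev0 n)‖
  rw [← ha]
  have p2' : ‖a * z.1 n - z.1 n‖ ≤ c / 4 := ha ▸ p2
  have h5 := norm_le_norm_add_norm_sub' (z.1 n) (a * z.1 n)
  rw [norm_sub_rev] at h5
  have h6 := norm_mul_le a (z.1 n)
  exact half_le_of_bounds hc p1 (h5.trans (add_le_add h6 p2'))

include hu hus in
/-- The eventual bound on the finitely many lifted generators. -/
lemma gen_bound {U : GenIdx → BddFam (fun _ : ℕ => B)}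
    (hU : ∀ s, asyMk (fun _ : ℕ => B) (ω : Filter ℕ) (U s) = φ (u (genOf s))) {η : ℝ} (hη : 0 < η) :
    ∀ᶠ n in (ω : Filter ℕ), ∀ s, ‖(U s).1 n‖ ≤ 1 + η := by
  obtain ⟨E, hE⟩ := asyMk_surjective (φ (u 1))
  rw [eventually_all]
  intro s
  have h1 : asyMk (fun _ : ℕ => B) (ω : Filter ℕ) (star E * E) = asyMk _ _ E := by
    rw [map_mul, map_star, hE, ← map_star φ, ← map_mul φ, hus, hu, inv_one, one_mul]
  have h2 : asyMk (fun _ : ℕ => B) (ω : Filter ℕ) (star (U s) * U s) = asyMk _ _ E := by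
    rw [map_mul, map_star, hU, hE, ← map_star φ, ← map_mul φ, hus, hu, inv_mul_cancel]
  rw [asyMk_eq_iff] at h1 h2
  filter_upwards [h1.eventually (ge_mem_nhds hη), h2.eventually (ge_mem_nhds hη)] with n p1 p2
  exact norm_le_of_null p1 p2

lemma eventually_all_levels {h : ℕ × ℕ → ℝ} (hh : Tendsto h (pairFilter ω) (𝓝 0)) {ε : ℝ}
    (hε : 0 < ε) : ∀ᶠ n in (ω : Filter ℕ), ∀ k, h (n, k) ≤ ε := by
  have := hh.eventually (ge_mem_nhds hε)
  rw [pairFilter, eventually_comap] at this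
  filter_upwards [this] with n hn k
  exact hn (n, k) rfl

include hus in
/-- The generators act trivially on the new part, asymptotically uniformly in the level. -/
lemma op_null {F : AsympQuot (LevM B levK) (pairFilter ω)}
    (hLX : ∀ g ∈ G₀, repK B ω φ u g * (qEl B ω * F) = qEl B ω * F)
    {x : BddFam (LevM B levK)} (hxX : asyMk (LevM B levK) (pairFilter ω) x = qEl B ω * F)
    {U : GenIdx → BddFam (fun _ : ℕ => B)}
    (hU : ∀ s, asyMk (fun _ : ℕ => B) (ω : Filter ℕ) (U s) = φ (u (genOf s))) :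
    Tendsto (fun j : ℕ × ℕ =>
      ‖star (x.1 j) * levOp j.2 (fun s => (U s).1 j.1) * x.1 j
        - ((2 * Fintype.card GenIdx : ℝ) : ℂ) • (star (x.1 j) * x.1 j)‖) (pairFilter ω) (𝓝 0) := by
  let term : GenIdx → BddFam (LevM B levK) := fun s => permFam levK (genOf s)
    * famMap (M' := LevM B levK) Prod.fst
        (fun j => (dg (n := Lev (levK j + 1)) (B := B)).toNonUnitalStarAlgHom) (U s)
  have hmk : ∀ s, asyMk (LevM B levK) (pairFilter ω) (term s) = repK B ω φ u (genOf s) := by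
    intro s
    show _ = levL levK _ φ u (genOf s)
    rw [levL, ← hU s, map_mul]
    rfl
  obtain ⟨T, hT⟩ : ∃ T : BddFam (LevM B levK), T = ∑ s, (term s + star (term s)) := ⟨_, rfl⟩
  have hTmk : asyMk (LevM B levK) (pairFilter ω) T
      = ∑ s, (repK B ω φ u (genOf s) + star (repK B ω φ u (genOf s))) := by
    rw [hT, map_sum]
    exact Finset.sum_congr rfl fun s _ => by rw [map_add, map_star, hmk s]
  have h : asyMk (LevM B levK) (pairFilter ω) (star x * T * x)
      = asyMk _ _ (((2 * Fintype.card GenIdx : ℝ) : ℂ) • (star x * x)) := by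
    rw [map_smul, map_mul, map_mul, map_mul, map_star, hxX, hTmk]
    refine sum_fixed _ _ fun s => ⟨hLX _ (Subgroup.subset_closure (genOf_mem s)), ?_⟩
    rw [levL_star hus]
    exact hLX _ (inv_mem (Subgroup.subset_closure (genOf_mem s)))
  rw [asyMk_eq_iff] at h
  refine h.congr fun j => ?_
  have hv : T.1 j = levOp j.2 (fun s => (U s).1 j.1) := by
    rw [hT, levOp, AddSubmonoidClass.coe_finsetSum, Finset.sum_apply]
    rfl
  rw [← hv]
  rfl

include hu hus hV hVu he hne in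
theorem core_no_embedding [Nontrivial B] (hB : IsCuntzTwo B) : ¬ Function.Injective φ := by
  intro hφ
  obtain ⟨F, G, hG, hLX⟩ := exists_new_part (φ := φ) hu hus
  obtain ⟨f, hf⟩ := asyMk_surjective F
  set x : BddFam (LevM B levK) := qFam B * f with hxdef
  have hxX : asyMk (LevM B levK) (pairFilter ω) x = qEl B ω * F := by rw [hxdef, map_mul, hf]; rfl
  obtain ⟨Y, hXY, hYY⟩ := propagation hu hus hV hVu hG hLX
  obtain ⟨y, rfl⟩ := asyMk_surjective Y
  obtain ⟨η, hη, hlevel⟩ := level_bound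
  choose U hU using fun s : GenIdx => asyMk_surjective (φ (u (genOf s)))
  -- the generators act trivially on the new part
  have hc1 := op_null hus hLX hxX hU
  have hc2 : Tendsto (fun j : ℕ × ℕ => ‖x.1 (j.1, j.2 + 1) * y.1 j - y.1 j‖) (pairFilter ω) (𝓝 0) := by
    rw [← hxX, nextMap, asyMap_mk, ← map_mul, asyMk_eq_iff] at hXY
    exact hXY
  have hc3 : Tendsto (fun j : ℕ × ℕ =>
      ‖star (y.1 j) * y.1 j - (125 : ℂ) • (cornerB j.2 (star (x.1 j) * x.1 j) : LevM B levK1 j)‖)
      (pairFilter ω) (𝓝 0) := by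
    rw [← hxX, ← map_star, ← map_mul, ← map_star, ← map_mul, cornerMap, asyMap_mk, ← map_smul,
      asyMk_eq_iff] at hYY
    exact hYY
  obtain ⟨n, hn1, hn2, hn3, hn4, hn5⟩ :=
    ((gen_bound hu hus hU hη).and ((base_event hu hus hVu he hne hG hφ hxX).and
      ((eventually_all_levels hc1 (show 0 < η / 4 by linarith)).and
        ((eventually_all_levels hc2 (show (0:ℝ) < 1 / 2 by norm_num)).and
          (eventually_all_levels hc3 one_pos))))).exists
  have hall : ∀ k, 1 / 2 ≤ ‖x.1 (n, k)‖ := by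
    intro k
    induction k with
    | zero => exact hn2
    | succ k ih =>
      have h3 := hn5 k
      have h2 := hn4 k
      have e : ‖(125 : ℂ) • (cornerB k (star (x.1 (n, k)) * x.1 (n, k)) : LevM B levK1 (n, k))‖
          = 125 * (‖x.1 (n, k)‖ * ‖x.1 (n, k)‖) := by
        rw [norm_smul, ← CStarRing.norm_star_mul_self]
        congr 1
        · norm_num
        · exact norm_cornerB k _
      have h4 := norm_le_norm_add_norm_sub' ((125 : ℂ) • (cornerB k (star (x.1 (n, k)) * x.1 (n, k)) : LevM B levK1 (n, k))) (star (y.1 (n, k)) * y.1 (n, k))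
      rw [e, CStarRing.norm_star_mul_self, norm_sub_rev] at h4
      have hy1 : 1 ≤ ‖y.1 (n, k)‖ := by
        have := mul_le_mul ih ih (by norm_num) (norm_nonneg _)
        nlinarith [norm_nonneg (y.1 (n, k))]
      have h5 := norm_le_norm_add_norm_sub' (y.1 (n, k)) (x.1 (n, k + 1) * y.1 (n, k))
      rw [norm_sub_rev] at h5
      have h6 : ‖x.1 (n, k + 1) * y.1 (n, k)‖ ≤ ‖x.1 (n, k + 1)‖ * ‖y.1 (n, k)‖ := norm_mul_le _ _
      nlinarith [norm_nonneg (x.1 (n, k + 1))]
  obtain ⟨k₀, hk₀⟩ := hlevel B hB (fun s => (U s).1 n) hn1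
  have hzero : x.1 (n, k₀) = 0 := by
    refine hk₀ k₀ le_rfl (x.1 (n, k₀)) ?_ ?_
    · show sc B (qmat k₀) * (sc B (qmat k₀) * f.1 (n, k₀)) = sc B (qmat k₀) * f.1 (n, k₀)
      rw [← mul_assoc, ← map_mul, qmat_idem]
    · have h1 := hn3 k₀
      have h2 := hall k₀
      refine h1.trans ?_
      nlinarith [mul_le_mul h2 h2 (by norm_num) (norm_nonneg _)]
  have := hall k₀
  rw [hzero, norm_zero] at this
  norm_num at this

end

end Vale.Agent.P083
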