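import Vale.Agent.P083.Mat

/-!
Finite-dimensional factorisation of a C*-algebra generated by a Cuntz pair.
-/

namespace Vale.Agent.P083

open scoped ComplexOrder MatrixOrder
open Matrix

set_option linter.unusedSectionVars false
set_option linter.unusedSimpArgs false
set_option linter.style.haveILetI false

noncomputable section

variable {B : Type*} [CStarAlgebra B] [PartialOrder B] [StarOrderedRing B]

/-- The product of the isometries along a word. -/
def sw (s : Fin 2 → B) (μ : List (Fin 2)) : B := (μ.map s).prod

variable {s : Fin 2 → B}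

lemma sw_append (μ ν : List (Fin 2)) : sw s (μ ++ ν) = sw s μ * sw s ν := by simp [sw]

lemma sw_cons (i : Fin 2) (μ : List (Fin 2)) : sw s (i :: μ) = s i * sw s μ := by simp [sw]

@[simp] lemma sw_nil : sw s [] = 1 := rfl

/-- The finite set of words of a given length. -/
def words : ℕ → Finset (List (Fin 2))
  | 0 => {[]}
  | n + 1 => (Finset.univ ×ˢ words n).image fun p => p.1 :: p.2

lemma mem_words {n : ℕ} {μ : List (Fin 2)} : μ ∈ words n ↔ μ.length = n := by
  induction n generalizing μ with
  | zero => simp [words]
  | succ n ih =>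
    simp only [words, Finset.mem_image, Finset.mem_product, Finset.mem_univ, true_and]
    constructor
    · rintro ⟨p, hp, rfl⟩; simp [ih.mp hp]
    · intro h
      cases μ with
      | nil => simp at h
      | cons a t => exact ⟨(a, t), ih.mpr (by simpa using h), rfl⟩

section rels

variable (h1 : ∀ i, star (s i) * s i = 1) (h2 : s 0 * star (s 0) + s 1 * star (s 1) = 1)

include h1 h2 in
lemma star_s_mul (i j : Fin 2) : star (s i) * s j = if i = j then 1 else 0 := by
  have key : star (s 0) * s 1 = 0 := by
    have h := congrArg (fun x => star (s 0) * x * s 0) h2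
    simp only [mul_add, add_mul, mul_one, h1] at h
    rw [← mul_assoc, h1, one_mul, h1] at h
    have h' : star (s 0) * (s 1 * star (s 1)) * s 0 = 0 := add_eq_left.mp h
    have : (star (s 0) * s 1) * star (star (s 0) * s 1) = 0 := by
      rw [star_mul, star_star, ← h']
      simp only [mul_assoc]
    exact CStarRing.mul_star_self_eq_zero_iff _ |>.mp this
  fin_cases i <;> fin_cases j
  · simp [h1]
  · simp [key]
  · have := congrArg star key
    simp only [star_mul, star_star, star_zero] at this
    simp [this]
  · simp [h1]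

include h1 h2 in
lemma star_sw_mul {μ α : List (Fin 2)} (h : μ.length ≤ α.length) :
    star (sw s μ) * sw s α = if μ <+: α then sw s (α.drop μ.length) else 0 := by
  induction μ generalizing α with
  | nil => simp
  | cons i μ ih =>
    cases α with
    | nil => simp at h
    | cons j α =>
      rw [sw_cons, sw_cons, star_mul, mul_assoc, ← mul_assoc (star (s i)), star_s_mul h1 h2]
      by_cases hij : i = j
      · subst hij
        simp [ih (by simpa using h)]
      · simp [hij, List.cons_prefix_cons]

/-- The aperiodic marker word. -/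
def marker (L : ℕ) : List (Fin 2) := List.replicate L 0 ++ [1]

lemma marker_aperiodic {L : ℕ} {γ γ' : List (Fin 2)} (hγ : γ'.length ≤ L)
    (hle : γ.length ≤ γ'.length) (h : γ ++ marker L <+: γ' ++ marker L) : γ = γ' := by
  obtain ⟨ρ, rfl⟩ : γ <+: γ' :=
    List.prefix_of_prefix_length_le ((List.prefix_append γ (marker L)).trans h)
      (List.prefix_append γ' (marker L)) hle
  cases ρ with
  | nil => simp
  | cons a t =>
    exfalso
    rw [List.append_assoc, List.prefix_append_right_inj] at h
    have hlen : (marker L).length = L + 1 := by simp [marker]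
    have hat : t.length < L := by simp at hγ; omega
    have h3 := h.getElem (i := L) (by omega)
    rw [List.getElem_append_right (by simp; omega)] at h3
    simp only [List.length_cons, marker] at h3
    rw [List.getElem_append_right (by simp), List.getElem_append_left (by simp; omega)] at h3
    simp at h3

include h1 h2 in
lemma orth_marker {L : ℕ} {γ γ' : List (Fin 2)} (hγ : γ.length ≤ L) (hγ' : γ'.length ≤ L) :
    star (sw s (γ ++ marker L)) * sw s (γ' ++ marker L) = if γ = γ' then 1 else 0 := by
  wlog hle : γ.length ≤ γ'.length generalizing γ γ'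
  · have := congrArg star (this hγ' hγ (le_of_not_ge hle))
    rw [star_mul, star_star] at this
    rw [this, apply_ite star, star_one, star_zero]
    exact if_congr eq_comm rfl rfl
  rw [star_sw_mul h1 h2 (by simp [hle])]
  by_cases h : γ = γ'
  · subst h; simp
  · rw [if_neg h, if_neg]
    exact fun hp => h (marker_aperiodic hγ' hle hp)

include h1 h2 in
lemma sum_words (n : ℕ) : ∑ μ ∈ words n, sw s μ * star (sw s μ) = 1 := by
  induction n with
  | zero => simp [words]
  | succ n ih =>
    rw [words, Finset.sum_image, Finset.sum_product, Fin.sum_univ_two]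
    · have : ∀ i : Fin 2, ∑ y ∈ words n, sw s (i :: y) * star (sw s (i :: y)) = s i * star (s i) := by
        intro i
        have e : ∀ y, sw s (i :: y) * star (sw s (i :: y))
            = s i * (sw s y * star (sw s y)) * star (s i) := by
          intro y; rw [sw_cons, star_mul]; simp only [mul_assoc]
        simp only [e]
        rw [← Finset.sum_mul, ← Finset.mul_sum, ih, mul_one]
      rw [this, this, h2]
    · intro p _ q _ h
      simp only [List.cons.injEq] at h
      exact Prod.ext h.1 h.2

include h1 h2 in
lemma mul_mem_span {x y : B}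
    (hx : x ∈ Submodule.span ℂ (Set.range fun p : List (Fin 2) × List (Fin 2) => sw s p.1 * star (sw s p.2)))
    (hy : y ∈ Submodule.span ℂ (Set.range fun p : List (Fin 2) × List (Fin 2) => sw s p.1 * star (sw s p.2))) :
    x * y ∈ Submodule.span ℂ (Set.range fun p : List (Fin 2) × List (Fin 2) => sw s p.1 * star (sw s p.2)) := by
  induction hx using Submodule.span_induction with
  | zero => simp
  | add a b _ _ ha hb => rw [add_mul]; exact Submodule.add_mem _ ha hb
  | smul c a _ ha => rw [smul_mul_assoc]; exact Submodule.smul_mem _ c ha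
  | mem a ha =>
    obtain ⟨⟨μ, ν⟩, rfl⟩ := ha
    induction hy using Submodule.span_induction with
    | zero => simp
    | add a b _ _ ha hb => rw [mul_add]; exact Submodule.add_mem _ ha hb
    | smul c a _ ha => rw [mul_smul_comm]; exact Submodule.smul_mem _ c ha
    | mem b hb =>
      obtain ⟨⟨ρ, σ⟩, rfl⟩ := hb
      simp only
      rcases le_total ν.length ρ.length with h | h
      · rw [← mul_assoc, mul_assoc (sw s μ), star_sw_mul h1 h2 h]
        split_ifs
        · exact Submodule.subset_span ⟨(μ ++ ρ.drop ν.length, σ), by simp [sw_append]⟩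
        · simp
      · have e : star (sw s ν) * sw s ρ = if ρ <+: ν then star (sw s (ν.drop ρ.length)) else 0 := by
          have := congrArg star (star_sw_mul h1 h2 h)
          rw [star_mul, star_star] at this
          rw [this, apply_ite star, star_zero]
        rw [← mul_assoc, mul_assoc (sw s μ), e]
        split_ifs
        · exact Submodule.subset_span ⟨(μ, σ ++ ν.drop ρ.length), by simp [sw_append, mul_assoc]⟩
        · simp

include h1 h2 in
lemma adjoin_le_span {x : B} (hx : x ∈ StarAlgebra.adjoin ℂ (Set.range s)) :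
    x ∈ Submodule.span ℂ (Set.range fun p : List (Fin 2) × List (Fin 2) => sw s p.1 * star (sw s p.2)) := by
  induction hx using StarAlgebra.adjoin_induction with
  | mem a ha =>
    obtain ⟨i, rfl⟩ := ha
    exact Submodule.subset_span ⟨([i], []), by simp [sw]⟩
  | algebraMap r =>
    rw [Algebra.algebraMap_eq_smul_one]
    exact Submodule.smul_mem _ r (Submodule.subset_span ⟨([], []), by simp⟩)
  | add a b _ _ ha hb => exact Submodule.add_mem _ ha hb
  | mul a b _ _ ha hb => exact mul_mem_span h1 h2 ha hb
  | star a hmem ha =>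
    clear hmem
    induction ha using Submodule.span_induction with
    | zero => simp
    | add a b _ _ ha hb => rw [star_add]; exact Submodule.add_mem _ ha hb
    | smul c a _ ha => rw [star_smul]; exact Submodule.smul_mem _ _ ha
    | mem b hb =>
      obtain ⟨⟨μ, ν⟩, rfl⟩ := hb
      exact Submodule.subset_span ⟨(ν, μ), by simp⟩

/-- The window of words. -/
def window (K m : ℕ) : Finset (List (Fin 2)) := (Finset.Ico K (K + m)).biUnion words

lemma mem_window {K m : ℕ} {α : List (Fin 2)} :
    α ∈ window K m ↔ K ≤ α.length ∧ α.length < K + m := by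
  simp [window, mem_words]

/-- The compressed matrix of a pair of words. -/
def wmat (K m : ℕ) (μ ν : List (Fin 2)) : Matrix (window K m) (window K m) ℂ :=
  Matrix.of fun α β =>
    if μ <+: α.1 ∧ ν <+: β.1 ∧ α.1.drop μ.length = β.1.drop ν.length then 1 else 0

include h1 h2 in
lemma compress_word {K m : ℕ} {μ ν : List (Fin 2)} (hμ : μ.length ≤ K) (hν : ν.length ≤ K)
    (α β : window K m) :
    star (sw s (α.1 ++ marker (K + m))) * (sw s μ * star (sw s ν)) * sw s (β.1 ++ marker (K + m))
      = algebraMap ℂ B (wmat K m μ ν α β) := by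
  have hα := mem_window.mp α.2
  have hβ := mem_window.mp β.2
  have ea : star (sw s μ) * sw s (α.1 ++ marker (K + m))
      = if μ <+: α.1 then sw s (α.1.drop μ.length ++ marker (K + m)) else 0 := by
    rw [sw_append, ← mul_assoc, star_sw_mul h1 h2 (by omega), ite_mul, zero_mul, ← sw_append]
  have eb : star (sw s ν) * sw s (β.1 ++ marker (K + m))
      = if ν <+: β.1 then sw s (β.1.drop ν.length ++ marker (K + m)) else 0 := by
    rw [sw_append, ← mul_assoc, star_sw_mul h1 h2 (by omega), ite_mul, zero_mul, ← sw_append]
  calc star (sw s (α.1 ++ marker (K + m))) * (sw s μ * star (sw s ν)) * sw s (β.1 ++ marker (K + m))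
      = star (star (sw s μ) * sw s (α.1 ++ marker (K + m)))
          * (star (sw s ν) * sw s (β.1 ++ marker (K + m))) := by
        rw [star_mul, star_star]; simp only [mul_assoc]
    _ = _ := by
        rw [ea, eb, wmat, Matrix.of_apply]
        by_cases ha : μ <+: α.1 <;> by_cases hb : ν <+: β.1 <;> simp [ha, hb]
        rw [orth_marker h1 h2 (by simp; omega) (by simp; omega)]

include h1 h2 in
lemma expand_word {K m : ℕ} {μ ν : List (Fin 2)} (hμ : μ.length ≤ K) (hν : ν.length ≤ K) :
    ∃ c : ℕ, c ≤ m ∧ m ≤ c + (μ.length + ν.length) ∧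
      ∑ α : window K m, ∑ β : window K m, wmat K m μ ν α β • (sw s α.1 * star (sw s β.1))
        = (c : ℂ) • (sw s μ * star (sw s ν)) := by
  set good := (Finset.Ico K (K + m)).filter
    (fun i => K + μ.length ≤ i + ν.length ∧ i + ν.length < K + m + μ.length) with hgood
  refine ⟨good.card, (Finset.card_filter_le _ _).trans (by simp), ?_, ?_⟩
  · have hsub : Finset.Ico (K + μ.length) (K + m - ν.length) ⊆ good := by
      intro i hi
      simp only [Finset.mem_Ico] at hi
      simp only [hgood, Finset.mem_filter, Finset.mem_Ico]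
      omega
    have := Finset.card_le_card hsub
    simp at this
    omega
  · have inner : ∀ α : window K m,
        ∑ β : window K m, wmat K m μ ν α β • (sw s α.1 * star (sw s β.1))
          = if μ <+: α.1 ∧ ν ++ α.1.drop μ.length ∈ window K m
            then sw s α.1 * star (sw s (ν ++ α.1.drop μ.length)) else 0 := by
      intro α
      split_ifs with h
      · rw [Finset.sum_eq_single ⟨_, h.2⟩]
        · simp [wmat, h.1]
        · intro β _ hβ
          simp only [wmat, Matrix.of_apply, ite_smul, one_smul, zero_smul, ite_eq_right_iff]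
          rintro ⟨-, hb, he⟩
          exact absurd (Subtype.ext (((List.prefix_iff_eq_append.mp hb).symm).trans (congrArg (ν ++ ·) he.symm))) hβ
        · simp
      · refine Finset.sum_eq_zero fun β _ => ?_
        simp only [wmat, Matrix.of_apply, ite_smul, one_smul, zero_smul, ite_eq_right_iff]
        rintro ⟨ha, hb, he⟩
        refine absurd ⟨ha, ?_⟩ h
        rw [he, List.prefix_iff_eq_append.mp hb]
        exact β.2
    simp only [inner]
    rw [Finset.sum_coe_sort (window K m) (fun a => if μ <+: a ∧ ν ++ a.drop μ.length ∈ window K m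
      then sw s a * star (sw s (ν ++ a.drop μ.length)) else (0 : B))]
    rw [window, Finset.sum_biUnion, ← window]
    swap
    · intro i _ j _ hij
      exact Finset.disjoint_left.mpr fun a ha hb => hij (by rw [← mem_words.mp ha, mem_words.mp hb])
    rw [Nat.cast_smul_eq_nsmul ℂ, ← Finset.sum_const, hgood, Finset.sum_filter]
    refine Finset.sum_congr rfl fun i hi => ?_
    simp only [Finset.mem_Ico] at hi
    have hlen : ∀ γ : List (Fin 2), γ.length = i - μ.length →
        ((ν ++ γ ∈ window K m) ↔ (K + μ.length ≤ i + ν.length ∧ i + ν.length < K + m + μ.length)) := by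
      intro γ hγ
      rw [mem_window, List.length_append, hγ]; omega
    have himg : (words i).filter (fun a => μ <+: a) = (words (i - μ.length)).image (μ ++ ·) := by
      ext a
      simp only [Finset.mem_filter, mem_words, Finset.mem_image]
      constructor
      · rintro ⟨ha, hp⟩
        exact ⟨a.drop μ.length, by simp [ha], List.prefix_iff_eq_append.mp hp⟩
      · rintro ⟨γ, hγ, rfl⟩
        exact ⟨by simp [hγ]; omega, List.prefix_append _ _⟩
    simp only [ite_and]
    rw [← Finset.sum_filter, himg, Finset.sum_image (fun a _ b _ h => List.append_cancel_left h)]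
    rw [show (∑ γ ∈ words (i - μ.length), if ν ++ (μ ++ γ).drop μ.length ∈ window K m
        then sw s (μ ++ γ) * star (sw s (ν ++ (μ ++ γ).drop μ.length)) else (0 : B))
      = ∑ γ ∈ words (i - μ.length),
          if K + μ.length ≤ i + ν.length ∧ i + ν.length < K + m + μ.length
          then sw s μ * (sw s γ * star (sw s γ)) * star (sw s ν) else 0 from
      Finset.sum_congr rfl fun γ hγ => by
        rw [List.drop_left]
        refine if_congr (hlen γ (mem_words.mp hγ)) ?_ rfl
        rw [sw_append, sw_append, star_mul]; simp only [mul_assoc]]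
    simp only [← ite_and]
    split_ifs
    · rw [← Finset.sum_mul, ← Finset.mul_sum, sum_words h1 h2, mul_one]
    · simp

include h1 h2 in
theorem cuntz_approx [Nontrivial B] (hdense : (StarAlgebra.adjoin ℂ (Set.range s)).topologicalClosure = ⊤)
    {S : Type*} [Finite S] (U : S → B) (hU : ∀ i, ‖U i‖ ≤ 1) {η : ℝ} (hη : 0 < η) :
    ∃ (N : Finset (List (Fin 2))) (y : N → B) (b : S → Matrix N N ℂ),
      (∑ α, y α * star (y α) = 1) ∧
        ∀ i, (1 - (b i)ᴴ * b i).PosSemidef ∧
          ‖U i - ∑ α, ∑ β, b i α β • (y α * star (y β))‖ ≤ η := by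
  haveI := Fintype.ofFinite S
  classical
  -- polynomial approximation
  have happ : ∀ i, ∃ c : (List (Fin 2) × List (Fin 2)) →₀ ℂ,
      ‖U i - ∑ p ∈ c.support, c p • (sw s p.1 * star (sw s p.2))‖ ≤ η / 4 ∧
      ‖∑ p ∈ c.support, c p • (sw s p.1 * star (sw s p.2))‖ ≤ 1 := by
    intro i
    have hmem : U i ∈ closure ((StarAlgebra.adjoin ℂ (Set.range s) : StarSubalgebra ℂ B) : Set B) := by
      rw [← StarSubalgebra.topologicalClosure_coe, hdense]; trivial
    set δ := η / 16 with hδdef
    have hδ : 0 < δ := by rw [hδdef]; linarith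
    obtain ⟨P, hP, hPd⟩ := Metric.mem_closure_iff.mp hmem δ hδ
    rw [dist_eq_norm] at hPd
    have hPn : ‖P‖ ≤ 1 + δ := by
      have := norm_le_norm_add_norm_sub' P (U i)
      linarith [norm_sub_rev P (U i), hU i]
    set Q := (((1 + δ)⁻¹ : ℝ) : ℂ) • P with hQ
    obtain ⟨c, hc⟩ := Finsupp.mem_span_range_iff_exists_finsupp.mp
      (Submodule.smul_mem _ (((1 + δ)⁻¹ : ℝ) : ℂ) (adjoin_le_span h1 h2 hP))
    refine ⟨c, ?_⟩
    rw [show ∑ p ∈ c.support, c p • (sw s p.1 * star (sw s p.2)) = Q from hc]
    have hQn : ‖Q‖ ≤ 1 := by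
      rw [hQ, norm_smul, Complex.norm_real, Real.norm_eq_abs, abs_of_pos (by positivity),
        inv_mul_le_iff₀ (by positivity)]
      linarith
    refine ⟨?_, hQn⟩
    have hPQ : P - Q = ((δ : ℝ) : ℂ) • Q := by
      have : ((1 + δ : ℝ) : ℂ) • Q = P := by
        rw [hQ, smul_smul, ← Complex.ofReal_mul, mul_inv_cancel₀ (by positivity),
          Complex.ofReal_one, one_smul]
      conv_lhs => rw [← this]
      push_cast
      module
    calc ‖U i - Q‖ ≤ ‖U i - P‖ + ‖P - Q‖ := norm_sub_le_norm_sub_add_norm_sub _ _ _
      _ ≤ δ + δ := by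
          refine add_le_add hPd.le ?_
          rw [hPQ, norm_smul, Complex.norm_real, Real.norm_eq_abs, abs_of_pos hδ]
          exact mul_le_of_le_one_right hδ.le hQn
      _ ≤ η / 4 := by rw [hδdef]; linarith
  choose c hc1 hc2 using happ
  -- parameters
  set K := ∑ i, ∑ p ∈ (c i).support, (p.1.length + p.2.length) with hK
  set C := ∑ i, ∑ p ∈ (c i).support, ‖c i p‖ * ‖sw s p.1 * star (sw s p.2)‖ with hC
  obtain ⟨m₀, hm⟩ := exists_nat_ge (4 * (K : ℝ) * C / η)
  set m := m₀ + 1
  set N := window K m
  have hKp : ∀ i, ∀ p ∈ (c i).support, p.1.length + p.2.length ≤ K := by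
    intro i p hp
    refine le_trans (Finset.single_le_sum (f := fun p => p.1.length + p.2.length)
      (fun _ _ => Nat.zero_le _) hp) ?_
    exact Finset.single_le_sum (f := fun i => ∑ p ∈ (c i).support, (p.1.length + p.2.length))
      (fun _ _ => Nat.zero_le _) (Finset.mem_univ i)
  let κ : ℂ := ((Real.sqrt ((m : ℝ)⁻¹) : ℝ) : ℂ)
  have hκs : star κ = κ := Complex.conj_ofReal _
  have hκκ : κ * κ = (m : ℂ)⁻¹ := by
    rw [← Complex.ofReal_mul, Real.mul_self_sqrt (by positivity)]; push_cast; rfl
  refine ⟨N, fun α => κ • sw s α.1,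
    fun i => ∑ p ∈ (c i).support, c i p • wmat K m p.1 p.2, ?_, fun i => ⟨?_, ?_⟩⟩
  · simp only [star_smul, hκs, smul_mul_smul_comm, hκκ]
    rw [← Finset.smul_sum, Finset.sum_coe_sort N (fun a => sw s a * star (sw s a))]
    show (m : ℂ)⁻¹ • (∑ a ∈ window K m, sw s a * star (sw s a)) = 1
    rw [window, Finset.sum_biUnion]
    · simp only [sum_words h1 h2, Finset.sum_const, Nat.card_Ico, add_tsub_cancel_left]
      rw [← Nat.cast_smul_eq_nsmul ℂ, smul_smul, inv_mul_cancel₀ (Nat.cast_ne_zero.mpr m₀.succ_ne_zero),
        one_smul]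
    · intro a _ b _ hab
      exact Finset.disjoint_left.mpr fun w ha hb => hab (by rw [← mem_words.mp ha, mem_words.mp hb])
  · -- contraction
    set b := ∑ p ∈ (c i).support, c i p • wmat K m p.1 p.2 with hb
    set P := ∑ p ∈ (c i).support, c i p • (sw s p.1 * star (sw s p.2)) with hP
    rcases isEmpty_or_nonempty N with hN | hN
    · have : (1 - bᴴ * b) = 0 := by ext α; exact hN.elim α
      rw [this]; exact Matrix.PosSemidef.zero
    obtain ⟨α₀⟩ := hN
    let Col : CStarMatrix N N B := CStarMatrix.ofMatrix
      (Matrix.of fun r α => if r = α₀ then sw s (α.1 ++ marker (K + m)) else 0)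
    have hconj : ∀ x : B, (star Col * (dg x : CStarMatrix N N B) * Col)
        = CStarMatrix.ofMatrix (Matrix.of fun α β : N =>
          star (sw s (α.1 ++ marker (K + m))) * x * sw s (β.1 ++ marker (K + m))) := by
      intro x
      ext α β
      simp [CStarMatrix.mul_apply, CStarMatrix.star_apply, dg_apply, Col, apply_ite star]
    have hcol : star Col * Col = 1 := by
      have := hconj 1
      rw [map_one, mul_one] at this
      rw [this]
      ext α β
      simp only [CStarMatrix.ofMatrix_apply, Matrix.of_apply, mul_one]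
      rw [orth_marker h1 h2 (by have := mem_window.mp α.2; omega) (by have := mem_window.mp β.2; omega),
        CStarMatrix.one_apply]
      exact if_congr Subtype.ext_iff.symm rfl rfl
    have hscb : sc B b = star Col * (dg P : CStarMatrix N N B) * Col := by
      rw [hconj P]
      ext α β
      simp only [sc_apply, CStarMatrix.ofMatrix_apply, Matrix.of_apply, hb, hP, Matrix.sum_apply,
        Matrix.smul_apply, map_sum, Finset.mul_sum, Finset.sum_mul, mul_smul_comm, smul_mul_assoc]
      refine Finset.sum_congr rfl fun p hp => ?_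
      have := hKp i p hp
      rw [compress_word h1 h2 (by omega) (by omega), smul_eq_mul, map_mul, ← Algebra.smul_def]
    have hn : ‖sc B b‖ ≤ 1 := by
      have hcn : ‖Col‖ ≤ 1 := by
        have : ‖Col‖ * ‖Col‖ ≤ 1 := by
          rw [← CStarRing.norm_star_mul_self, hcol]
          exact norm_le_one_of_proj (star_one _) (mul_one 1)
        nlinarith [norm_nonneg Col]
      rw [hscb]
      calc ‖star Col * (dg P : CStarMatrix N N B) * Col‖
          ≤ ‖star Col‖ * ‖(dg P : CStarMatrix N N B)‖ * ‖Col‖ :=
            (norm_mul_le _ _).trans (mul_le_mul_of_nonneg_right (norm_mul_le _ _) (norm_nonneg _))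
        _ ≤ 1 * 1 * 1 := by
            rw [norm_star]
            exact mul_le_mul (mul_le_mul hcn ((norm_dg_le P).trans (hc2 i)) (norm_nonneg _) zero_le_one)
              hcn (norm_nonneg _) (by norm_num)
        _ = 1 := by norm_num
    rw [← Matrix.nonneg_iff_posSemidef]
    open scoped Matrix.Norms.L2Operator in
    have hb1 : ‖b‖ ≤ 1 := by
      rw [← NonUnitalStarAlgHom.norm_map (sc (n := N) B).toNonUnitalStarAlgHom
        (fun M M' h => by
          ext α β
          exact (algebraMap ℂ B).injective (congrFun (congrFun h α) β)) b]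
      exact hn
    open scoped Matrix.Norms.L2Operator in
    have : 0 ≤ 1 - star b * b := by
      refine sub_nonneg.mpr (le_trans (IsSelfAdjoint.le_algebraMap_norm_self (IsSelfAdjoint.star_mul_self b)) ?_)
      calc algebraMap ℝ (Matrix N N ℂ) ‖star b * b‖ ≤ algebraMap ℝ (Matrix N N ℂ) 1 :=
            algebraMap_mono _ (by rw [CStarRing.norm_star_mul_self]; nlinarith [norm_nonneg b])
        _ = 1 := map_one _
    exact this
  · -- approximation
    set P := ∑ p ∈ (c i).support, c i p • (sw s p.1 * star (sw s p.2)) with hP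
    have hsum : ∑ α : N, ∑ β : N, (∑ p ∈ (c i).support, c i p • wmat K m p.1 p.2) α β •
          ((κ • sw s α.1) * star (κ • sw s β.1))
        = ∑ p ∈ (c i).support, (c i p * (m : ℂ)⁻¹) •
            ∑ α : N, ∑ β : N, wmat K m p.1 p.2 α β • (sw s α.1 * star (sw s β.1)) := by
      simp only [star_smul, hκs, smul_mul_smul_comm, hκκ, Matrix.sum_apply, Matrix.smul_apply,
        Finset.sum_smul, Finset.smul_sum]
      conv_lhs => arg 2; ext α; rw [Finset.sum_comm]
      rw [Finset.sum_comm]
      refine Finset.sum_congr rfl fun p _ => Finset.sum_congr rfl fun α _ =>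
        Finset.sum_congr rfl fun β _ => ?_
      rw [smul_smul, smul_smul, smul_eq_mul]; ring_nf
    rw [hsum]
    refine (norm_sub_le_norm_sub_add_norm_sub _ P _).trans ?_
    have h3 : ‖P - ∑ p ∈ (c i).support, (c i p * (m : ℂ)⁻¹) •
        ∑ α : N, ∑ β : N, wmat K m p.1 p.2 α β • (sw s α.1 * star (sw s β.1))‖ ≤ η / 4 := by
      rw [hP, ← Finset.sum_sub_distrib]
      refine (norm_sum_le _ _).trans ?_
      have hmpos : (0 : ℝ) < (m : ℝ) := by positivity
      calc _ ≤ ∑ p ∈ (c i).support, ((K : ℝ) / m) * (‖c i p‖ * ‖sw s p.1 * star (sw s p.2)‖) := by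
            refine Finset.sum_le_sum fun p hp => ?_
            have hp' := hKp i p hp
            obtain ⟨q, hq1, hq2, hq3⟩ := expand_word (m := m) h1 h2
              (show p.1.length ≤ K by omega) (show p.2.length ≤ K by omega)
            rw [hq3, smul_smul, ← sub_smul, norm_smul]
            have e : c i p - c i p * (m : ℂ)⁻¹ * (q : ℂ) = c i p * (((m : ℝ) - q) / m : ℝ) := by
              push_cast
              field_simp [Nat.cast_ne_zero.mpr (show m ≠ 0 from m₀.succ_ne_zero)]
              try ring
            rw [e, norm_mul, Complex.norm_real, Real.norm_eq_abs, abs_of_nonneg]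
            swap
            · exact div_nonneg (sub_nonneg.mpr (by exact_mod_cast hq1)) hmpos.le
            have : ((m : ℝ) - q) / m ≤ (K : ℝ) / m := by
              refine div_le_div_of_nonneg_right ?_ hmpos.le
              rw [sub_le_iff_le_add']
              exact_mod_cast (show m ≤ q + K by omega)
            calc _ ≤ ‖c i p‖ * ((K : ℝ) / m) * ‖sw s p.1 * star (sw s p.2)‖ :=
                  mul_le_mul_of_nonneg_right (mul_le_mul_of_nonneg_left this (norm_nonneg _)) (norm_nonneg _)
              _ = _ := by ring
        _ = ((K : ℝ) / m) * ∑ p ∈ (c i).support, ‖c i p‖ * ‖sw s p.1 * star (sw s p.2)‖ :=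
            (Finset.mul_sum _ _ _).symm
        _ ≤ ((K : ℝ) / m) * C := by
            refine mul_le_mul_of_nonneg_left ?_ (by positivity)
            exact Finset.single_le_sum
              (f := fun j => ∑ p ∈ (c j).support, ‖c j p‖ * ‖sw s p.1 * star (sw s p.2)‖)
              (fun j _ => Finset.sum_nonneg fun _ _ => by positivity) (Finset.mem_univ i)
        _ ≤ η / 4 := by
            rw [div_mul_eq_mul_div, div_le_iff₀ hmpos]
            rw [div_le_iff₀ hη] at hm
            have hm' : (m₀ : ℝ) ≤ m := by simp [m]
            nlinarith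
    linarith [hc1 i]

end rels

end

end Vale.Agent.P083
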