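import Mathlib

/-!
Basic definitions for P083: bounded families in a family of C*-algebras modulo the families
whose norms tend to zero along a filter, the norm ultrapower, and C*-algebras generated by a
Cuntz pair of isometries.
-/

namespace Vale.Agent.P083

open Filter Topology

variable {J : Type*} (M : J → Type*) [∀ j, CStarAlgebra (M j)]

/-- The algebra of norm-bounded families, that is the l-infinity product. -/
def BddFam : StarSubalgebra ℂ (∀ j, M j) where
  carrier := {f | ∃ C : ℝ, ∀ j, ‖f j‖ ≤ C}
  mul_mem' := by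
    rintro f g ⟨C, hC⟩ ⟨D, hD⟩
    exact ⟨C * D, fun j => (norm_mul_le _ _).trans
      (mul_le_mul (hC j) (hD j) (norm_nonneg _) ((norm_nonneg _).trans (hC j)))⟩
  add_mem' := by
    rintro f g ⟨C, hC⟩ ⟨D, hD⟩
    exact ⟨C + D, fun j => (norm_add_le _ _).trans (add_le_add (hC j) (hD j))⟩
  algebraMap_mem' c := by
    refine ⟨‖c‖, fun j => ?_⟩
    show ‖algebraMap ℂ (M j) c‖ ≤ ‖c‖
    rcases subsingleton_or_nontrivial (M j) with h | h
    · rw [Subsingleton.elim (algebraMap ℂ (M j) c) 0, norm_zero]
      exact norm_nonneg _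
    · rw [norm_algebraMap']
  star_mem' := by
    rintro f ⟨C, hC⟩
    exact ⟨C, fun j => by rw [Pi.star_apply, norm_star]; exact hC j⟩

/-- Two bounded families are identified when the norm of their difference tends to zero
along the filter. -/
def nullCon (l : Filter J) : RingCon (BddFam M) where
  r f g := Tendsto (fun j => ‖f.1 j - g.1 j‖) l (𝓝 0)
  iseqv :=
    ⟨fun f => by simpa using (tendsto_const_nhds : Tendsto (fun _ : J => (0 : ℝ)) l (𝓝 0)),
     fun {f g} h => by simpa [norm_sub_rev] using h,
     fun {f g k} h1 h2 => squeeze_zero (fun j => norm_nonneg _)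
       (fun j => norm_sub_le_norm_sub_add_norm_sub _ (g.1 j) _) (by simpa using h1.add h2)⟩
  add' := by
    intro a b c d h1 h2
    refine squeeze_zero (fun j => norm_nonneg _) (fun j => ?_) (by simpa using h1.add h2)
    calc ‖(a + c).1 j - (b + d).1 j‖ = ‖(a.1 j - b.1 j) + (c.1 j - d.1 j)‖ := by
          simp [add_sub_add_comm]
      _ ≤ _ := norm_add_le _ _
  mul' := by
    intro a b c d h1 h2
    obtain ⟨C, hC⟩ := a.2
    obtain ⟨D, hD⟩ := d.2
    refine squeeze_zero (fun j => norm_nonneg _) (fun j => ?_)
      (by simpa using (h2.const_mul C).add (h1.mul_const D))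
    calc ‖(a * c).1 j - (b * d).1 j‖
        = ‖a.1 j * (c.1 j - d.1 j) + (a.1 j - b.1 j) * d.1 j‖ := by
          congr 1
          simp [mul_sub, sub_mul]
      _ ≤ ‖a.1 j * (c.1 j - d.1 j)‖ + ‖(a.1 j - b.1 j) * d.1 j‖ := norm_add_le _ _
      _ ≤ C * ‖c.1 j - d.1 j‖ + ‖a.1 j - b.1 j‖ * D := add_le_add
          ((norm_mul_le _ _).trans (mul_le_mul_of_nonneg_right (hC j) (norm_nonneg _)))
          ((norm_mul_le _ _).trans (mul_le_mul_of_nonneg_left (hD j) (norm_nonneg _)))

/-- Bounded families modulo families with norm tending to zero. -/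
abbrev AsympQuot (l : Filter J) : Type _ := (nullCon M l).Quotient

noncomputable instance (l : Filter J) : Star (AsympQuot M l) where
  star := Quotient.map' star (fun f g h => by
    show Tendsto (fun j => ‖(star f).1 j - (star g).1 j‖) l (𝓝 0)
    simpa [← star_sub, norm_star] using (show Tendsto (fun j => ‖f.1 j - g.1 j‖) l (𝓝 0) from h))

noncomputable instance (l : Filter J) : StarRing (AsympQuot M l) where
  star_involutive := Quotient.ind' fun f => congrArg Quotient.mk'' (star_star f)
  star_mul := fun x y => Quotient.inductionOn₂' x y fun f g =>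
    congrArg Quotient.mk'' (star_mul f g)
  star_add := fun x y => Quotient.inductionOn₂' x y fun f g =>
    congrArg Quotient.mk'' (star_add f g)

instance (l : Filter J) : StarModule ℂ (AsympQuot M l) where
  star_smul c := Quotient.ind' fun f => congrArg Quotient.mk'' (star_smul c f)

/-- The norm ultrapower of a C*-algebra: the bounded sequences modulo the sequences whose
norm tends to zero along the ultrafilter. -/
abbrev ultrapower (B : Type) [CStarAlgebra B] (ω : Ultrafilter ℕ) : Type :=
  AsympQuot (fun _ : ℕ => B) (ω : Filter ℕ)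

/-- The C*-algebra is generated, as a unital C*-algebra, by two isometries whose range
projections add up to one. -/
def IsCuntzTwo (B : Type) [CStarAlgebra B] : Prop :=
  ∃ s : Fin 2 → B, (∀ i, star (s i) * s i = 1) ∧ (s 0 * star (s 0) + s 1 * star (s 1) = 1) ∧
    (StarAlgebra.adjoin ℂ (Set.range s)).topologicalClosure = ⊤

end Vale.Agent.P083
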