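import Mathlib

/-!
The affine group over the polynomial ring in one variable over the field with five elements, its
self-similar action on the rooted 125-regular tree, and the three small generating subgroups.
-/

namespace Vale.Agent.P083

open Polynomial

set_option linter.style.haveILetI false
set_option linter.unusedSimpArgs false
set_option linter.unreachableTactic false
set_option linter.unusedTactic false
set_option linter.unnecessarySeqFocus false

noncomputable section

instance fact_prime_five : Fact (Nat.Prime 5) := ⟨by norm_num⟩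

/-- The field with five elements. -/
abbrev F5 : Type := ZMod 5

/-- Polynomials over the field with five elements. -/
abbrev R5 : Type := F5[X]

/-- The alphabet: the 125 points of three-space over the field with five elements. -/
abbrev Lett : Type := Fin 3 → F5

/-- The level sets of the tree. -/
abbrev Lev (k : ℕ) : Type := Fin k → Lett

/-- Affine transformations of three-space over the polynomial ring. -/
@[ext] structure Aff where
  /-- The linear part. -/
  lin : (Matrix (Fin 3) (Fin 3) R5)ˣ
  /-- The translation part. -/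
  vec : Fin 3 → R5

namespace Aff

instance : Group Aff where
  mul g h := ⟨g.lin * h.lin, (g.lin : Matrix (Fin 3) (Fin 3) R5).mulVec h.vec + g.vec⟩
  one := ⟨1, 0⟩
  inv g := ⟨g.lin⁻¹, -((g.lin⁻¹ : (Matrix (Fin 3) (Fin 3) R5)ˣ) : Matrix (Fin 3) (Fin 3) R5).mulVec g.vec⟩
  mul_assoc a b c := by
    refine Aff.ext (mul_assoc _ _ _) ?_
    show ((a.lin * b.lin : (Matrix (Fin 3) (Fin 3) R5)ˣ) : Matrix (Fin 3) (Fin 3) R5).mulVec c.vec
        + (Matrix.mulVec _ b.vec + a.vec) = Matrix.mulVec _ (Matrix.mulVec _ c.vec + b.vec) + a.vec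
    rw [Matrix.mulVec_add, Matrix.mulVec_mulVec, Units.val_mul, add_assoc]
  one_mul a := by
    refine Aff.ext (one_mul _) ?_
    show Matrix.mulVec ((1 : (Matrix (Fin 3) (Fin 3) R5)ˣ) : Matrix (Fin 3) (Fin 3) R5) a.vec + 0 = a.vec
    simp
  mul_one a := by
    refine Aff.ext (mul_one _) ?_
    show Matrix.mulVec _ 0 + a.vec = a.vec
    simp
  inv_mul_cancel a := by
    refine Aff.ext (inv_mul_cancel _) ?_
    show Matrix.mulVec _ a.vec + -Matrix.mulVec _ a.vec = 0
    simp

@[simp] lemma one_lin : (1 : Aff).lin = 1 := rfl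
@[simp] lemma one_vec : (1 : Aff).vec = 0 := rfl
@[simp] lemma mul_lin (g h : Aff) : (g * h).lin = g.lin * h.lin := rfl
@[simp] lemma mul_vec (g h : Aff) :
    (g * h).vec = (g.lin : Matrix (Fin 3) (Fin 3) R5).mulVec h.vec + g.vec := rfl

/-- The value of an affine transformation at a vector. -/
def app (g : Aff) (v : Fin 3 → R5) : Fin 3 → R5 :=
  (g.lin : Matrix (Fin 3) (Fin 3) R5).mulVec v + g.vec

lemma app_mul (g h : Aff) (v : Fin 3 → R5) : (g * h).app v = g.app (h.app v) := by
  simp [app, Matrix.mulVec_add, Matrix.mulVec_mulVec, add_assoc]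

@[simp] lemma app_one (v : Fin 3 → R5) : (1 : Aff).app v = v := by simp [app]

instance : Countable Aff := by
  haveI : Countable R5 := by
    refine Function.Injective.countable (f := fun p : R5 => (List.range (p.natDegree + 1)).map p.coeff) ?_
    intro p q e
    have hn : p.natDegree = q.natDegree := by simpa using congrArg List.length e
    ext m
    by_cases hm : m ≤ p.natDegree
    · have := congrArg (fun L => L[m]?) e
      simpa [List.getElem?_map, Nat.lt_succ_iff.mpr hm, ← hn] using this
    · rw [Polynomial.coeff_eq_zero_of_natDegree_lt (by omega), Polynomial.coeff_eq_zero_of_natDegree_lt (by omega)]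
  haveI : Countable (Matrix (Fin 3) (Fin 3) R5) := inferInstanceAs (Countable (Fin 3 → Fin 3 → R5))
  haveI : Countable ((Matrix (Fin 3) (Fin 3) R5)ˣ) := Units.val_injective.countable
  exact (show Function.Injective (fun g : Aff => (g.lin, g.vec)) from
    fun g h e => Aff.ext (congrArg Prod.fst e) (congrArg Prod.snd e)).countable

end Aff

/-! ### Truncation and lifting -/

/-- The first `k` coefficients. -/
noncomputable def trunck (k : ℕ) (v : Fin 3 → R5) : Lev k := fun j i => (v i).coeff j

/-- The canonical lift. -/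
noncomputable def liftk (k : ℕ) (x : Lev k) : Fin 3 → R5 :=
  fun i => ∑ j : Fin k, Polynomial.C (x j i) * Polynomial.X ^ (j : ℕ)

lemma coeff_liftk (k : ℕ) (x : Lev k) (i : Fin 3) (m : ℕ) :
    (liftk k x i).coeff m = if h : m < k then x ⟨m, h⟩ i else 0 := by
  rw [liftk, Polynomial.finsetSum_coeff]
  simp only [Polynomial.coeff_C_mul, Polynomial.coeff_X_pow, mul_ite, mul_one, mul_zero]
  split_ifs with h
  · rw [Finset.sum_eq_single ⟨m, h⟩]
    · simp
    · intro b _ hb
      rw [if_neg]
      intro e
      exact hb (Fin.ext e.symm)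
    · simp
  · refine Finset.sum_eq_zero fun b _ => ?_
    rw [if_neg]
    intro e
    exact h (e ▸ b.2)

@[simp] lemma trunck_liftk (k : ℕ) (x : Lev k) : trunck k (liftk k x) = x := by
  funext j i
  simp [trunck, coeff_liftk]

@[simp] lemma trunck_add (k : ℕ) (v w : Fin 3 → R5) :
    trunck k (v + w) = trunck k v + trunck k w := by
  funext j i; simp [trunck]

@[simp] lemma trunck_sub (k : ℕ) (v w : Fin 3 → R5) :
    trunck k (v - w) = trunck k v - trunck k w := by
  funext j i; simp [trunck]

lemma trunck_mulVec_congr (k : ℕ) (A : Matrix (Fin 3) (Fin 3) R5) {v w : Fin 3 → R5}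
    (h : trunck k v = trunck k w) : trunck k (A.mulVec v) = trunck k (A.mulVec w) := by
  funext j i
  simp only [trunck, Matrix.mulVec, dotProduct, Polynomial.finsetSum_coeff]
  refine Finset.sum_congr rfl fun l _ => ?_
  rw [Polynomial.coeff_mul, Polynomial.coeff_mul]
  refine Finset.sum_congr rfl fun p hp => ?_
  have hp2 : p.2 ≤ (j : ℕ) := by
    have := Finset.HasAntidiagonal.mem_antidiagonal.mp hp
    omega
  have := congrFun (congrFun h ⟨p.2, lt_of_le_of_lt hp2 j.2⟩) l
  simp only [trunck] at this
  rw [this]

/-- The action on a level. -/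
noncomputable def levAct (k : ℕ) (g : Aff) (x : Lev k) : Lev k := trunck k (g.app (liftk k x))

lemma trunck_app (k : ℕ) (g : Aff) (v : Fin 3 → R5) :
    trunck k (g.app v) = levAct k g (trunck k v) := by
  simp only [levAct, Aff.app, trunck_add]
  rw [trunck_mulVec_congr k _ (show trunck k v = trunck k (liftk k (trunck k v)) by simp)]

lemma levAct_mul (k : ℕ) (g h : Aff) (x : Lev k) :
    levAct k (g * h) x = levAct k g (levAct k h x) := by
  conv_lhs => rw [levAct, Aff.app_mul, trunck_app]
  rfl

lemma levAct_one (k : ℕ) (x : Lev k) : levAct k 1 x = x := by simp [levAct]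

/-- The permutation of a level given by a group element. -/
noncomputable def levPerm (k : ℕ) : Aff →* Equiv.Perm (Lev k) where
  toFun g :=
    { toFun := levAct k g
      invFun := levAct k g⁻¹
      left_inv := fun x => by rw [← levAct_mul, inv_mul_cancel, levAct_one]
      right_inv := fun x => by rw [← levAct_mul, mul_inv_cancel, levAct_one] }
  map_one' := Equiv.ext (levAct_one k)
  map_mul' g h := Equiv.ext (levAct_mul k g h)

@[simp] lemma levPerm_apply (k : ℕ) (g : Aff) (x : Lev k) : levPerm k g x = levAct k g x := rfl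

lemma init_trunck (k : ℕ) (v : Fin 3 → R5) : Fin.init (trunck (k + 1) v) = trunck k v := by
  funext j i; simp [Fin.init, trunck]

lemma init_levAct (k : ℕ) (g : Aff) (x : Lev (k + 1)) :
    Fin.init (levAct (k + 1) g x) = levAct k g (Fin.init x) := by
  conv_lhs => rw [levAct, init_trunck, trunck_app, ← init_trunck, trunck_liftk]

/-! ### Self-similarity -/

/-- The constant vector attached to a letter. -/
noncomputable def letVec (i : Lett) : Fin 3 → R5 := fun l => Polynomial.C (i l)

/-- The image of a letter. -/
noncomputable def headAct (g : Aff) (i : Lett) : Lett := fun l => (g.app (letVec i) l).coeff 0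

/-- The section of a group element at a letter. -/
noncomputable def sect (g : Aff) (i : Lett) : Aff :=
  ⟨g.lin, fun l => (g.app (letVec i) l).divX⟩

lemma app_letVec (g : Aff) (i : Lett) :
    g.app (letVec i) = letVec (headAct g i) + (X : R5) • (sect g i).vec := by
  funext l
  show g.app (letVec i) l = _
  conv_lhs => rw [← Polynomial.X_mul_divX_add (g.app (letVec i) l)]
  simp [letVec, headAct, sect, add_comm]

lemma app_cons (g : Aff) (i : Lett) (w : Fin 3 → R5) :
    g.app (letVec i + (X : R5) • w) = letVec (headAct g i) + (X : R5) • (sect g i).app w := by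
  have h := app_letVec g i
  simp only [Aff.app] at h ⊢
  rw [Matrix.mulVec_add, Matrix.mulVec_smul, smul_add]
  have : (sect g i).lin = g.lin := rfl
  rw [this, ← add_assoc, add_right_comm, h]
  abel

lemma letVec_add_X_injective {i j : Lett} {v w : Fin 3 → R5}
    (h : letVec i + (X : R5) • v = letVec j + (X : R5) • w) : i = j ∧ v = w := by
  have h0 : i = j := by
    funext l
    have := congrArg (fun p => Polynomial.coeff p 0) (congrFun h l)
    simpa [letVec] using this
  subst h0
  refine ⟨rfl, funext fun l => ?_⟩
  have := congrFun (add_left_cancel h) l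
  simpa using this

lemma sect_mul_aux (g h : Aff) (i : Lett) :
    headAct (g * h) i = headAct g (headAct h i) ∧
      sect (g * h) i = sect g (headAct h i) * sect h i := by
  have e : letVec (headAct (g * h) i) + (X : R5) • (sect (g * h) i).vec
      = letVec (headAct g (headAct h i))
        + (X : R5) • (sect g (headAct h i)).app (sect h i).vec := by
    rw [← app_letVec, Aff.app_mul, app_letVec h i, app_cons]
  obtain ⟨e1, e2⟩ := letVec_add_X_injective e
  exact ⟨e1, Aff.ext rfl e2⟩

lemma headAct_mul (g h : Aff) (i : Lett) : headAct (g * h) i = headAct g (headAct h i) :=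
  (sect_mul_aux g h i).1

lemma sect_mul (g h : Aff) (i : Lett) : sect (g * h) i = sect g (headAct h i) * sect h i :=
  (sect_mul_aux g h i).2

@[simp] lemma headAct_one (i : Lett) : headAct 1 i = i := by
  funext l; simp [headAct, letVec]

@[simp] lemma sect_one (i : Lett) : sect 1 i = 1 := by
  refine Aff.ext rfl (funext fun l => ?_)
  simp [sect, letVec]

lemma liftk_cons (k : ℕ) (i : Lett) (x : Lev k) :
    liftk (k + 1) (Fin.cons i x) = letVec i + (X : R5) • liftk k x := by
  funext l
  simp only [liftk, Pi.add_apply, Pi.smul_apply, smul_eq_mul, letVec, Fin.sum_univ_succ,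
    Fin.cons_zero, Fin.cons_succ, Fin.val_zero, pow_zero, mul_one, Fin.val_succ, Finset.mul_sum]
  congr 1
  refine Finset.sum_congr rfl fun j _ => ?_
  rw [pow_succ]; ring

lemma trunck_cons (k : ℕ) (i : Lett) (v : Fin 3 → R5) :
    trunck (k + 1) (letVec i + (X : R5) • v) = Fin.cons i (trunck k v) := by
  funext j
  refine Fin.cases ?_ (fun m => ?_) j
  · funext l; simp [trunck, letVec]
  · funext l; simp [trunck, letVec, Polynomial.coeff_C]

lemma levAct_cons (k : ℕ) (g : Aff) (i : Lett) (x : Lev k) :
    levAct (k + 1) g (Fin.cons i x) = Fin.cons (headAct g i) (levAct k (sect g i) x) := by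
  rw [levAct, liftk_cons, app_cons, trunck_cons]
  rfl

/-! ### Elementary elements -/

/-- An elementary matrix as an affine map. -/
noncomputable def el (i j : Fin 3) (h : i ≠ j) (r : R5) : Aff :=
  ⟨⟨Matrix.transvection i j r, Matrix.transvection i j (-r),
      by rw [Matrix.transvection_mul_transvection_same i j h, add_neg_cancel, Matrix.transvection_zero],
      by rw [Matrix.transvection_mul_transvection_same i j h, neg_add_cancel, Matrix.transvection_zero]⟩,
    0⟩

/-- A translation. -/
noncomputable def trs (v : Fin 3 → R5) : Aff := ⟨1, v⟩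

lemma trs_add (v w : Fin 3 → R5) : trs (v + w) = trs v * trs w := by
  refine Aff.ext (by simp [trs]) ?_
  simp [trs, add_comm]

lemma el_add (i j : Fin 3) (h : i ≠ j) (r s : R5) : el i j h (r + s) = el i j h r * el i j h s := by
  refine Aff.ext (Units.ext ?_) ?_
  · exact (Matrix.transvection_mul_transvection_same i j h r s).symm
  · simp [el]

/-- A pair of scalars as a polynomial of degree at most one. -/
noncomputable def lin2 (p : F5 × F5) : R5 := C p.1 + C p.2 * X

lemma lin2_add (p q : F5 × F5) : lin2 (p + q) = lin2 p + lin2 q := by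
  simp [lin2, add_mul]; abel

/-- First small subgroup. -/
noncomputable def g1 (a : F5) : Aff := el 0 1 (by decide) (C a)

/-- Second small subgroup. -/
noncomputable def g2 (p : F5 × F5) : Aff := el 1 2 (by decide) (C p.1) * trs (Pi.single 1 (C p.2))

/-- Third small subgroup. -/
noncomputable def g3 (p : F5 × F5) : Aff := el 2 0 (by decide) (lin2 p)

/-- Centre for the pair of the first two subgroups. -/
noncomputable def z12 (p : F5 × F5) : Aff := el 0 2 (by decide) (C p.1) * trs (Pi.single 0 (C p.2))

/-- Centre for the pair of the third and first subgroups. -/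
noncomputable def z31 (p : F5 × F5) : Aff := el 2 1 (by decide) (lin2 p)

/-- Centre for the pair of the third and second subgroups. -/
noncomputable def z32 (p : F5 × F5) : Aff := el 1 0 (by decide) (lin2 p)

lemma aff_ext_matrix {g h : Aff}
    (h1 : ∀ i j, (g.lin : Matrix (Fin 3) (Fin 3) R5) i j = (h.lin : Matrix (Fin 3) (Fin 3) R5) i j)
    (h2 : ∀ i, g.vec i = h.vec i) : g = h :=
  Aff.ext (Units.ext (Matrix.ext h1)) (funext h2)

lemma g1_add (a b : F5) : g1 (a + b) = g1 a * g1 b := by
  rw [g1, map_add, el_add]; rfl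

lemma g3_add (p q : F5 × F5) : g3 (p + q) = g3 p * g3 q := by
  rw [g3, lin2_add, el_add]; rfl

lemma z31_add (p q : F5 × F5) : z31 (p + q) = z31 p * z31 q := by
  rw [z31, lin2_add, el_add]; rfl

lemma z32_add (p q : F5 × F5) : z32 (p + q) = z32 p * z32 q := by
  rw [z32, lin2_add, el_add]; rfl

lemma g2_add (p q : F5 × F5) : g2 (p + q) = g2 p * g2 q := by
  refine aff_ext_matrix (fun i j => ?_) (fun i => ?_) <;> fin_cases i <;> (try fin_cases j) <;>
    simp [g2, el, trs, Matrix.transvection, Matrix.mul_apply, Matrix.mulVec, dotProduct,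
      Fin.sum_univ_three, Matrix.single_apply, Matrix.one_apply] <;> ring

lemma z12_add (p q : F5 × F5) : z12 (p + q) = z12 p * z12 q := by
  refine aff_ext_matrix (fun i j => ?_) (fun i => ?_) <;> fin_cases i <;> (try fin_cases j) <;>
    simp [z12, el, trs, Matrix.transvection, Matrix.mul_apply, Matrix.mulVec, dotProduct,
      Fin.sum_univ_three, Matrix.single_apply, Matrix.one_apply] <;> ring

lemma rel12 (p : F5 × F5) (a : F5) :
    g2 p * g1 a = z12 (-(a * p.1), -(a * p.2)) * g1 a * g2 p := by
  refine aff_ext_matrix (fun i j => ?_) (fun i => ?_) <;> fin_cases i <;> (try fin_cases j) <;>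
    simp [g1, g2, z12, el, trs, Matrix.transvection, Matrix.mul_apply, Matrix.mulVec, dotProduct,
      Fin.sum_univ_three, Matrix.single_apply, Matrix.one_apply] <;> ring

lemma z12_g2 (q p : F5 × F5) : z12 q * g2 p = g2 p * z12 q := by
  refine aff_ext_matrix (fun i j => ?_) (fun i => ?_) <;> fin_cases i <;> (try fin_cases j) <;>
    simp [g2, z12, el, trs, Matrix.transvection, Matrix.mul_apply, Matrix.mulVec, dotProduct,
      Fin.sum_univ_three, Matrix.single_apply, Matrix.one_apply] <;> ring

lemma z12_g1 (q : F5 × F5) (a : F5) : z12 q * g1 a = g1 a * z12 q := by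
  refine aff_ext_matrix (fun i j => ?_) (fun i => ?_) <;> fin_cases i <;> (try fin_cases j) <;>
    simp [g1, z12, el, trs, Matrix.transvection, Matrix.mul_apply, Matrix.mulVec, dotProduct,
      Fin.sum_univ_three, Matrix.single_apply, Matrix.one_apply] <;> ring

lemma rel31 (p : F5 × F5) (a : F5) : g3 p * g1 a = z31 (a * p.1, a * p.2) * g1 a * g3 p := by
  refine aff_ext_matrix (fun i j => ?_) (fun i => ?_) <;> fin_cases i <;> (try fin_cases j) <;>
    simp [g1, g3, z31, lin2, el, Matrix.transvection, Matrix.mul_apply, Matrix.mulVec, dotProduct,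
      Fin.sum_univ_three, Matrix.single_apply, Matrix.one_apply] <;> ring

lemma z31_g3 (q p : F5 × F5) : z31 q * g3 p = g3 p * z31 q := by
  refine aff_ext_matrix (fun i j => ?_) (fun i => ?_) <;> fin_cases i <;> (try fin_cases j) <;>
    simp [g3, z31, el, Matrix.transvection, Matrix.mul_apply, Matrix.mulVec, dotProduct,
      Fin.sum_univ_three, Matrix.single_apply, Matrix.one_apply] <;> ring

lemma z31_g1 (q : F5 × F5) (a : F5) : z31 q * g1 a = g1 a * z31 q := by
  refine aff_ext_matrix (fun i j => ?_) (fun i => ?_) <;> fin_cases i <;> (try fin_cases j) <;>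
    simp [g1, z31, el, Matrix.transvection, Matrix.mul_apply, Matrix.mulVec, dotProduct,
      Fin.sum_univ_three, Matrix.single_apply, Matrix.one_apply] <;> ring

lemma rel32 (p q : F5 × F5) :
    g3 p * g2 q = z32 (-(q.1 * p.1), -(q.1 * p.2)) * g2 q * g3 p := by
  refine aff_ext_matrix (fun i j => ?_) (fun i => ?_) <;> fin_cases i <;> (try fin_cases j) <;>
    simp [g2, g3, z32, lin2, el, trs, Matrix.transvection, Matrix.mul_apply, Matrix.mulVec,
      dotProduct, Fin.sum_univ_three, Matrix.single_apply, Matrix.one_apply] <;> ring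

lemma z32_g3 (q p : F5 × F5) : z32 q * g3 p = g3 p * z32 q := by
  refine aff_ext_matrix (fun i j => ?_) (fun i => ?_) <;> fin_cases i <;> (try fin_cases j) <;>
    simp [g3, z32, el, Matrix.transvection, Matrix.mul_apply, Matrix.mulVec, dotProduct,
      Fin.sum_univ_three, Matrix.single_apply, Matrix.one_apply] <;> ring

lemma z32_g2 (q p : F5 × F5) : z32 q * g2 p = g2 p * z32 q := by
  refine aff_ext_matrix (fun i j => ?_) (fun i => ?_) <;> fin_cases i <;> (try fin_cases j) <;>
    simp [g2, z32, el, trs, Matrix.transvection, Matrix.mul_apply, Matrix.mulVec, dotProduct,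
      Fin.sum_univ_three, Matrix.single_apply, Matrix.one_apply] <;> ring

/-! ### The generated subgroup -/

/-- The generators. -/
noncomputable def gens : Set Aff := Set.range g1 ∪ Set.range g2 ∪ Set.range g3

/-- The subgroup generated by the three small subgroups. -/
noncomputable def G₀ : Subgroup Aff := Subgroup.closure gens

lemma g1_mem (a : F5) : g1 a ∈ G₀ := Subgroup.subset_closure (Or.inl (Or.inl ⟨a, rfl⟩))
lemma g2_mem (p : F5 × F5) : g2 p ∈ G₀ := Subgroup.subset_closure (Or.inl (Or.inr ⟨p, rfl⟩))
lemma g3_mem (p : F5 × F5) : g3 p ∈ G₀ := Subgroup.subset_closure (Or.inr ⟨p, rfl⟩)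

lemma el_comm (i j l : Fin 3) (hij : i ≠ j) (hjl : j ≠ l) (hil : i ≠ l) (r s : R5) :
    el i l hil (r * s)
      = el i j hij r * el j l hjl s * el i j hij (-r) * el j l hjl (-s) := by
  refine aff_ext_matrix (fun a b => ?_) (fun a => ?_)
  · fin_cases i <;> fin_cases j <;> fin_cases l <;> simp at hij hjl hil ⊢ <;>
      fin_cases a <;> fin_cases b <;>
      simp [el, Matrix.transvection, Matrix.mul_apply, Fin.sum_univ_three, Matrix.single_apply,
        Matrix.one_apply] <;> ring
  · simp [el]

lemma trs_comm (i j : Fin 3) (hij : i ≠ j) (r s : R5) :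
    trs (Pi.single i (r * s)) = el i j hij r * trs (Pi.single j s) * el i j hij (-r)
      * trs (Pi.single j (-s)) := by
  refine aff_ext_matrix (fun a b => ?_) (fun a => ?_)
  · fin_cases i <;> fin_cases j <;> simp at hij ⊢ <;> fin_cases a <;> fin_cases b <;>
      simp [el, trs, Matrix.transvection, Matrix.mul_apply, Fin.sum_univ_three,
        Matrix.single_apply, Matrix.one_apply]
  · fin_cases i <;> fin_cases j <;> simp at hij ⊢ <;> fin_cases a <;>
      simp [el, trs, Matrix.transvection, Matrix.mul_apply, Matrix.mulVec, dotProduct,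
        Fin.sum_univ_three, Matrix.single_apply, Matrix.one_apply]

/-- The set of parameters of elementary elements inside the subgroup. -/
def elSet (i j : Fin 3) (h : i ≠ j) : Set R5 := {r | el i j h r ∈ G₀}

lemma elSet_mul {i j l : Fin 3} (hij : i ≠ j) (hjl : j ≠ l) (hil : i ≠ l) {r s : R5}
    (hr : r ∈ elSet i j hij) (hs : s ∈ elSet j l hjl) : r * s ∈ elSet i l hil := by
  have el_neg : ∀ (a b : Fin 3) (h : a ≠ b) (t : R5), el a b h (-t) = (el a b h t)⁻¹ := by
    intro a b h t
    refine eq_inv_of_mul_eq_one_left ?_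
    rw [← el_add, neg_add_cancel]
    exact Aff.ext (Units.ext (Matrix.transvection_zero a b)) rfl
  show el i l hil (r * s) ∈ G₀
  rw [el_comm i j l hij hjl hil r s, el_neg, el_neg]
  exact mul_mem (mul_mem (mul_mem hr hs) (inv_mem hr)) (inv_mem hs)

theorem el_mem (i j : Fin 3) (h : i ≠ j) (r : R5) : el i j h r ∈ G₀ := by
  have h01 : ∀ a : F5, C a ∈ elSet 0 1 (by decide) := fun a => g1_mem a
  have h12 : ∀ a : F5, C a ∈ elSet 1 2 (by decide) := fun a => by
    have := g2_mem (a, 0)
    have e : g2 (a, 0) = el 1 2 (by decide) (C a) := by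
      refine Aff.ext (by simp [g2, el, trs]) ?_
      simp [g2, el, trs]
    rwa [e] at this
  have h20 : ∀ a : F5, C a ∈ elSet 2 0 (by decide) := fun a => by
    have := g3_mem (a, 0)
    simp only [g3, lin2, map_zero, zero_mul, add_zero] at this
    exact this
  have x20 : (X : R5) ∈ elSet 2 0 (by decide) := by
    have := g3_mem (0, 1)
    simp only [g3, lin2, map_zero, map_one, one_mul, zero_add] at this
    exact this
  have c02 : ∀ a : F5, C a ∈ elSet 0 2 (by decide) := fun a => by
    simpa using elSet_mul (by decide) (by decide) (by decide) (h01 a) (h12 1)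
  have c10 : ∀ a : F5, C a ∈ elSet 1 0 (by decide) := fun a => by
    simpa using elSet_mul (by decide) (by decide) (by decide) (h12 a) (h20 1)
  have x10 : (X : R5) ∈ elSet 1 0 (by decide) := by
    simpa using elSet_mul (by decide) (by decide) (by decide) (h12 1) x20
  have c21 : ∀ a : F5, C a ∈ elSet 2 1 (by decide) := fun a => by
    simpa using elSet_mul (by decide) (by decide) (by decide) (h20 a) (h01 1)
  have x21 : (X : R5) ∈ elSet 2 1 (by decide) := by
    simpa using elSet_mul (by decide) (by decide) (by decide) x20 (h01 1)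
  have x01 : (X : R5) ∈ elSet 0 1 (by decide) := by
    simpa using elSet_mul (by decide) (by decide) (by decide) (c02 1) x21
  have x12 : (X : R5) ∈ elSet 1 2 (by decide) := by
    simpa using elSet_mul (by decide) (by decide) (by decide) x10 (c02 1)
  have x02 : (X : R5) ∈ elSet 0 2 (by decide) := by
    simpa using elSet_mul (by decide) (by decide) (by decide) x01 (h12 1)
  have hC : ∀ (a : F5) (i j : Fin 3) (h : i ≠ j), C a ∈ elSet i j h := by
    intro a i j h
    fin_cases i <;> fin_cases j <;>
      first
        | exact absurd rfl h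
        | exact h01 a | exact h12 a | exact h20 a | exact c02 a | exact c10 a | exact c21 a
  have hX : ∀ (i j : Fin 3) (h : i ≠ j), (X : R5) ∈ elSet i j h := by
    intro i j h
    fin_cases i <;> fin_cases j <;>
      first
        | exact absurd rfl h
        | exact x01 | exact x12 | exact x20 | exact x02 | exact x10 | exact x21
  suffices ∀ (r : R5) (i j : Fin 3) (h : i ≠ j), r ∈ elSet i j h from this r i j h
  intro r
  induction r using Polynomial.induction_on with
  | C a => exact hC a
  | add p q hp hq =>
    intro i j h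
    show el i j h (p + q) ∈ G₀
    rw [el_add]
    exact mul_mem (hp i j h) (hq i j h)
  | monomial n a ih =>
    intro i j h
    obtain ⟨l, hil, hlj⟩ : ∃ l : Fin 3, i ≠ l ∧ l ≠ j := by revert h; revert i j; decide
    have := elSet_mul hil hlj h (ih i l hil) (hX l j hlj)
    rwa [mul_assoc, ← pow_succ] at this

theorem trs_mem (v : Fin 3 → R5) : trs v ∈ G₀ := by
  have trs_neg : ∀ w, trs (-w) = (trs w)⁻¹ := by
    intro w
    refine eq_inv_of_mul_eq_one_left ?_
    rw [← trs_add, neg_add_cancel]
    rfl
  have h1 : ∀ a : F5, trs (Pi.single 1 (C a)) ∈ G₀ := fun a => by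
    have := g2_mem (0, a)
    have e : g2 (0, a) = trs (Pi.single 1 (C a)) := by
      refine aff_ext_matrix (fun i j => ?_) (fun i => ?_) <;> fin_cases i <;> (try fin_cases j) <;>
        simp [g2, el, trs, Matrix.transvection, Matrix.mul_apply, Matrix.mulVec, dotProduct,
          Fin.sum_univ_three, Matrix.single_apply, Matrix.one_apply]
    rwa [e] at this
  have h0 : ∀ r : R5, trs (Pi.single 0 r) ∈ G₀ := fun r => by
    have := trs_comm 0 1 (by decide) r (C 1)
    rw [map_one, mul_one] at this
    rw [this, Pi.single_neg, trs_neg]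
    exact mul_mem (mul_mem (mul_mem (el_mem _ _ _ _) (by simpa using h1 1)) (el_mem _ _ _ _))
      (inv_mem (by simpa using h1 1))
  have hall : ∀ (i : Fin 3) (r : R5), trs (Pi.single i r) ∈ G₀ := by
    intro i r
    by_cases hi : i = 0
    · subst hi; exact h0 r
    · have := trs_comm i 0 hi r 1
      rw [mul_one] at this
      rw [this, Pi.single_neg, trs_neg]
      exact mul_mem (mul_mem (mul_mem (el_mem _ _ _ _) (h0 1)) (el_mem _ _ _ _)) (inv_mem (h0 1))
  have : v = Pi.single 0 (v 0) + Pi.single 1 (v 1) + Pi.single 2 (v 2) := by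
    funext i; fin_cases i <;> simp
  rw [this, trs_add, trs_add]
  exact mul_mem (mul_mem (hall _ _) (hall _ _)) (hall _ _)

theorem sect_gen_mem {g : Aff} (hg : g ∈ gens) (i : Lett) : sect g i ∈ G₀ := by
  have hd : sect g i = trs (sect g i).vec * ⟨g.lin, 0⟩ := by
    refine Aff.ext (by simp [trs, sect]) ?_
    simp [trs]
  rw [hd]
  refine mul_mem (trs_mem _) ?_
  rcases hg with (⟨a, rfl⟩ | ⟨p, rfl⟩) | ⟨p, rfl⟩
  · exact g1_mem a
  · have : (⟨(g2 p).lin, 0⟩ : Aff) = el 1 2 (by decide) (C p.1) := by
      refine Aff.ext (by simp [g2, trs]) rfl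
    rw [this]; exact el_mem _ _ _ _
  · exact g3_mem p

end

end Vale.Agent.P083
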