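import Vale.Agent.P083.Asy
import Vale.Agent.P083.Group

/-!
Scalar and diagonal matrices inside matrices over a C*-algebra.
-/

namespace Vale.Agent.P083

open scoped ComplexOrder MatrixOrder
open Matrix

set_option linter.unusedSectionVars false
set_option linter.unusedSimpArgs false

noncomputable section

variable {n : Type*} [Fintype n] [DecidableEq n]
variable {B : Type*} [CStarAlgebra B] [PartialOrder B] [StarOrderedRing B]

variable (B) in
/-- Scalar matrices inside matrices over the algebra. -/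
def sc : Matrix n n ℂ →⋆ₐ[ℂ] CStarMatrix n n B where
  toFun M := CStarMatrix.ofMatrix (M.map (algebraMap ℂ B))
  map_one' := by
    ext i j
    simp [CStarMatrix.one_apply, Matrix.one_apply, apply_ite (algebraMap ℂ B)]
  map_mul' M N := by
    ext i j
    simp [CStarMatrix.mul_apply, Matrix.mul_apply]
  map_zero' := by ext i j; simp
  map_add' M N := by ext i j; simp
  commutes' r := by
    ext i j
    simp [CStarMatrix.algebraMap_apply, Matrix.algebraMap_matrix_apply,
      apply_ite (algebraMap ℂ B)]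
  map_star' M := by
    ext i j
    simp only [CStarMatrix.star_apply, CStarMatrix.ofMatrix_apply, Matrix.map_apply, Matrix.star_apply, algebraMap_star_comm]

@[simp] lemma sc_apply (M : Matrix n n ℂ) (i j : n) : sc B M i j = algebraMap ℂ B (M i j) := rfl

/-- Diagonal matrices with constant entry. -/
def dg : B →⋆ₐ[ℂ] CStarMatrix n n B where
  toFun b := CStarMatrix.ofMatrix (Matrix.diagonal fun _ => b)
  map_one' := by
    rw [Matrix.diagonal_one]
    rfl
  map_mul' a b := by
    ext i j
    simp only [CStarMatrix.mul_apply, CStarMatrix.ofMatrix_apply, Matrix.diagonal_apply, ite_mul,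
      zero_mul, Finset.sum_ite_eq, Finset.mem_univ, if_true]
    split_ifs <;> simp
  map_zero' := by ext i j; simp [Matrix.diagonal_apply]
  map_add' a b := by
    ext i j
    simp only [CStarMatrix.add_apply, CStarMatrix.ofMatrix_apply, Matrix.diagonal_apply]
    split_ifs <;> simp
  commutes' r := by ext i j; simp [CStarMatrix.algebraMap_apply, Matrix.diagonal_apply]
  map_star' b := by
    ext i j
    rcases eq_or_ne i j with h | h
    · subst h; simp [CStarMatrix.star_apply]
    · simp [CStarMatrix.star_apply, Matrix.diagonal_apply, h, h.symm]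

lemma dg_apply (b : B) (i j : n) : (dg b : CStarMatrix n n B) i j = if i = j then b else 0 := rfl

lemma sc_mul_dg_apply (M : Matrix n n ℂ) (b : B) (i j : n) :
    (sc B M * (dg b : CStarMatrix n n B)) i j = M i j • b := by
  simp [CStarMatrix.mul_apply, dg_apply, Algebra.smul_def]

lemma dg_mul_sc_apply (M : Matrix n n ℂ) (b : B) (i j : n) :
    ((dg b : CStarMatrix n n B) * sc B M) i j = M i j • b := by
  simp [CStarMatrix.mul_apply, dg_apply, Algebra.smul_def, Algebra.commutes]

lemma sc_dg_comm (M : Matrix n n ℂ) (b : B) :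
    sc B M * (dg b : CStarMatrix n n B) = (dg b : CStarMatrix n n B) * sc B M := by
  ext i j; rw [sc_mul_dg_apply, dg_mul_sc_apply]

lemma norm_dg_le (b : B) : ‖(dg b : CStarMatrix n n B)‖ ≤ ‖b‖ :=
  NonUnitalStarAlgHom.norm_apply_le (dg (n := n) (B := B)).toNonUnitalStarAlgHom b

lemma norm_le_one_of_proj {A : Type*} [NonUnitalCStarAlgebra A] {p : A} (h1 : star p = p)
    (h2 : p * p = p) : ‖p‖ ≤ 1 := by
  have : ‖p‖ = ‖p‖ * ‖p‖ := by
    conv_lhs => rw [← h2]
    conv_lhs => arg 1; arg 1; rw [← h1]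
    exact CStarRing.norm_star_mul_self
  nlinarith [norm_nonneg p]

lemma norm_sc_le_one {M : Matrix n n ℂ} (h : (Mᴴ * M) * (Mᴴ * M) = Mᴴ * M) :
    ‖sc B M‖ ≤ 1 := by
  have h1 : ‖star (sc B M) * sc B M‖ ≤ 1 := by
    rw [← map_star, ← map_mul]
    refine norm_le_one_of_proj ?_ ?_
    · rw [← map_star, star_mul, star_star]
    · rw [← map_mul]
      exact congrArg _ h
  rw [CStarRing.norm_star_mul_self] at h1
  nlinarith [norm_nonneg (sc B M)]

lemma norm_sc_mul_dg_le {M : Matrix n n ℂ} (h : (Mᴴ * M) * (Mᴴ * M) = Mᴴ * M) (b : B) :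
    ‖sc B M * (dg b : CStarMatrix n n B)‖ ≤ ‖b‖ :=
  (norm_mul_le _ _).trans (by
    calc ‖sc B M‖ * ‖(dg b : CStarMatrix n n B)‖ ≤ 1 * ‖b‖ :=
          mul_le_mul (norm_sc_le_one h) (norm_dg_le b) (norm_nonneg _) zero_le_one
      _ = ‖b‖ := one_mul _)

lemma sc_nonneg {M : Matrix n n ℂ} (h : M.PosSemidef) : 0 ≤ sc B M := by
  obtain ⟨N, rfl⟩ := CStarAlgebra.nonneg_iff_eq_star_mul_self.mp (Matrix.nonneg_iff_posSemidef.mpr h)
  rw [map_mul, map_star]
  exact star_mul_self_nonneg _

/-- The permutation matrix, as a covariant assignment. -/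
def pmat : Equiv.Perm n →* Matrix n n ℂ where
  toFun σ := Matrix.of fun x y => if σ y = x then 1 else 0
  map_one' := by ext x y; simp [Matrix.one_apply, eq_comm]
  map_mul' σ τ := by
    ext x y
    simp only [Matrix.mul_apply, Matrix.of_apply, Equiv.Perm.mul_apply, mul_ite, mul_one, mul_zero]
    rw [Finset.sum_eq_single (τ y)]
    · simp [eq_comm]
    · intro b _ hb; simp [Ne.symm hb]
    · simp

lemma pmat_apply (σ : Equiv.Perm n) (x y : n) : pmat σ x y = if σ y = x then 1 else 0 := rfl

lemma pmat_conjTranspose (σ : Equiv.Perm n) : (pmat σ)ᴴ = pmat σ⁻¹ := by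
  ext x y
  simp only [Matrix.conjTranspose_apply, pmat_apply, apply_ite star, star_one, star_zero]
  refine if_congr ?_ rfl rfl
  constructor
  · intro h; rw [← h]; simp
  · intro h; rw [← h]; simp

lemma pmat_mul_apply (σ : Equiv.Perm n) (M : Matrix n n ℂ) (x y : n) :
    (pmat σ * M) x y = M (σ⁻¹ x) y := by
  simp only [Matrix.mul_apply, pmat_apply, ite_mul, one_mul, zero_mul]
  rw [Finset.sum_eq_single (σ⁻¹ x)]
  · simp
  · intro b _ hb
    rw [if_neg]
    intro h; exact hb (by rw [← h]; simp)
  · simp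

lemma mul_pmat_apply (σ : Equiv.Perm n) (M : Matrix n n ℂ) (x y : n) :
    (M * pmat σ) x y = M x (σ y) := by
  simp [Matrix.mul_apply, pmat_apply]

/-- The projection onto functions with zero mean on each fibre over the previous level. -/
def qmat (k : ℕ) : Matrix (Lev (k + 1)) (Lev (k + 1)) ℂ :=
  Matrix.of fun x y => (if x = y then 1 else 0) - (if Fin.init x = Fin.init y then (1 : ℂ) / 125 else 0)

/-- The embedding of one level into the corner of the next one at the first letter zero. -/
def corner (k : ℕ) (M : Matrix (Lev (k + 1)) (Lev (k + 1)) ℂ) :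
    Matrix (Lev (k + 1 + 1)) (Lev (k + 1 + 1)) ℂ :=
  Matrix.of fun x y => if x 0 = 0 ∧ y 0 = 0 then M (Fin.tail x) (Fin.tail y) else 0

/-- The partial isometry moving the first letter zero to the first letter `i`. -/
def shiftLetter (k : ℕ) (i : Lett) : Matrix (Lev (k + 1 + 1)) (Lev (k + 1 + 1)) ℂ :=
  Matrix.of fun x y => if x 0 = i ∧ y 0 = 0 ∧ Fin.tail x = Fin.tail y then 1 else 0

/-- The same embedding for matrices over the algebra. -/
def cornerB (k : ℕ) : CStarMatrix (Lev (k + 1)) (Lev (k + 1)) B →⋆ₙₐ[ℂ]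
    CStarMatrix (Lev (k + 1 + 1)) (Lev (k + 1 + 1)) B where
  toFun M := CStarMatrix.ofMatrix
    (Matrix.of fun x y => if x 0 = 0 ∧ y 0 = 0 then M (Fin.tail x) (Fin.tail y) else 0)
  map_smul' c M := by
    ext x y
    simp only [CStarMatrix.ofMatrix_apply, Matrix.of_apply, CStarMatrix.smul_apply, MonoidHom.id_apply]
    split_ifs <;> simp
  map_zero' := by ext x y; simp
  map_add' M N := by
    ext x y
    simp only [CStarMatrix.ofMatrix_apply, Matrix.of_apply, CStarMatrix.add_apply]
    split_ifs <;> simp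
  map_mul' M N := by
    ext x y
    simp only [CStarMatrix.mul_apply, CStarMatrix.ofMatrix_apply, Matrix.of_apply]
    by_cases h : x 0 = 0 ∧ y 0 = 0
    · rw [if_pos h, ← (Fin.consEquiv (fun _ : Fin (k + 1 + 1) => Lett)).sum_comp]
      simp only [Fin.consEquiv, Equiv.coe_fn_mk, Fin.cons_zero, Fin.tail_cons, h.1, h.2, true_and, and_true]
      rw [Fintype.sum_prod_type, Finset.sum_eq_single (0 : Lett)]
      · simp
      · intro b _ hb; simp [hb]
      · simp
    · rw [if_neg h]
      refine (Finset.sum_eq_zero fun z _ => ?_).symm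
      by_cases h1 : x 0 = 0
      · simp [show ¬ y 0 = 0 from fun h2 => h ⟨h1, h2⟩]
      · simp [h1]
  map_star' M := by
    ext x y
    simp only [CStarMatrix.star_apply, CStarMatrix.ofMatrix_apply, Matrix.of_apply,
      apply_ite star, star_zero, and_comm]

lemma cornerB_injective (k : ℕ) : Function.Injective (cornerB (B := B) k) := by
  intro M N h
  ext x y
  have := congrFun (congrFun h (Fin.cons 0 x)) (Fin.cons 0 y)
  simpa [cornerB] using this

lemma norm_cornerB (k : ℕ) (M : CStarMatrix (Lev (k + 1)) (Lev (k + 1)) B) :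
    ‖cornerB k M‖ = ‖M‖ :=
  NonUnitalStarAlgHom.norm_map _ (cornerB_injective k) M

lemma cornerB_sc_mul_dg (k : ℕ) (M : Matrix (Lev (k + 1)) (Lev (k + 1)) ℂ) (b : B) :
    cornerB k (sc B M * (dg b : CStarMatrix _ _ B)) = sc B (corner k M) * (dg b : CStarMatrix _ _ B) := by
  ext x y
  show (if x 0 = 0 ∧ y 0 = 0 then _ else (0 : B)) = _
  rw [sc_mul_dg_apply, sc_mul_dg_apply, corner, Matrix.of_apply]
  split_ifs <;> simp

lemma cornerB_sc (k : ℕ) (M : Matrix (Lev (k + 1)) (Lev (k + 1)) ℂ) :
    cornerB (B := B) k (sc B M) = sc B (corner k M) := by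
  have := cornerB_sc_mul_dg (B := B) k M 1
  simpa using this

lemma shift_mul_corner (k : ℕ) (i : Lett) (M : Matrix (Lev (k + 1)) (Lev (k + 1)) ℂ) :
    shiftLetter k i * corner k M
      = Matrix.of fun x y => if x 0 = i ∧ y 0 = 0 then M (Fin.tail x) (Fin.tail y) else 0 := by
  ext x y
  simp only [Matrix.mul_apply, Matrix.of_apply, shiftLetter, corner]
  rw [← (Fin.consEquiv (fun _ : Fin (k + 1 + 1) => Lett)).sum_comp]
  simp only [Fin.consEquiv, Equiv.coe_fn_mk, Fin.cons_zero, Fin.tail_cons, ite_mul, one_mul, zero_mul]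
  rw [Fintype.sum_prod_type, Finset.sum_eq_single (0 : Lett)]
  · by_cases h : x 0 = i <;> simp [h]
  · intro b _ hb; simp [hb]
  · simp

lemma shift_conjTranspose_mul (k : ℕ) (i j : Lett) :
    (shiftLetter k i)ᴴ * shiftLetter k j = if i = j then corner k 1 else 0 := by
  ext x y
  simp only [Matrix.mul_apply, Matrix.conjTranspose_apply, shiftLetter, Matrix.of_apply]
  rw [← (Fin.consEquiv (fun _ : Fin (k + 1 + 1) => Lett)).sum_comp]
  simp only [Fin.consEquiv, Equiv.coe_fn_mk, Fin.cons_zero, Fin.tail_cons, apply_ite star, star_one, star_zero]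
  rw [Fintype.sum_prod_type]
  split_ifs with h
  · subst h
    rw [Finset.sum_eq_single i]
    · simp only [true_and, corner, Matrix.of_apply, Matrix.one_apply, mul_ite, mul_one, mul_zero]
      rw [Finset.sum_eq_single (Fin.tail x)]
      · by_cases h1 : x 0 = 0 <;> by_cases h2 : y 0 = 0 <;> simp [h1, h2]
      · intro b _ hb; simp [hb]
      · simp
    · intro b _ hb; simp [hb]
    · simp
  · refine (Finset.sum_eq_zero fun b _ => Finset.sum_eq_zero fun c _ => ?_).trans (by simp)
    by_cases hb : b = i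
    · subst hb; simp [h]
    · simp [hb]

lemma corner_mul (k : ℕ) (M N : Matrix (Lev (k + 1)) (Lev (k + 1)) ℂ) :
    corner k M * corner k N = corner k (M * N) := by
  ext x y
  simp only [Matrix.mul_apply, corner, Matrix.of_apply]
  by_cases h : x 0 = 0 ∧ y 0 = 0
  · rw [if_pos h, ← (Fin.consEquiv (fun _ : Fin (k + 1 + 1) => Lett)).sum_comp]
    simp only [Fin.consEquiv, Equiv.coe_fn_mk, Fin.cons_zero, Fin.tail_cons, h.1, h.2, true_and, and_true]
    rw [Fintype.sum_prod_type, Finset.sum_eq_single (0 : Lett)]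
    · simp
    · intro b _ hb; simp [hb]
    · simp
  · rw [if_neg h]
    refine Finset.sum_eq_zero fun z _ => ?_
    by_cases h1 : x 0 = 0
    · simp [show ¬ y 0 = 0 from fun h2 => h ⟨h1, h2⟩]
    · simp [h1]

end

end Vale.Agent.P083
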