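import Vale.Agent.P083.Rep
import Vale.Agent.P083.Mat

/-!
Uniform expansion for the action of the affine group on pairs of points of a level, and the
description of invariant kernels.
-/

namespace Vale.Agent.P083

open Filter Topology Polynomial
open scoped ComplexOrder

set_option linter.unusedSectionVars false
set_option linter.unusedSimpArgs false

noncomputable section

/-- The action on pairs of points. -/
def pairPerm (k : ℕ) : Aff →* Equiv.Perm (Lev (k + 1) × Lev (k + 1)) where
  toFun g := (levPerm (k + 1) g).prodCongr (levPerm (k + 1) g)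
  map_one' := by ext p <;> simp
  map_mul' g h := by ext p <;> simp [levAct_mul]

lemma pairPerm_apply (k : ℕ) (g : Aff) (x y : Lev (k + 1)) :
    pairPerm k g (x, y) = (levAct (k + 1) g x, levAct (k + 1) g y) := rfl

section col

variable {n : Type*} [Fintype n] [DecidableEq n]

/-- A vector as a matrix with one nonzero column. -/
def colM (a₀ : n) (v : n → ℂ) : CStarMatrix n n ℂ :=
  CStarMatrix.ofMatrix (Matrix.of fun x y => if y = a₀ then v x else 0)

lemma colM_sub (a₀ : n) (v w : n → ℂ) : colM a₀ (v - w) = colM a₀ v - colM a₀ w := by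
  ext x y
  simp only [colM, CStarMatrix.sub_apply, CStarMatrix.ofMatrix_apply, Matrix.of_apply, Pi.sub_apply]
  split_ifs <;> simp

lemma colM_smul (a₀ : n) (c : ℂ) (v : n → ℂ) : colM a₀ (c • v) = c • colM a₀ v := by
  ext x y
  simp [colM]

lemma mul_colM (a₀ : n) (M : CStarMatrix n n ℂ) (v : n → ℂ) :
    M * colM a₀ v = colM a₀ (fun x => ∑ z, M x z * v z) := by
  ext x y
  simp only [CStarMatrix.mul_apply, colM, CStarMatrix.ofMatrix_apply, Matrix.of_apply]
  split_ifs <;> simp

lemma norm_colM_sq (a₀ : n) (v : n → ℂ) : ‖colM a₀ v‖ ^ 2 = ∑ x, ‖v x‖ ^ 2 := by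
  have e : star (colM a₀ v) * colM a₀ v
      = ((∑ x, ‖v x‖ ^ 2 : ℝ) : ℂ) • sc ℂ (Matrix.single a₀ a₀ (1 : ℂ)) := by
    ext x y
    simp only [CStarMatrix.mul_apply, CStarMatrix.star_apply, colM, CStarMatrix.ofMatrix_apply,
      Matrix.of_apply, CStarMatrix.smul_apply, sc_apply, Matrix.single_apply]
    by_cases hx : x = a₀ <;> by_cases hy : y = a₀
    · subst hx hy
      simp [Complex.sq_norm, Complex.normSq_eq_conj_mul_self]
    · simp [hy, Ne.symm hy]
    · simp [hx, Ne.symm hx]
    · simp [hx, Ne.symm hx]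
  have h1 : ‖sc ℂ (Matrix.single a₀ a₀ (1 : ℂ))‖ = 1 := by
    refine le_antisymm (norm_sc_le_one ?_) ?_
    · simp [Matrix.single_mul_single_same]
    · simpa using CStarMatrix.norm_entry_le_norm (M := sc ℂ (Matrix.single a₀ a₀ (1 : ℂ))) (i := a₀) (j := a₀)
  rw [sq, ← CStarRing.norm_star_mul_self, e, norm_smul, h1, mul_one, Complex.norm_real,
    Real.norm_eq_abs, abs_of_nonneg (by positivity)]

lemma sc_pmat_colM (a₀ : n) (σ : Equiv.Perm n) (v : n → ℂ) :
    sc ℂ (pmat σ) * colM a₀ v = colM a₀ (fun x => v (σ⁻¹ x)) := by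
  rw [mul_colM]
  congr 1
  funext x
  simp only [sc_apply, pmat_apply, Algebra.algebraMap_self, RingHom.id_apply, ite_mul, one_mul, zero_mul]
  rw [Finset.sum_eq_single (σ⁻¹ x)]
  · simp
  · intro b _ hb
    rw [if_neg]
    intro h; exact hb (by rw [← h]; simp)
  · simp

end col

lemma norm_sc_pmat_le {n : Type*} [Fintype n] [DecidableEq n] {B : Type*} [CStarAlgebra B]
    [PartialOrder B] [StarOrderedRing B] (σ : Equiv.Perm n) : ‖sc B (pmat σ)‖ ≤ 1 :=
  norm_sc_le_one (by rw [pmat_conjTranspose, ← map_mul, inv_mul_cancel, map_one, mul_one])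

/-- The matrices on pairs of points of all levels. -/
abbrev PairM (k : ℕ) : Type := CStarMatrix (Lev (k + 1) × Lev (k + 1)) (Lev (k + 1) × Lev (k + 1)) ℂ

/-- The permutation representation on pairs, all levels at once. -/
def pairL (g : Aff) : AsympQuot PairM (⊤ : Filter ℕ) :=
  asyMk PairM ⊤ (BddFam.mk (fun k => sc ℂ (pmat (pairPerm k g))) 1 fun _ => norm_sc_pmat_le _)

lemma pairL_mul (g h : Aff) : pairL g * pairL h = pairL (g * h) := by
  rw [pairL, pairL, ← map_mul, pairL]
  refine congrArg _ (Subtype.ext (funext fun k => ?_))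
  show sc ℂ (pmat (pairPerm k g)) * sc ℂ (pmat (pairPerm k h)) = _
  rw [← map_mul, ← map_mul, ← map_mul]
  rfl

lemma pairL_star (g : Aff) : star (pairL g) = pairL g⁻¹ := by
  rw [pairL, ← map_star, pairL]
  refine congrArg _ (Subtype.ext (funext fun k => ?_))
  show star (sc ℂ (pmat (pairPerm k g))) = _
  rw [← map_star, Matrix.star_eq_conjTranspose, pmat_conjTranspose, ← map_inv]
  rfl

lemma eq_of_top {f g : BddFam PairM} (h : asyMk PairM ⊤ f = asyMk PairM ⊤ g) (k : ℕ) :
    f.1 k = g.1 k := by
  rw [asyMk_eq_iff] at h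
  by_contra hne
  have hpos : 0 < ‖f.1 k - g.1 k‖ := norm_pos_iff.mpr (sub_ne_zero.mpr hne)
  have := (h.eventually (gt_mem_nhds hpos))
  rw [Filter.eventually_top] at this
  exact lt_irrefl _ (this k)

/-- Uniform expansion: a nearly invariant function on pairs is near an invariant one. -/
theorem pair_expander : ∃ C : ℝ, 0 ≤ C ∧ ∀ (k : ℕ) (a₀ : Lev (k + 1) × Lev (k + 1))
    (v : Lev (k + 1) × Lev (k + 1) → ℂ),
    ∃ v₀ : Lev (k + 1) × Lev (k + 1) → ℂ, (∀ g ∈ G₀, ∀ p, v₀ (pairPerm k g p) = v₀ p) ∧
      ∀ η : ℝ, (∀ g ∈ gens, ‖colM a₀ (fun p => v ((pairPerm k g)⁻¹ p)) - colM a₀ v‖ ≤ η) →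
        ‖colM a₀ v - colM a₀ v₀‖ ≤ C * η := by
  letI : ∀ k, PartialOrder (PairM k) := fun k => inferInstance
  obtain ⟨F, G, -, hF, hG, hinv⟩ := exists_kernel_proj pairL_mul pairL_star
  obtain ⟨f, rfl⟩ := asyMk_surjective F
  obtain ⟨G, rfl⟩ := asyMk_surjective G
  obtain ⟨CG, hCG⟩ := G.2
  let rep : Aff → BddFam PairM := fun g =>
    BddFam.mk (fun k => sc ℂ (pmat (pairPerm k g))) 1 fun _ => norm_sc_pmat_le _
  let av : ∀ {ι : Type} [Fintype ι], (ι → Aff) → BddFam PairM :=
    fun {ι} _ x => (Fintype.card ι : ℂ)⁻¹ • ∑ i, rep (x i)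
  let D : BddFam PairM := (1 - av g1) + (1 - av g2) + (1 - av g3)
  have hD : asyMk PairM ⊤ D = lap pairL := by
    simp only [D, av, map_add, map_sub, map_one, map_smul, map_sum]
    rfl
  refine ⟨3 * max CG 0, by positivity, fun k a₀ v => ?_⟩
  refine ⟨fun x => ∑ z, f.1 k x z * v z, fun g hg p => ?_, fun η hη => ?_⟩
  · have h := eq_of_top (f := rep g * f) (g := f) (by rw [map_mul]; exact hinv g hg) k
    refine Finset.sum_congr rfl fun z _ => ?_
    congr 1
    have h2 := congrFun (congrFun h (pairPerm k g p)) z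
    rw [← h2]
    show (sc ℂ (pmat (pairPerm k g)) * f.1 k) (pairPerm k g p) z = _
    simp only [CStarMatrix.mul_apply, sc_apply, pmat_apply, Algebra.algebraMap_self,
      RingHom.id_apply, ite_mul, one_mul, zero_mul]
    rw [Finset.sum_eq_single p] <;> simp_all
  · have hη0 : 0 ≤ η := (norm_nonneg _).trans (hη (g1 0) (Or.inl (Or.inl ⟨0, rfl⟩)))
    have h1 : G.1 k * D.1 k = 1 - f.1 k :=
      eq_of_top (f := G * D) (g := 1 - f) (by rw [map_mul, hD, hG, map_sub, map_one]) k
    have e : colM a₀ v - colM a₀ (fun x => ∑ z, f.1 k x z * v z) = G.1 k * (D.1 k * colM a₀ v) := by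
      rw [← mul_assoc, h1, sub_mul, one_mul, mul_colM]
    rw [e]
    have hav : ∀ {ι : Type} [Fintype ι] [Nonempty ι] (x : ι → Aff), (∀ i, x i ∈ gens) →
        ‖(1 - (av x).1 k) * colM a₀ v‖ ≤ η := by
      intro ι _ _ x hx
      have hcard : (Fintype.card ι : ℂ) ≠ 0 := Nat.cast_ne_zero.mpr Fintype.card_ne_zero
      have e2 : (1 - (av x).1 k) * colM a₀ v
          = (Fintype.card ι : ℂ)⁻¹ • ∑ i, (colM a₀ v - sc ℂ (pmat (pairPerm k (x i))) * colM a₀ v) := by
        rw [Finset.sum_sub_distrib, smul_sub, Finset.sum_const, Finset.card_univ,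
          ← Nat.cast_smul_eq_nsmul ℂ, smul_smul, inv_mul_cancel₀ hcard, one_smul, ← Finset.sum_mul,
          ← smul_mul_assoc, sub_mul, one_mul]
        congr 2
        simp only [av, SetLike.val_smul, AddSubmonoidClass.coe_finsetSum, Pi.smul_apply,
          Finset.sum_apply]
        rfl
      rw [e2, norm_smul, norm_inv, Complex.norm_natCast, inv_mul_le_iff₀ (Nat.cast_pos.mpr Fintype.card_pos)]
      refine (norm_sum_le _ _).trans ?_
      refine (Finset.sum_le_sum (g := fun _ : ι => η) fun i _ => ?_).trans (by simp)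
      rw [norm_sub_rev, sc_pmat_colM]
      exact hη _ (hx i)
    have hDb : ‖D.1 k * colM a₀ v‖ ≤ η + η + η := by
      show ‖((1 - (av g1).1 k) + (1 - (av g2).1 k) + (1 - (av g3).1 k)) * colM a₀ v‖ ≤ _
      rw [add_mul, add_mul]
      refine (norm_add₃_le).trans (add_le_add (add_le_add ?_ ?_) ?_)
      · exact hav g1 fun a => Or.inl (Or.inl ⟨a, rfl⟩)
      · exact hav g2 fun a => Or.inl (Or.inr ⟨a, rfl⟩)
      · exact hav g3 fun a => Or.inr ⟨a, rfl⟩
    calc ‖G.1 k * (D.1 k * colM a₀ v)‖ ≤ ‖G.1 k‖ * ‖D.1 k * colM a₀ v‖ := norm_mul_le _ _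
      _ ≤ max CG 0 * (η + η + η) :=
          mul_le_mul ((hCG k).trans (le_max_left _ _)) hDb (norm_nonneg _) (le_max_right _ _)
      _ = 3 * max CG 0 * η := by ring

/-! ### Invariant kernels -/

/-- A vector supported at the top coefficient of one coordinate. -/
def topAt (k : ℕ) (i : Fin 3) (a : F5) : Lev (k + 1) :=
  fun j l => if j = Fin.last k ∧ l = i then a else 0

lemma levAct_trs (k : ℕ) (v : Fin 3 → R5) (x : Lev k) :
    levAct k (trs v) x = x + trunck k v := by
  rw [levAct]
  have : (trs v).app (liftk k x) = liftk k x + v := by simp [Aff.app, trs]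
  rw [this, trunck_add, trunck_liftk]

lemma app_el_apply (i j : Fin 3) (h : i ≠ j) (r : R5) (v : Fin 3 → R5) (l : Fin 3) :
    (el i j h r).app v l = v l + if l = i then r * v j else 0 := by
  show (Matrix.mulVec (Matrix.transvection i j r) v + 0) l = _
  rw [add_zero, Matrix.transvection, Matrix.add_mulVec, Matrix.one_mulVec, Pi.add_apply]
  congr 1
  simp only [Matrix.mulVec, dotProduct, Matrix.single_apply, ite_mul, zero_mul]
  by_cases hl : l = i
  · simp [hl]
  · simp [hl, Ne.symm hl]

lemma levAct_el_add (k : ℕ) (i j : Fin 3) (h : i ≠ j) (r : R5) (x y : Lev k) :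
    levAct k (el i j h r) (x + y) = levAct k (el i j h r) x + levAct k (el i j h r) y := by
  have hv : (el i j h r).vec = 0 := rfl
  simp only [levAct, Aff.app, hv, add_zero]
  rw [← trunck_add, ← Matrix.mulVec_add]
  exact trunck_mulVec_congr k _ (by rw [trunck_add, trunck_liftk, trunck_liftk, trunck_liftk])

lemma levAct_el_one (k : ℕ) (i j : Fin 3) (h : i ≠ j) (d : Lev k) (n : Fin k) (l : Fin 3) :
    levAct k (el i j h 1) d n l = d n l + if l = i then d n j else 0 := by
  simp only [levAct, trunck, app_el_apply, one_mul, Polynomial.coeff_add, coeff_liftk, dif_pos n.2]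
  split_ifs <;> simp [coeff_liftk]

lemma exists_el_top (k : ℕ) (i j : Fin 3) (h : i ≠ j) (d : Lev (k + 1)) (hd : ∃ n, d n j ≠ 0)
    (a : F5) : ∃ r : R5, levAct (k + 1) (el i j h r) d = d + topAt k i a := by
  classical
  set S := Finset.univ.filter fun n : Fin (k + 1) => d n j ≠ 0 with hS
  have hne : S.Nonempty := by
    obtain ⟨n, hn⟩ := hd
    exact ⟨n, by simp [hS, hn]⟩
  set m := S.min' hne with hm
  have hm1 : d m j ≠ 0 := by
    have := S.min'_mem hne
    simp only [hS, Finset.mem_filter] at this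
    exact this.2
  have hm2 : ∀ n : Fin (k + 1), n < m → d n j = 0 := fun n hn => by
    by_contra hc
    exact absurd (S.min'_le n (by simp [hS, hc])) (not_le.mpr hn)
  refine ⟨C (a / d m j) * X ^ (k - (m : ℕ)), ?_⟩
  funext n l
  simp only [levAct, trunck, app_el_apply, Polynomial.coeff_add, coeff_liftk, dif_pos n.2, Pi.add_apply]
  congr 1
  by_cases hl : l = i
  · simp only [if_pos hl, topAt, and_iff_left hl]
    rw [mul_assoc, Polynomial.coeff_C_mul, Polynomial.coeff_X_pow_mul']
    by_cases hn : n = Fin.last k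
    · subst hn
      have h' : k - (k - (m : ℕ)) = (m : ℕ) := by have := m.2; omega
      rw [if_pos rfl, Fin.val_last, if_pos (Nat.sub_le _ _), h', coeff_liftk, dif_pos m.2]
      exact div_mul_cancel₀ a hm1
    · rw [if_neg hn]
      split_ifs with h2
      · have hnk : (n : ℕ) < k := Fin.val_lt_last hn
        have hb : (n : ℕ) - (k - (m : ℕ)) < k + 1 := by omega
        have hlt : (⟨(n : ℕ) - (k - (m : ℕ)), hb⟩ : Fin (k + 1)) < m := by
          have := m.2
          rw [Fin.lt_def]; simp only; omega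
        rw [coeff_liftk, dif_pos hb, hm2 _ hlt, mul_zero]
      · rw [mul_zero]
  · simp [hl, topAt]

attribute [local irreducible] levAct

variable {k : ℕ} {f : Lev (k + 1) → ℂ}
  (hf : ∀ (i j : Fin 3) (h : i ≠ j) (r : R5) (d : Lev (k + 1)), f (levAct (k + 1) (el i j h r) d) = f d)

include hf in
lemma shift_of_other {d : Lev (k + 1)} {i j : Fin 3} (h : i ≠ j) (hd : ∃ n, d n j ≠ 0) (a : F5) :
    f (d + topAt k i a) = f d := by
  obtain ⟨r, hr⟩ := exists_el_top k i j h d hd a
  rw [← hr, hf]

include hf in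
lemma shift_of_init {d : Lev (k + 1)} (hd : Fin.init d ≠ 0) (i : Fin 3) (a : F5) :
    f (d + topAt k i a) = f d := by
  obtain ⟨n, j, hnj⟩ : ∃ (n : Fin k) (j : Fin 3), d n.castSucc j ≠ 0 := by
    by_contra hc
    push Not at hc
    exact hd (funext fun n => funext fun j => hc n j)
  by_cases hij : i = j
  swap
  · exact shift_of_other hf hij ⟨_, hnj⟩ a
  subst hij
  obtain ⟨l, hl⟩ : ∃ l : Fin 3, l ≠ i := exists_ne i
  by_cases hlz : ∃ m, d m l ≠ 0
  · exact shift_of_other hf hl.symm hlz a
  push Not at hlz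
  set e := levAct (k + 1) (el l i hl 1) d with he
  have hadd : levAct (k + 1) (el l i hl 1) (d + topAt k i a) = e + topAt k i a + topAt k l a := by
    rw [levAct_el_add, ← he, add_assoc]
    congr 1
    funext m q
    simp only [levAct_el_one, Pi.add_apply, topAt]
    by_cases hq : q = l
    · subst hq; simp [hl]
    · simp [hq]
  have hei : ∀ m, e m i = d m i := fun m => by simp [he, levAct_el_one, hl.symm]
  have hel : e n.castSucc l ≠ 0 := by simp [he, levAct_el_one, hlz, hnj]
  rw [← hf l i hl 1 (d + topAt k i a), hadd,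
    shift_of_other hf hl ⟨n.castSucc, by simpa [hei, topAt, (Fin.castSucc_lt_last n).ne] using hnj⟩ a,
    shift_of_other hf hl.symm ⟨n.castSucc, hel⟩ a, he, hf]

/-- The vector supported on the top coefficient. -/
def topVec (k : ℕ) (w : Lett) : Lev (k + 1) := fun j => if j = Fin.last k then w else 0

lemma topVec_eq (k : ℕ) (w : Lett) :
    topVec k w = topAt k 0 (w 0) + topAt k 1 (w 1) + topAt k 2 (w 2) := by
  funext j l
  by_cases hj : j = Fin.last k <;> fin_cases l <;> simp [topVec, topAt, hj]

include hf in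
lemma const_of_init {d : Lev (k + 1)} (hd : Fin.init d ≠ 0) (w : Lett) :
    f (d + topVec k w) = f d := by
  have hi : ∀ (x : Lev (k + 1)) (i : Fin 3) (a : F5), Fin.init (x + topAt k i a) = Fin.init x := by
    intro x i a
    funext m q
    simp [Fin.init, topAt, (Fin.castSucc_lt_last m).ne]
  rw [topVec_eq, ← add_assoc, ← add_assoc,
    shift_of_init hf (by rwa [hi, hi]), shift_of_init hf (by rwa [hi]), shift_of_init hf hd]

include hf in
lemma const_top {w : Lett} (hw : w ≠ 0) : f (topVec k w) = f (topVec k 1) := by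
  have upd : ∀ (u : Lett) (i j : Fin 3) (b : F5), i ≠ j → u j ≠ 0 →
      f (topVec k u) = f (topVec k (Function.update u i b)) := by
    intro u i j b hij hu
    rw [← shift_of_other hf hij ⟨Fin.last k, by simpa [topVec] using hu⟩ (b - u i)]
    congr 1
    funext m q
    by_cases hm : m = Fin.last k
    · subst hm
      by_cases hq : q = i
      · subst hq; simp [topVec, topAt]
      · simp [topVec, topAt, hq]
    · simp [topVec, topAt, hm]
  obtain ⟨j, hj⟩ : ∃ j, w j ≠ 0 := by
    by_contra hc
    push Not at hc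
    exact hw (funext hc)
  fin_cases j
  · rw [upd w 1 0 1 (by decide) hj, upd _ 2 0 1 (by decide) (by simpa using hj),
      upd _ 0 1 1 (by decide) (by simp)]
    congr 2; funext q; fin_cases q <;> simp
  · rw [upd w 0 1 1 (by decide) hj, upd _ 2 1 1 (by decide) (by simpa using hj),
      upd _ 1 0 1 (by decide) (by simp)]
    congr 2; funext q; fin_cases q <;> simp
  · rw [upd w 0 2 1 (by decide) hj, upd _ 1 2 1 (by decide) (by simpa using hj),
      upd _ 2 0 1 (by decide) (by simp)]
    congr 2; funext q; fin_cases q <;> simp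

omit f in
/-- An invariant kernel acts on the new part of a level as a scalar. -/
theorem invariant_mul_qmat {k : ℕ} (K : Matrix (Lev (k + 1)) (Lev (k + 1)) ℂ)
    (hK : ∀ g ∈ G₀, ∀ x y, K (levAct (k + 1) g x) (levAct (k + 1) g y) = K x y) :
    ∃ c : ℂ, K * qmat k = c • qmat k := by
  classical
  set f : Lev (k + 1) → ℂ := fun d => K 0 d with hfd
  have hKf : ∀ x y, K x y = f (y - x) := by
    intro x y
    have := hK (trs (liftk (k + 1) x)) (trs_mem _) 0 (y - x)
    rw [levAct_trs, levAct_trs, trunck_liftk, zero_add, sub_add_cancel] at this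
    exact this
  have hf : ∀ (i j : Fin 3) (h : i ≠ j) (r : R5) (d : Lev (k + 1)),
      f (levAct (k + 1) (el i j h r) d) = f d := by
    intro i j h r d
    have := hK _ (el_mem i j h r) 0 d
    have h0 : levAct (k + 1) (el i j h r) (0 : Lev (k + 1)) = 0 := by
      have e := levAct_el_add (k + 1) i j h r 0 0
      rw [add_zero] at e
      exact left_eq_add.mp e
    rwa [h0] at this
  refine ⟨f 0 - f (topVec k 1), ?_⟩
  ext x y
  rw [Matrix.smul_apply, smul_eq_mul, Matrix.mul_apply]
  simp only [qmat, Matrix.of_apply, mul_sub, mul_ite, mul_one, mul_zero]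
  rw [Finset.sum_sub_distrib, Finset.sum_ite_eq' Finset.univ y (fun z => K x z), if_pos (Finset.mem_univ y)]
  have hfib : ∑ z, (if Fin.init z = Fin.init y then K x z * ((1 : ℂ) / 125) else 0)
      = (∑ w : Lett, f (y - x + topVec k w)) * ((1 : ℂ) / 125) := by
    rw [Finset.sum_mul, ← Finset.sum_filter]
    symm
    refine Finset.sum_nbij (fun w => y + topVec k w) ?_ ?_ ?_ ?_
    · intro w _
      simp only [Finset.coe_filter, Finset.mem_univ, true_and, Set.mem_ofPred_eq, Finset.mem_filter]
      funext m q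
      simp [Fin.init, topVec, (Fin.castSucc_lt_last m).ne]
    · intro a _ b _ hab
      have := congrFun (add_left_cancel hab) (Fin.last k)
      simpa [topVec] using this
    · intro z hz
      simp only [Finset.coe_filter, Finset.mem_univ, true_and, Set.mem_ofPred_eq] at hz
      refine ⟨z (Fin.last k) - y (Fin.last k), by simp, ?_⟩
      funext m
      refine Fin.lastCases ?_ (fun m => ?_) m
      · simp [topVec]
      · have := congrFun hz m
        simp only [Fin.init] at this
        simp [topVec, (Fin.castSucc_lt_last m).ne, this]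
    · intro w _
      rw [hKf x (y + topVec k w)]
      congr 2
      abel
  rw [hfib, hKf x y]
  by_cases hd : Fin.init (y - x) = 0
  · have hxy : Fin.init x = Fin.init y := by
      funext m
      have := congrFun hd m
      simp only [Fin.init, Pi.sub_apply, Pi.zero_apply, sub_eq_zero] at this
      exact this.symm
    obtain ⟨w₀, hw₀⟩ : ∃ w₀, y - x = topVec k w₀ := by
      refine ⟨(y - x) (Fin.last k), funext fun m => ?_⟩
      refine Fin.lastCases ?_ (fun m => ?_) m
      · simp [topVec]
      · simpa [topVec, (Fin.castSucc_lt_last m).ne, Fin.init] using congrFun hd m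
    have htot : ∑ w : Lett, f (y - x + topVec k w) = f 0 + 124 * f (topVec k 1) := by
      rw [hw₀]
      have e : ∀ w, topVec k w₀ + topVec k w = topVec k (w₀ + w) := fun w => by
        funext m; by_cases hm : m = Fin.last k <;> simp [topVec, hm]
      simp only [e]
      rw [show (∑ w, f (topVec k (w₀ + w))) = ∑ w, f (topVec k w) from
          Equiv.sum_comp (Equiv.addLeft w₀) (fun w => f (topVec k w)),
        ← Finset.add_sum_erase _ _ (Finset.mem_univ (0 : Lett)),
        Finset.sum_congr rfl (fun w hw => const_top hf (Finset.ne_of_mem_erase hw))]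
      have hz : topVec k 0 = 0 := by funext m; simp [topVec]
      rw [hz, Finset.sum_const, Finset.card_erase_of_mem (Finset.mem_univ _), Finset.card_univ]
      have hc : Fintype.card Lett = 125 := by simp [ZMod.card]
      rw [hc, nsmul_eq_mul]
      norm_num
    rw [htot, if_pos hxy]
    by_cases hxy' : x = y
    · subst hxy'
      rw [if_pos rfl, sub_self]; ring
    · have hw0 : w₀ ≠ 0 := by
        intro h0
        apply hxy'
        have : y - x = 0 := by rw [hw₀, h0]; funext m; simp [topVec]
        exact (sub_eq_zero.mp this).symm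
      rw [if_neg hxy', hw₀, const_top hf hw0]; ring
  · have hxy : Fin.init x ≠ Fin.init y := by
      intro h
      apply hd
      funext m
      have := congrFun h m
      simp only [Fin.init] at this
      simp [Fin.init, this]
    have hxy' : x ≠ y := fun h => hxy (by rw [h])
    have htot : ∑ w : Lett, f (y - x + topVec k w) = 125 * f (y - x) := by
      rw [Finset.sum_congr rfl (fun w _ => const_of_init hf hd w), Finset.sum_const, Finset.card_univ,
        nsmul_eq_mul]
      simp [ZMod.card]
    rw [htot, if_neg hxy, if_neg hxy']; ring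

end

end Vale.Agent.P083
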