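import Vale.Agent.P083.Scalar
import Vale.Agent.P083.Cuntz

/-!
In an algebra generated by a Cuntz pair, finitely many elements cannot carry almost invariant
new vectors at all high levels.
-/

namespace Vale.Agent.P083

open scoped ComplexOrder MatrixOrder Kronecker
open Matrix

set_option linter.unusedSectionVars false
set_option linter.unusedSimpArgs false
set_option linter.style.haveILetI false

noncomputable section

variable {B : Type*} [CStarAlgebra B] [PartialOrder B] [StarOrderedRing B]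
variable {n N : Type*} [Fintype n] [DecidableEq n] [Fintype N] [DecidableEq N]

/-- The amplification of the factorisation map. -/
def amp (y : N → B) (M : Matrix (n × N) (n × N) ℂ) : CStarMatrix n n B :=
  CStarMatrix.ofMatrix (Matrix.of fun x x' => ∑ α, ∑ β, M (x, α) (x', β) • (y α * star (y β)))

lemma amp_kron (y : N → B) (A : Matrix n n ℂ) (b : Matrix N N ℂ) :
    amp y (A ⊗ₖ b) = sc B A * (dg (∑ α, ∑ β, b α β • (y α * star (y β))) : CStarMatrix n n B) := by
  ext x x'
  rw [sc_mul_dg_apply]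
  simp [amp, Finset.smul_sum, smul_smul]

lemma amp_add (y : N → B) (M M' : Matrix (n × N) (n × N) ℂ) : amp y (M + M') = amp y M + amp y M' := by
  ext x x'
  simp [amp, add_smul, Finset.sum_add_distrib]

lemma amp_sub (y : N → B) (M M' : Matrix (n × N) (n × N) ℂ) : amp y (M - M') = amp y M - amp y M' := by
  ext x x'
  simp [amp, sub_smul, Finset.sum_sub_distrib]

lemma amp_smul (y : N → B) (c : ℂ) (M : Matrix (n × N) (n × N) ℂ) : amp y (c • M) = c • amp y M := by
  ext x x'
  simp [amp, Finset.smul_sum, smul_smul]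

lemma amp_sum (y : N → B) {ι : Type*} (S : Finset ι) (M : ι → Matrix (n × N) (n × N) ℂ) :
    amp y (∑ i ∈ S, M i) = ∑ i ∈ S, amp y (M i) := by
  classical
  induction S using Finset.induction with
  | empty => ext x x'; simp [amp]
  | insert a S ha ih => rw [Finset.sum_insert ha, Finset.sum_insert ha, amp_add, ih]

lemma amp_nonneg [Nonempty n] (y : N → B) {M : Matrix (n × N) (n × N) ℂ} (h : M.PosSemidef) :
    0 ≤ amp y M := by
  obtain ⟨C, rfl⟩ := CStarAlgebra.nonneg_iff_eq_star_mul_self.mp (Matrix.nonneg_iff_posSemidef.mpr h)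
  let x₀ : n := Classical.arbitrary n
  let R : n × N → CStarMatrix n n B := fun r => CStarMatrix.ofMatrix
    (Matrix.of fun z x' => if z = x₀ then ∑ β, C r (x', β) • star (y β) else 0)
  have e : amp y (star C * C) = ∑ r, star (R r) * R r := by
    ext x x'
    have hs : ∀ (F : n × N → CStarMatrix n n B), (∑ r, F r) x x' = ∑ r, F r x x' :=
      fun F => Matrix.sum_apply x x' Finset.univ F
    rw [hs]
    simp only [amp, R, CStarMatrix.ofMatrix_apply, Matrix.of_apply, CStarMatrix.mul_apply,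
      CStarMatrix.star_apply, Matrix.star_eq_conjTranspose, Matrix.mul_apply,
      Matrix.conjTranspose_apply, apply_ite star, star_zero, ite_mul, zero_mul, mul_ite, mul_zero,
      Finset.sum_ite_eq', Finset.mem_univ, if_true, star_sum, star_smul, star_star, Finset.sum_mul,
      Finset.mul_sum, smul_mul_smul_comm, Finset.sum_smul]
    conv_rhs => rw [Finset.sum_comm]; arg 2; ext α; rw [Finset.sum_comm]
    rw [Finset.sum_comm]
  rw [e]
  exact Finset.sum_nonneg fun r _ => star_mul_self_nonneg _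

lemma quad_kron (A : Matrix n n ℂ) (b : Matrix N N ℂ) (ζ : n × N → ℂ) :
    star ζ ⬝ᵥ ((A ⊗ₖ b) *ᵥ ζ)
      = ((Matrix.of fun x α => ζ (x, α))ᴴ * (A * (Matrix.of fun x α => ζ (x, α)) * bᵀ)).trace := by
  simp only [dotProduct, mulVec, Fintype.sum_prod_type, kroneckerMap_apply, Pi.star_apply,
    Matrix.trace, Matrix.diag_apply, Matrix.mul_apply, conjTranspose_apply, Matrix.of_apply,
    transpose_apply, Finset.mul_sum, Finset.sum_mul]
  rw [Finset.sum_comm]
  refine Finset.sum_congr rfl fun α _ => Finset.sum_congr rfl fun x _ => ?_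
  rw [Finset.sum_comm]
  refine Finset.sum_congr rfl fun β _ => Finset.sum_congr rfl fun z _ => ?_
  ring

omit [CStarAlgebra B] [PartialOrder B] [StarOrderedRing B] in
/-- The scalar operator inequality on a high level. -/
lemma scalar_posSemidef {N : Type} [Fintype N] [DecidableEq N] {κ : ℝ} {k : ℕ}
    {b : GenIdx → Matrix N N ℂ}
    (H : ∀ T : Matrix (Lev (k + 1)) N ℂ, qmat k * T = T →
      ∑ s, rip T (pmat (levPerm (k + 1) (genOf s)) * T * (b s)ᵀ) ≤ κ * fro T) :
    (((2 * κ : ℝ) : ℂ) • (qmat k ⊗ₖ (1 : Matrix N N ℂ))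
      - (qmat k ⊗ₖ 1) * (∑ s, (pmat (levPerm (k + 1) (genOf s)) ⊗ₖ b s
          + (pmat (levPerm (k + 1) (genOf s)) ⊗ₖ b s)ᴴ)) * (qmat k ⊗ₖ 1)).PosSemidef := by
  set Qk := qmat k ⊗ₖ (1 : Matrix N N ℂ) with hQk
  set P : GenIdx → Matrix (Lev (k + 1)) (Lev (k + 1)) ℂ := fun s => pmat (levPerm (k + 1) (genOf s)) with hP
  have hQh : Qkᴴ = Qk := by rw [hQk, conjTranspose_kronecker, qmat_conjTranspose, conjTranspose_one]
  have hQi : Qk * Qk = Qk := by rw [hQk, ← mul_kronecker_mul, qmat_idem, Matrix.one_mul]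
  refine Matrix.PosSemidef.of_dotProduct_mulVec_nonneg ?_ fun ζ => ?_
  · unfold Matrix.IsHermitian
    have hsum : ∀ (G : GenIdx → Matrix (Lev (k + 1) × N) (Lev (k + 1) × N) ℂ),
        (∑ s, (G s + (G s)ᴴ))ᴴ = ∑ s, (G s + (G s)ᴴ) := by
      intro G
      rw [conjTranspose_sum]
      exact Finset.sum_congr rfl fun s _ => by
        rw [conjTranspose_add, conjTranspose_conjTranspose]; exact add_comm _ _
    rw [conjTranspose_sub, conjTranspose_smul, conjTranspose_mul, conjTranspose_mul, hQh,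
      hsum (fun s => P s ⊗ₖ b s), Complex.star_def, Complex.conj_ofReal, Matrix.mul_assoc]
  · set T : Matrix (Lev (k + 1)) N ℂ := Matrix.of (fun x α => (Qk *ᵥ ζ) (x, α)) with hT
    have hQT : qmat k * T = T := by
      ext x α
      have h := congrFun (congrArg (· *ᵥ ζ) hQi) (x, α)
      simp only [← mulVec_mulVec] at h
      rw [hT, Matrix.of_apply, ← h]
      simp only [Matrix.mul_apply, Matrix.of_apply, hQk, mulVec, dotProduct, kroneckerMap_apply,
        Fintype.sum_prod_type, Matrix.one_apply, mul_ite, mul_one, mul_zero, ite_mul, zero_mul,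
        Finset.sum_ite_eq, Finset.mem_univ, if_true]
    have hz : ∀ M : Matrix (Lev (k + 1) × N) (Lev (k + 1) × N) ℂ,
        star ζ ⬝ᵥ ((Qk * M * Qk) *ᵥ ζ) = star (Qk *ᵥ ζ) ⬝ᵥ (M *ᵥ (Qk *ᵥ ζ)) := by
      intro M
      rw [← mulVec_mulVec, ← mulVec_mulVec, dotProduct_mulVec, star_mulVec, hQh]
    have hq : star ζ ⬝ᵥ (Qk *ᵥ ζ) = ((fro T : ℝ) : ℂ) := by
      have e0 : Qk * 1 * Qk = Qk := by rw [Matrix.mul_one, hQi]
      have e := hz 1
      rw [e0, one_mulVec] at e
      rw [e, fro]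
      simp only [dotProduct, Pi.star_apply, hT, Matrix.of_apply, Fintype.sum_prod_type]
      push_cast
      refine Finset.sum_congr rfl fun x _ => Finset.sum_congr rfl fun α _ => ?_
      rw [Complex.star_def, Complex.conj_mul']
    have hpair : ∀ s, star (Qk *ᵥ ζ) ⬝ᵥ ((P s ⊗ₖ b s + (P s ⊗ₖ b s)ᴴ) *ᵥ (Qk *ᵥ ζ))
        = ((2 * rip T (P s * T * (b s)ᵀ) : ℝ) : ℂ) := by
      intro s
      have e1 := quad_kron (P s) (b s) (Qk *ᵥ ζ)
      have e2 : star (Qk *ᵥ ζ) ⬝ᵥ ((P s ⊗ₖ b s)ᴴ *ᵥ (Qk *ᵥ ζ))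
          = star (star (Qk *ᵥ ζ) ⬝ᵥ ((P s ⊗ₖ b s) *ᵥ (Qk *ᵥ ζ))) := by
        rw [dotProduct_mulVec, ← star_mulVec]
        simp only [dotProduct, star_sum, star_mul', star_star, Pi.star_apply, mul_comm]
      rw [add_mulVec, dotProduct_add, e2, e1, Complex.star_def, Complex.add_conj]
      rfl
    rw [sub_mulVec, dotProduct_sub, smul_mulVec, dotProduct_smul, hq, hz, sum_mulVec, dotProduct_sum,
      Finset.sum_congr rfl fun s _ => hpair s, ← Complex.ofReal_sum, smul_eq_mul, ← Complex.ofReal_mul,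
      ← Complex.ofReal_sub, Complex.zero_le_real, ← Finset.mul_sum]
    have := H T hQT
    linarith

/-- The element of the level algebra attached to finitely many elements. -/
def levOp (k : ℕ) (U : GenIdx → B) : CStarMatrix (Lev (k + 1)) (Lev (k + 1)) B :=
  ∑ s, (sc B (pmat (levPerm (k + 1) (genOf s))) * (dg (U s) : CStarMatrix _ _ B)
    + star (sc B (pmat (levPerm (k + 1) (genOf s))) * (dg (U s) : CStarMatrix _ _ B)))

/-- The order estimate used at the end of the level bound. -/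
lemma final_estimate {C : Type*} [CStarAlgebra C] [PartialOrder C] [StarOrderedRing C] [Nontrivial C]
    {a h hap : C} {η κ S e₁ e₂ : ℝ} (hη : 0 ≤ η) (hκ : 0 ≤ κ) (hpos : 0 ≤ 2 * κ - 2 * η * S)
    (ha : 0 ≤ a) (hup : hap ≤ ((2 * (S - κ) : ℝ) : ℂ) • a) (h2 : ‖h - hap‖ ≤ e₂)
    (h2sa : IsSelfAdjoint (h - hap))
    (h1 : ‖((1 + η : ℝ) : ℂ) • h - ((2 * S : ℝ) : ℂ) • a‖ ≤ e₁)
    (h1sa : IsSelfAdjoint (((1 + η : ℝ) : ℂ) • h - ((2 * S : ℝ) : ℂ) • a)) :
    (2 * κ - 2 * η * S) * ‖a‖ ≤ e₁ + (1 + η) * e₂ := by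
  simp only [Complex.coe_smul] at hup h1 h1sa
  set E₁ := (1 + η) • h - (2 * S) • a with hE₁
  have a1 : -E₁ ≤ algebraMap ℝ C e₁ :=
    (IsSelfAdjoint.le_algebraMap_norm_self h1sa.neg).trans (algebraMap_mono _ (by rwa [norm_neg]))
  have a2 : h - hap ≤ algebraMap ℝ C e₂ :=
    (IsSelfAdjoint.le_algebraMap_norm_self h2sa).trans (algebraMap_mono _ h2)
  have a3 : h ≤ (2 * (S - κ)) • a + algebraMap ℝ C e₂ := by
    have : h = hap + (h - hap) := by abel
    rw [this]; exact add_le_add hup a2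
  have a4 : (2 * S) • a ≤ (1 + η) • ((2 * (S - κ)) • a + algebraMap ℝ C e₂) + algebraMap ℝ C e₁ := by
    have : (2 * S) • a = (1 + η) • h + -E₁ := by rw [hE₁]; abel
    rw [this]
    exact add_le_add (smul_le_smul_of_nonneg_left a3 (by linarith)) a1
  have key : (2 * κ - 2 * η * S) • a ≤ algebraMap ℝ C (e₁ + (1 + η) * e₂) := by
    simp only [Algebra.algebraMap_eq_smul_one] at a4 ⊢
    rw [← sub_nonneg] at a4 ⊢
    have hneg : (0 : C) ≤ (2 * κ * η) • a := smul_nonneg (by positivity) ha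
    refine a4.trans (le_trans (le_add_of_nonneg_right hneg) (le_of_eq ?_))
    module
  have hn := CStarAlgebra.norm_le_norm_of_nonneg_of_le (smul_nonneg hpos ha) key
  rw [norm_smul, Real.norm_eq_abs, abs_of_nonneg hpos, norm_algebraMap', Real.norm_eq_abs] at hn
  refine hn.trans (le_of_eq (abs_of_nonneg ?_))
  have := (norm_nonneg _).trans h1
  have := (norm_nonneg _).trans h2
  positivity

omit B in
theorem level_bound : ∃ η : ℝ, 0 < η ∧ ∀ (B : Type) [CStarAlgebra B] [PartialOrder B]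
    [StarOrderedRing B] [Nontrivial B], IsCuntzTwo B → ∀ U : GenIdx → B, (∀ s, ‖U s‖ ≤ 1 + η) →
    ∃ k₀ : ℕ, ∀ k, k₀ ≤ k → ∀ X : CStarMatrix (Lev (k + 1)) (Lev (k + 1)) B,
      sc B (qmat k) * X = X →
      ‖star X * levOp k U * X - ((2 * Fintype.card GenIdx : ℝ) : ℂ) • (star X * X)‖ ≤ η * ‖X‖ ^ 2 →
      X = 0 := by
  obtain ⟨κ, hκ, hrb⟩ := rank_bound
  set S : ℝ := (Fintype.card GenIdx : ℝ) with hS
  have hS0 : 0 ≤ S := Nat.cast_nonneg _
  set η : ℝ := min 1 (κ / (6 * S + 1)) with hη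
  have hη0 : 0 < η := lt_min one_pos (by positivity)
  have hη1 : η ≤ 1 := min_le_left _ _
  have hη2 : η * (6 * S + 1) ≤ κ := by
    rw [← le_div_iff₀ (by positivity)]; exact min_le_right _ _
  refine ⟨η, hη0, fun B _ _ _ _ hB U hU => ?_⟩
  obtain ⟨s, h1, h2, h3⟩ := hB
  set c : ℂ := (((1 + η)⁻¹ : ℝ) : ℂ) with hc
  have hU' : ∀ i, ‖c • U i‖ ≤ 1 := by
    intro i
    rw [norm_smul, hc, Complex.norm_real, Real.norm_eq_abs, abs_of_pos (by positivity),
      inv_mul_le_iff₀ (by positivity), mul_one]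
    exact hU i
  obtain ⟨Nw, y, b, hy, hb⟩ := cuntz_approx h1 h2 h3 (fun i => c • U i) hU' hη0
  refine ⟨2 * Nw.card, fun k hk X hQX hX => ?_⟩
  have hcard : 2 * Fintype.card Nw < 124 * 125 ^ k := by
    rw [Fintype.card_coe]
    have : k < 125 ^ k := Nat.lt_pow_self (by norm_num)
    omega
  have hpsd := scalar_posSemidef (κ := S - κ) (k := k) (b := b) fun T hT =>
    hrb Nw k hcard (fun i => (b i)ᵀ) (fun i => by
      have := (contraction_swap (hb i).1).transpose
      simpa [transpose_conjTranspose, conjTranspose_transpose, transpose_sub, transpose_mul] using this) T hT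
  have hamp := amp_nonneg y hpsd
  set P : GenIdx → Matrix (Lev (k + 1)) (Lev (k + 1)) ℂ := fun i => pmat (levPerm (k + 1) (genOf i)) with hP
  set Φ : GenIdx → B := fun i => ∑ α, ∑ β, b i α β • (y α * star (y β)) with hΦ
  have hQ1 : amp y (qmat k ⊗ₖ (1 : Matrix Nw Nw ℂ)) = sc B (qmat k) := by
    rw [amp_kron]
    have : ∑ α, ∑ β, (1 : Matrix Nw Nw ℂ) α β • (y α * star (y β)) = 1 := by
      simp only [Matrix.one_apply, ite_smul, one_smul, zero_smul, Finset.sum_ite_eq, Finset.mem_univ, if_true]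
      exact hy
    rw [this, map_one, mul_one]
  have hterm : ∀ i, amp y ((qmat k ⊗ₖ 1) * (P i ⊗ₖ b i + (P i ⊗ₖ b i)ᴴ) * (qmat k ⊗ₖ 1))
      = sc B (qmat k) * (sc B (P i) * (dg (Φ i) : CStarMatrix _ _ B)
          + star (sc B (P i) * (dg (Φ i) : CStarMatrix _ _ B))) * sc B (qmat k) := by
    intro i
    rw [Matrix.mul_add, Matrix.add_mul, amp_add, conjTranspose_kronecker, ← mul_kronecker_mul,
      ← mul_kronecker_mul, ← mul_kronecker_mul, ← mul_kronecker_mul, Matrix.one_mul, Matrix.mul_one,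
      Matrix.one_mul, Matrix.mul_one, amp_kron, amp_kron]
    have e : (∑ α, ∑ β, (b i)ᴴ α β • (y α * star (y β))) = star (Φ i) := by
      simp only [hΦ, star_sum, star_smul, star_mul, star_star, conjTranspose_apply]
      rw [Finset.sum_comm]
    rw [e, star_mul, ← map_star, ← map_star, ← sc_dg_comm (star (P i)) (star (Φ i))]
    simp only [map_mul, mul_add, add_mul, mul_assoc, star_eq_conjTranspose]
    rw [sc_dg_comm (qmat k) (Φ i), sc_dg_comm (qmat k) (star (Φ i))]
  rw [amp_sub, amp_smul, hQ1, Finset.mul_sum, Finset.sum_mul, amp_sum,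
    Finset.sum_congr rfl fun i _ => hterm i, ← Finset.sum_mul, ← Finset.mul_sum, sub_nonneg] at hamp
  set Hap := ∑ i, (sc B (P i) * (dg (Φ i) : CStarMatrix _ _ B)
    + star (sc B (P i) * (dg (Φ i) : CStarMatrix _ _ B))) with hHap
  have hXQ : star X * sc B (qmat k) = star X := by
    have := congrArg star hQX
    rwa [star_mul, ← map_star, star_eq_conjTranspose (qmat k), qmat_conjTranspose] at this
  have hup : star X * Hap * X ≤ ((2 * (S - κ) : ℝ) : ℂ) • (star X * X) := by
    have h := star_left_conjugate_le_conjugate hamp X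
    rw [mul_smul_comm, smul_mul_assoc, hXQ, ← mul_assoc, ← mul_assoc, hXQ, mul_assoc (star X * Hap),
      hQX] at h
    exact h
  -- the error between the rescaled operator and the approximation
  set H' := levOp k (fun i => c • U i) with hH'
  have hdiff : ‖H' - Hap‖ ≤ 2 * S * η := by
    rw [hH', levOp, hHap, ← Finset.sum_sub_distrib]
    refine (norm_sum_le _ _).trans ?_
    refine (Finset.sum_le_sum (g := fun _ : GenIdx => 2 * η) fun i _ => ?_).trans
      (by simp [hS]; ring_nf; rfl)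
    rw [add_sub_add_comm, ← star_sub, ← mul_sub, ← map_sub]
    refine (norm_add_le _ _).trans ?_
    rw [norm_star]
    have : ‖sc B (P i) * (dg (c • U i - Φ i) : CStarMatrix (Lev (k + 1)) (Lev (k + 1)) B)‖ ≤ η :=
      (norm_sc_mul_dg_le (by rw [hP]; simp only; rw [pmat_conjTranspose, ← map_mul, inv_mul_cancel, map_one, mul_one]) _).trans (hb i).2
    linarith
  have hH : levOp k U = ((1 + η : ℝ) : ℂ) • H' := by
    have e : ∀ i, U i = ((1 + η : ℝ) : ℂ) • (c • U i) := fun i => by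
      rw [smul_smul, hc, ← Complex.ofReal_mul, mul_inv_cancel₀ (by positivity), Complex.ofReal_one, one_smul]
    rw [hH', levOp, levOp, Finset.smul_sum]
    refine Finset.sum_congr rfl fun i _ => ?_
    conv_lhs => rw [e i]
    rw [map_smul, mul_smul_comm, star_smul, Complex.star_def, Complex.conj_ofReal, smul_add]
  -- compare
  set N2 : ℝ := ‖X‖ ^ 2 with hN2
  have hsaH : ∀ V : GenIdx → B, IsSelfAdjoint (levOp k V) := fun V => by
    show star _ = _
    rw [levOp, star_sum]
    refine Finset.sum_congr rfl fun i _ => ?_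
    rw [star_add, star_star]; exact add_comm _ _
  set A := star X * X with hA
  have hAn : ‖A‖ = N2 := by rw [hA, CStarRing.norm_star_mul_self, hN2]; ring
  have hAsa : IsSelfAdjoint A := IsSelfAdjoint.star_mul_self X
  set E1 := star X * levOp k U * X - ((2 * S : ℝ) : ℂ) • A with hE1
  have hE1sa : IsSelfAdjoint E1 := by
    refine ((hsaH U).conjugate' X).sub ?_
    show star _ = _
    rw [star_smul, hAsa.star_eq, Complex.star_def, Complex.conj_ofReal]
  set E2 := star X * (H' - Hap) * X with hE2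
  have hE2sa : IsSelfAdjoint E2 := by
    refine (IsSelfAdjoint.sub (hsaH _) ?_).conjugate' X
    show star _ = _
    rw [hHap, star_sum]
    refine Finset.sum_congr rfl fun i _ => ?_
    rw [star_add, star_star]; exact add_comm _ _
  have hE2n : ‖E2‖ ≤ 2 * S * η * N2 := by
    calc ‖E2‖ ≤ ‖star X‖ * ‖H' - Hap‖ * ‖X‖ :=
          (norm_mul_le _ _).trans (mul_le_mul_of_nonneg_right (norm_mul_le _ _) (norm_nonneg _))
      _ ≤ ‖X‖ * (2 * S * η) * ‖X‖ := by rw [norm_star]; gcongr
      _ = _ := by rw [hN2]; ring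
  have hn : (2 * κ - 2 * η * S) * N2 ≤ η * N2 + (1 + η) * (2 * S * η * N2) := by
    rw [← hAn]
    refine final_estimate (h := star X * H' * X) (hap := star X * Hap * X) (S := S) hη0.le
      hκ.le (by nlinarith) (star_mul_self_nonneg X) hup
      (by rw [← sub_mul, ← mul_sub, ← hE2]; exact hE2n.trans_eq (by rw [hAn]))
      (by rw [← sub_mul, ← mul_sub, ← hE2]; exact hE2sa) ?_ ?_
    · rw [← smul_mul_assoc, ← mul_smul_comm, ← hH, ← hE1]; exact hX.trans_eq (by rw [hAn])
    · rw [← smul_mul_assoc, ← mul_smul_comm, ← hH, ← hE1]; exact hE1sa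
  by_contra hX0
  have hNpos : 0 < N2 := by rw [hN2]; exact pow_pos (norm_pos_iff.mpr hX0) 2
  have hlt : η * N2 + (1 + η) * (2 * S * η * N2) < (2 * κ - 2 * η * S) * N2 := by
    have : η + (1 + η) * (2 * S * η) < 2 * κ - 2 * η * S := by
      nlinarith [mul_nonneg (mul_nonneg hS0 hη0.le) (sub_nonneg.mpr hη1)]
    nlinarith
  linarith

end

end Vale.Agent.P083
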