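import Vale.Agent.P083.Triangle
import Vale.Agent.P083.Group

/-!
The gap for representations of the affine group in an algebra of bounded families modulo null
families.
-/

namespace Vale.Agent.P083

open Filter Topology

set_option linter.unusedSectionVars false
set_option linter.unusedSimpArgs false

noncomputable section

variable {J : Type*} {M : J → Type*} [∀ j, CStarAlgebra (M j)] {l : Filter J}

/-- The average of a representation along a finite family. -/
def avgL (L : Aff → AsympQuot M l) {ι : Type*} [Fintype ι] (x : ι → Aff) : AsympQuot M l :=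
  (Fintype.card ι : ℂ)⁻¹ • ∑ i, L (x i)

/-- The sum of the complementary projections of the three small subgroups. -/
def lap (L : Aff → AsympQuot M l) : AsympQuot M l :=
  (1 - avgL L g1) + (1 - avgL L g2) + (1 - avgL L g3)

variable {L : Aff → AsympQuot M l} (hmul : ∀ g h, L g * L h = L (g * h))
  (hstar : ∀ g, star (L g) = L g⁻¹)

section hom

variable {α : Type*} [AddCommGroup α] [Fintype α] {x : α → Aff} (hx : ∀ a b, x (a + b) = x a * x b)

include hx in
lemma hom_zero : x 0 = 1 := by
  have := hx 0 0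
  rw [add_zero] at this
  exact mul_eq_left.mp this.symm

include hx in
lemma hom_neg (a : α) : x (-a) = (x a)⁻¹ := by
  refine eq_inv_of_mul_eq_one_left ?_
  rw [← hx, neg_add_cancel, hom_zero hx]

include hstar hx in
lemma avgL_star : star (avgL L x) = avgL L x := by
  rw [avgL, star_smul, star_inv₀, star_natCast, star_sum]
  simp only [hstar, ← hom_neg hx]
  exact congrArg _ (Equiv.sum_comp (Equiv.neg α) fun a => L (x a))

include hmul hx in
lemma avgL_absorb (a : α) : L (x a) * avgL L x = avgL L x := by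
  rw [avgL, mul_smul_comm, Finset.mul_sum]
  simp only [hmul, ← hx]
  exact congrArg _ (Equiv.sum_comp (Equiv.addLeft a) fun b => L (x b))

include hmul hx in
lemma avgL_idem : avgL L x * avgL L x = avgL L x := by
  conv_lhs => arg 1; rw [avgL]
  rw [smul_mul_assoc, Finset.sum_mul]
  simp only [avgL_absorb hmul hx, Finset.sum_const, Finset.card_univ]
  rw [← Nat.cast_smul_eq_nsmul ℂ, smul_smul, inv_mul_cancel₀ (Nat.cast_ne_zero.mpr Fintype.card_ne_zero),
    one_smul]

end hom

include hmul in
lemma avgL_comm {α β : Type*} [Fintype α] [Fintype β] {x : α → Aff} {y : β → Aff}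
    (h : ∀ a b, x a * y b = y b * x a) : avgL L x * avgL L y = avgL L y * avgL L x := by
  simp only [avgL, smul_mul_assoc, mul_smul_comm, Finset.sum_mul, Finset.mul_sum, Finset.smul_sum,
    smul_smul, hmul, h]
  rw [Finset.sum_comm, mul_comm]

variable [∀ j, PartialOrder (M j)] [∀ j, StarOrderedRing (M j)]

include hmul hstar in
lemma avg_pair_pos {α β γ ι : Type*} [AddCommGroup α] [Fintype α] [AddCommGroup β] [Fintype β]
    [AddCommGroup γ] [Fintype γ] [AddCommGroup ι] [Fintype ι]
    {x : α → Aff} {y : β → Aff} {z : γ → Aff} (e : ι →+ β) (bf : β → α → γ)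
    (hx : ∀ a b, x (a + b) = x a * x b) (hy : ∀ a b, y (a + b) = y a * y b)
    (hz : ∀ a b, z (a + b) = z a * z b) (he : Function.Injective e)
    (rel : ∀ a b, x a * y b = z (bf b a) * y b * x a)
    (zx : ∀ c a, z c * x a = x a * z c) (zy : ∀ c b, z c * y b = y b * z c)
    (hzero : ∀ i a, bf (e i) a = 0) (hbij : ∀ b, b ∉ Set.range e → Function.Bijective (bf b))
    (hcard : Fintype.card β = 5 * Fintype.card ι) :
    APos ((1 - avgL L x) * (1 - avgL L y) + (1 - avgL L y) * (1 - avgL L x)
      + ((Real.sqrt (1 / 5) : ℝ) : ℂ) • ((1 - avgL L x) + (1 - avgL L y))) := by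
  classical
  set y₀ : ι → Aff := fun i => y (e i) with hy₀d
  have hy₀ : ∀ i i', y₀ (i + i') = y₀ i * y₀ i' := fun i i' => by
    simp only [hy₀d, map_add, hy]
  have hz0 : z 0 = 1 := hom_zero hz
  have cz0 : ∀ c i, z c * y₀ i = y₀ i * z c := fun c i => zy c (e i)
  have c0x : ∀ i a, y₀ i * x a = x a * y₀ i := fun i a => by
    rw [hy₀d, rel a (e i), hzero, hz0, one_mul]
  have hε : ((Real.sqrt (1 / 5) : ℝ) : ℂ) * ((Real.sqrt (1 / 5) : ℝ) : ℂ) = (5 : ℂ)⁻¹ := by
    rw [← Complex.ofReal_mul, Real.mul_self_sqrt (by norm_num)]; simp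
  refine pair_pos (Z := avgL L z) (P₀ := avgL L y₀) (by positivity) ?_
    (avgL_star hstar hx) (avgL_star hstar hy) (avgL_star hstar hz) (avgL_star hstar hy₀)
    (avgL_idem hmul hx) (avgL_idem hmul hy) (avgL_idem hmul hz) (avgL_idem hmul hy₀)
    (avgL_comm hmul zx) (avgL_comm hmul zy) (avgL_comm hmul cz0) (avgL_comm hmul c0x) ?_
  · rw [Real.sqrt_le_one]; norm_num
  rw [hε]
  set P := avgL L x with hP
  set Z := avgL L z with hZ
  have inner : ∀ b, ((Fintype.card α : ℂ)⁻¹ • ∑ a, L (x a)) * L (y b) * P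
      = ((Fintype.card α : ℂ)⁻¹ • ∑ a, L (z (bf b a))) * L (y b) * P := by
    intro b
    simp only [smul_mul_assoc, Finset.sum_mul]
    congr 1
    refine Finset.sum_congr rfl fun a _ => ?_
    rw [hmul, rel, ← hmul, ← hmul, mul_assoc (L (z _) * L (y b)), avgL_absorb hmul hx]
  have avgz : ∀ b, ((Fintype.card α : ℂ)⁻¹ • ∑ a, L (z (bf b a))) * L (y b)
      = if b ∈ Set.range e then L (y b) else Z * L (y b) := by
    intro b
    split_ifs with hb
    · obtain ⟨i, rfl⟩ := hb
      simp only [hzero, hz0, Finset.sum_const, Finset.card_univ]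
      rw [← Nat.cast_smul_eq_nsmul ℂ, smul_smul, inv_mul_cancel₀ (Nat.cast_ne_zero.mpr Fintype.card_ne_zero),
        one_smul, hmul, one_mul]
    · have hb' := hbij b hb
      rw [hZ, avgL, Fintype.card_of_bijective hb', Function.Bijective.sum_comp hb' (fun c => L (z c))]
  have step : P * avgL L y * P = (Fintype.card β : ℂ)⁻¹ •
      ∑ b, (if b ∈ Set.range e then L (y b) else Z * L (y b)) * P := by
    conv_lhs => rw [avgL, mul_smul_comm, smul_mul_assoc, Finset.mul_sum, Finset.sum_mul]
    congr 1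
    refine Finset.sum_congr rfl fun b _ => ?_
    rw [← avgz b, ← inner b]
    rfl
  rw [step]
  have split : ∀ b, (if b ∈ Set.range e then L (y b) else Z * L (y b)) * P
      = Z * L (y b) * P + (if b ∈ Set.range e then (1 - Z) * L (y b) * P else 0) := by
    intro b
    split_ifs
    · rw [sub_mul, one_mul, sub_mul]; abel
    · rw [add_zero]
  simp only [split]
  rw [Finset.sum_add_distrib, smul_add, add_comm]
  congr 1
  · have himg : ∑ b, (if b ∈ Set.range e then (1 - Z) * L (y b) * P else 0)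
        = ∑ i, (1 - Z) * L (y₀ i) * P := by
      rw [← Finset.sum_filter]
      rw [show (Finset.univ.filter fun b => b ∈ Set.range e) = Finset.univ.image e by ext b; simp [eq_comm]]
      rw [Finset.sum_image he.injOn]
    rw [himg, ← Finset.sum_mul, ← Finset.mul_sum]
    have hPZ : Z * (avgL L y₀ * P) = avgL L y₀ * P * Z := by
      rw [← mul_assoc, avgL_comm hmul cz0, mul_assoc, avgL_comm hmul zx, mul_assoc]
    have : avgL L y₀ * P * (1 - Z) = (1 - Z) * avgL L y₀ * P := by
      rw [mul_sub, mul_one, sub_mul, one_mul, sub_mul, mul_assoc Z, hPZ]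
    rw [this, avgL, mul_smul_comm, smul_mul_assoc, smul_smul, hcard]
    push_cast
    rw [mul_inv]
  · rw [avgL, mul_smul_comm, smul_mul_assoc, Finset.mul_sum, Finset.sum_mul]

lemma scalar_pair (a : F5) (ha : a ≠ 0) :
    Function.Bijective (fun p : F5 × F5 => (a * p.1, a * p.2)) := by
  constructor
  · intro p q h
    simp only [Prod.mk.injEq, mul_right_inj' ha] at h
    exact Prod.ext h.1 h.2
  · intro p
    exact ⟨(a⁻¹ * p.1, a⁻¹ * p.2), by simp [mul_inv_cancel_left₀ ha]⟩

include hmul hstar in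
lemma pairs_pos :
    APos ((1 - avgL L g2) * (1 - avgL L g1) + (1 - avgL L g1) * (1 - avgL L g2)
      + ((Real.sqrt (1 / 5) : ℝ) : ℂ) • ((1 - avgL L g2) + (1 - avgL L g1))) ∧
    APos ((1 - avgL L g3) * (1 - avgL L g1) + (1 - avgL L g1) * (1 - avgL L g3)
      + ((Real.sqrt (1 / 5) : ℝ) : ℂ) • ((1 - avgL L g3) + (1 - avgL L g1))) ∧
    APos ((1 - avgL L g3) * (1 - avgL L g2) + (1 - avgL L g2) * (1 - avgL L g3)
      + ((Real.sqrt (1 / 5) : ℝ) : ℂ) • ((1 - avgL L g3) + (1 - avgL L g2))) := by
  refine ⟨?_, ?_, ?_⟩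
  · refine avg_pair_pos hmul hstar (0 : Unit →+ F5) (fun a p => (-(a * p.1), -(a * p.2)))
      g2_add g1_add z12_add (fun _ _ _ => Subsingleton.elim _ _) rel12 z12_g2 z12_g1
      (fun i a => by simp) (fun b hb => ?_) (by simp [ZMod.card])
    have hb0 : b ≠ 0 := fun h => hb ⟨(), h.symm⟩
    have := scalar_pair (-b) (neg_ne_zero.mpr hb0)
    simpa [neg_mul] using this
  · refine avg_pair_pos hmul hstar (0 : Unit →+ F5) (fun a p => (a * p.1, a * p.2))
      g3_add g1_add z31_add (fun _ _ _ => Subsingleton.elim _ _) rel31 z31_g3 z31_g1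
      (fun i a => by simp) (fun b hb => ?_) (by simp [ZMod.card])
    exact scalar_pair b fun h => hb ⟨(), h.symm⟩
  · refine avg_pair_pos hmul hstar (AddMonoidHom.inr F5 F5) (fun q p => (-(q.1 * p.1), -(q.1 * p.2)))
      g3_add g2_add z32_add (fun a b h => (Prod.ext_iff.mp h).2) rel32 z32_g3 z32_g2
      (fun i a => by simp) (fun b hb => ?_) (by simp [ZMod.card])
    have hb0 : b.1 ≠ 0 := fun h => hb ⟨b.2, Prod.ext h.symm rfl⟩
    have := scalar_pair (-b.1) (neg_ne_zero.mpr hb0)
    simpa [neg_mul] using this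

include hmul hstar in
/-- The kernel projection of the sum of the complementary projections. -/
theorem exists_kernel_proj :
    ∃ F G : AsympQuot M l, star F = F ∧ lap L * F = 0 ∧ G * lap L = 1 - F ∧
      (∀ g ∈ G₀, L g * F = F) := by
  set P1 := avgL L g1 with hP1
  set P2 := avgL L g2 with hP2
  set P3 := avgL L g3 with hP3
  have s1 : star (1 - P1) = 1 - P1 := by rw [star_sub, star_one, avgL_star hstar g1_add]
  have s2 : star (1 - P2) = 1 - P2 := by rw [star_sub, star_one, avgL_star hstar g2_add]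
  have s3 : star (1 - P3) = 1 - P3 := by rw [star_sub, star_one, avgL_star hstar g3_add]
  have i1 : (1 - P1) * (1 - P1) = 1 - P1 := by
    simp [sub_mul, mul_sub, hP1, avgL_idem hmul g1_add]
  have i2 : (1 - P2) * (1 - P2) = 1 - P2 := by
    simp [sub_mul, mul_sub, hP2, avgL_idem hmul g2_add]
  have i3 : (1 - P3) * (1 - P3) = 1 - P3 := by
    simp [sub_mul, mul_sub, hP3, avgL_idem hmul g3_add]
  set ε : ℝ := Real.sqrt (1 / 5) with hε
  obtain ⟨p21, p31, p32⟩ := pairs_pos hmul hstar
  have p12 : APos ((1 - P1) * (1 - P2) + (1 - P2) * (1 - P1) + (ε : ℂ) • ((1 - P1) + (1 - P2))) := by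
    rw [add_comm ((1 - P1) * (1 - P2)), add_comm (1 - P1) (1 - P2)]; exact p21
  have p23 : APos ((1 - P2) * (1 - P3) + (1 - P3) * (1 - P2) + (ε : ℂ) • ((1 - P2) + (1 - P3))) := by
    rw [add_comm ((1 - P2) * (1 - P3)), add_comm (1 - P2) (1 - P3)]; exact p32
  have tri := triangle i1 i2 i3 p12 p23 p31
  have hpos : APos (lap L) :=
    ((APos.of_proj s1 i1).add (APos.of_proj s2 i2)).add (APos.of_proj s3 i3)
  have hc : (0 : ℝ) < 1 - 2 * ε := by
    have : ε < 1 / 2 := by
      rw [hε, Real.sqrt_lt' (by norm_num)]; norm_num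
    linarith
  obtain ⟨F, G, sF, hF, hG⟩ := exists_gap_proj hc hpos tri
  refine ⟨F, G, sF, hF, hG, ?_⟩
  have sand : ∀ a : AsympQuot M l, star a = a → a * a = a →
      star (a * F) * (a * F) = star F * (a * F) := by
    intro a sa ia
    rw [star_mul, sa, mul_assoc, ← mul_assoc a a F, ia]
  have hsum : star ((1 - P1) * F) * ((1 - P1) * F) + (star ((1 - P2) * F) * ((1 - P2) * F)
      + star ((1 - P3) * F) * ((1 - P3) * F)) = 0 := by
    rw [sand _ s1 i1, sand _ s2 i2, sand _ s3 i3, ← mul_add, ← mul_add, ← add_mul, ← add_mul,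
      ← add_assoc]
    exact (congrArg (star F * ·) hF).trans (mul_zero _)
  have z1 : P1 * F = F := by
    have := asy_star_mul_self_eq_zero
      ((APos.star_mul_self _).eq_zero_of_add ((APos.star_mul_self _).add (APos.star_mul_self _)) hsum)
    rw [sub_mul, one_mul, sub_eq_zero] at this
    exact this.symm
  rw [(APos.star_mul_self _).eq_zero_of_add ((APos.star_mul_self _).add (APos.star_mul_self _)) hsum,
    zero_add] at hsum
  have z2 : P2 * F = F := by
    have := asy_star_mul_self_eq_zero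
      ((APos.star_mul_self _).eq_zero_of_add (APos.star_mul_self _) hsum)
    rw [sub_mul, one_mul, sub_eq_zero] at this
    exact this.symm
  rw [(APos.star_mul_self _).eq_zero_of_add (APos.star_mul_self _) hsum, zero_add] at hsum
  have z3 : P3 * F = F := by
    have := asy_star_mul_self_eq_zero hsum
    rw [sub_mul, one_mul, sub_eq_zero] at this
    exact this.symm
  intro g hg
  induction hg using Subgroup.closure_induction with
  | mem g hg =>
    rcases hg with (⟨a, rfl⟩ | ⟨p, rfl⟩) | ⟨p, rfl⟩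
    · rw [← z1, ← mul_assoc, avgL_absorb hmul g1_add]
    · rw [← z2, ← mul_assoc, avgL_absorb hmul g2_add]
    · rw [← z3, ← mul_assoc, avgL_absorb hmul g3_add]
  | one =>
    have h := avgL_absorb (L := L) hmul g1_add 0
    rw [hom_zero g1_add] at h
    rw [← z1, ← mul_assoc, h]
  | mul g h _ _ ihg ihh => rw [← hmul, mul_assoc, ihh, ihg]
  | inv g _ ih =>
    have h := avgL_absorb (L := L) hmul g1_add 0
    rw [hom_zero g1_add] at h
    have h1 : L 1 * F = F := by rw [← z1, ← mul_assoc, h]
    conv_lhs => rw [← ih, ← mul_assoc, hmul, inv_mul_cancel, h1]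

/-- An element fixed by the generators is annihilated by the sum of complementary projections. -/
theorem lap_mul_eq_zero {X : AsympQuot M l} (h : ∀ g ∈ gens, L g * X = X) : lap L * X = 0 := by
  have avg : ∀ {ι : Type} [Fintype ι] [Nonempty ι] (x : ι → Aff), (∀ i, x i ∈ gens) →
      (1 - avgL L x) * X = 0 := by
    intro ι _ _ x hx
    rw [sub_mul, one_mul, sub_eq_zero, avgL, smul_mul_assoc, Finset.sum_mul]
    simp only [h _ (hx _), Finset.sum_const, Finset.card_univ]
    rw [← Nat.cast_smul_eq_nsmul ℂ, smul_smul, inv_mul_cancel₀ (Nat.cast_ne_zero.mpr Fintype.card_ne_zero),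
      one_smul]
  rw [lap, add_mul, add_mul, avg g1 (fun a => Or.inl (Or.inl ⟨a, rfl⟩)),
    avg g2 (fun a => Or.inl (Or.inr ⟨a, rfl⟩)), avg g3 (fun a => Or.inr ⟨a, rfl⟩)]
  simp

/-- A self-adjoint element commuting with the sum commutes with its kernel projection. -/
theorem kernel_comm {D F G Q : AsympQuot M l} (sF : star F = F) (hF : D * F = 0)
    (hG : G * D = 1 - F) (sQ : star Q = Q) (hQ : Q * D = D * Q) : Q * F = F * Q := by
  have h1 : (1 - F) * (Q * F) = 0 := by
    rw [← hG, mul_assoc, ← mul_assoc D, ← hQ, mul_assoc Q, hF, mul_zero, mul_zero]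
  rw [sub_mul, one_mul, sub_eq_zero, ← mul_assoc] at h1
  have h2 := congrArg star h1
  simp only [star_mul, sF, sQ] at h2
  rw [h1, mul_assoc, ← h2]

end

end Vale.Agent.P083
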