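import Vale.Agent.P083.Expander

/-!
A low-rank operator cannot be nearly invariant on the new part of a high level.
-/

namespace Vale.Agent.P083

open scoped ComplexOrder MatrixOrder
open Matrix

set_option linter.unusedSectionVars false
set_option linter.unusedSimpArgs false

noncomputable section

/-- The index set of the generators. -/
abbrev GenIdx : Type := F5 ⊕ (F5 × F5) ⊕ (F5 × F5)

/-- The generator with a given index. -/
def genOf : GenIdx → Aff := Sum.elim g1 (Sum.elim g2 g3)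

lemma genOf_mem (s : GenIdx) : genOf s ∈ gens := by
  rcases s with a | p | p
  · exact Or.inl (Or.inl ⟨a, rfl⟩)
  · exact Or.inl (Or.inr ⟨p, rfl⟩)
  · exact Or.inr ⟨p, rfl⟩

lemma exists_genOf {g : Aff} (hg : g ∈ gens) : ∃ s, genOf s = g := by
  rcases hg with (⟨a, rfl⟩ | ⟨p, rfl⟩) | ⟨p, rfl⟩
  exacts [⟨Sum.inl a, rfl⟩, ⟨Sum.inr (Sum.inl p), rfl⟩, ⟨Sum.inr (Sum.inr p), rfl⟩]

section fro

variable {m n : Type*} [Fintype m] [Fintype n]

/-- The squared Frobenius norm. -/
def fro (X : Matrix m n ℂ) : ℝ := ∑ i, ∑ j, ‖X i j‖ ^ 2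

/-- The real inner product of two matrices. -/
def rip (X Y : Matrix m n ℂ) : ℝ := (Xᴴ * Y).trace.re

lemma rip_eq (X Y : Matrix m n ℂ) : rip X Y = ∑ i, ∑ j, (star (X i j) * Y i j).re := by
  simp only [rip, Matrix.trace, Matrix.diag_apply, Matrix.mul_apply, Matrix.conjTranspose_apply,
    Complex.re_sum]
  rw [Finset.sum_comm]

lemma fro_eq_rip (X : Matrix m n ℂ) : fro X = rip X X := by
  rw [rip_eq]
  refine Finset.sum_congr rfl fun i _ => Finset.sum_congr rfl fun j _ => ?_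
  rw [Complex.sq_norm, Complex.normSq_apply]
  simp [Complex.mul_re]

lemma fro_nonneg (X : Matrix m n ℂ) : 0 ≤ fro X :=
  Finset.sum_nonneg fun _ _ => Finset.sum_nonneg fun _ _ => sq_nonneg _

lemma fro_eq_zero {X : Matrix m n ℂ} (h : fro X = 0) : X = 0 := by
  ext i j
  have h1 := (Finset.sum_eq_zero_iff_of_nonneg
    (fun i _ => Finset.sum_nonneg fun j _ => sq_nonneg ‖X i j‖)).mp h i (Finset.mem_univ _)
  have h2 := (Finset.sum_eq_zero_iff_of_nonneg (fun j _ => sq_nonneg ‖X i j‖)).mp h1 j (Finset.mem_univ _)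
  simpa using h2

lemma rip_comm (X Y : Matrix m n ℂ) : rip X Y = rip Y X := by
  rw [rip_eq, rip_eq]
  refine Finset.sum_congr rfl fun i _ => Finset.sum_congr rfl fun j _ => ?_
  simp [Complex.mul_re]; ring

lemma fro_sub (X Y : Matrix m n ℂ) : fro (X - Y) = fro X + fro Y - 2 * rip X Y := by
  rw [fro_eq_rip, fro_eq_rip, fro_eq_rip]
  have : rip (X - Y) (X - Y) = rip X X + rip Y Y - rip X Y - rip Y X := by
    simp only [rip, conjTranspose_sub, Matrix.sub_mul, Matrix.mul_sub, trace_sub, Complex.sub_re]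
    ring
  rw [this, rip_comm Y X]; ring

lemma rip_le (X Y : Matrix m n ℂ) : rip X Y ≤ Real.sqrt (fro X * fro Y) := by
  have hp : 0 ≤ fro X * fro Y := mul_nonneg (fro_nonneg X) (fro_nonneg Y)
  refine le_trans (le_abs_self _) (Real.abs_le_sqrt ?_)
  have key : ∀ t : ℝ, 0 ≤ fro X * (t * t) + (-2 * rip X Y) * t + fro Y := by
    intro t
    have h := fro_nonneg ((t : ℂ) • X - Y)
    rw [fro_sub] at h
    have e1 : fro ((t : ℂ) • X) = t * t * fro X := by
      simp only [fro, Finset.mul_sum, Matrix.smul_apply, norm_smul, Complex.norm_real, mul_pow]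
      simp [sq]
    have e2 : rip ((t : ℂ) • X) Y = t * rip X Y := by
      simp [rip, Complex.conj_ofReal, Complex.re_ofReal_mul]
    rw [e1, e2] at h
    linarith
  have := discrim_le_zero key
  rw [discrim] at this
  nlinarith

variable [DecidableEq n]

lemma trace_nonneg_re {A : Matrix n n ℂ} (h : A.PosSemidef) : 0 ≤ A.trace.re := by
  exact (Complex.nonneg_iff.mp h.trace_nonneg).1

/-- Multiplying by a contraction decreases the Frobenius norm. -/
lemma fro_mul_le {l : Type*} [Fintype l] [DecidableEq l] (X : Matrix m n ℂ) (b : Matrix n l ℂ)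
    (hb : (1 - b * bᴴ).PosSemidef) : fro (X * b) ≤ fro X := by
  have h := (hb.mul_mul_conjTranspose_same X)
  have h2 := (Complex.nonneg_iff.mp h.trace_nonneg).1
  have e : (X * (1 - b * bᴴ) * Xᴴ).trace.re = fro X - fro (X * b) := by
    rw [fro_eq_rip, fro_eq_rip, rip, rip, Matrix.trace_mul_comm Xᴴ X,
      Matrix.trace_mul_comm (X * b)ᴴ (X * b), Matrix.conjTranspose_mul]
    simp only [Matrix.mul_sub, Matrix.sub_mul, Matrix.mul_one, trace_sub, Complex.sub_re, Matrix.mul_assoc]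
  linarith [e, h2]

end fro

lemma contraction_swap {m n : Type*} [Fintype m] [Fintype n] [DecidableEq m] [DecidableEq n]
    {b : Matrix m n ℂ} (hb : (1 - bᴴ * b).PosSemidef) : (1 - b * bᴴ).PosSemidef := by
  have e : 1 - b * bᴴ = (1 - b * bᴴ)ᴴ * (1 - b * bᴴ) + b * (1 - bᴴ * b) * bᴴ := by
    simp only [conjTranspose_sub, conjTranspose_one, conjTranspose_mul, conjTranspose_conjTranspose,
      Matrix.mul_sub, Matrix.sub_mul, Matrix.mul_one, Matrix.one_mul, Matrix.mul_assoc]
    abel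
  rw [e]
  exact (posSemidef_conjTranspose_mul_self _).add (hb.mul_mul_conjTranspose_same b)

lemma qmat_conjTranspose (k : ℕ) : (qmat k)ᴴ = qmat k := by
  ext x y
  simp only [qmat, conjTranspose_apply, Matrix.of_apply, star_sub, apply_ite star, star_one, star_zero,
    eq_comm (a := y), eq_comm (a := Fin.init y)]
  simp

lemma qmat_fibre_sum (k : ℕ) (y : Lev (k + 1)) :
    ∑ z : Lev (k + 1), (if Fin.init z = Fin.init y then (1 : ℂ) else 0) = 125 := by
  rw [← (Fin.snocEquiv (fun _ : Fin (k + 1) => Lett)).sum_comp]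
  simp only [Fin.snocEquiv, Equiv.coe_fn_mk, Fin.init_snoc]
  rw [Fintype.sum_prod_type]
  simp [ZMod.card]

lemma qmat_idem (k : ℕ) : qmat k * qmat k = qmat k := by
  ext x y
  simp only [Matrix.mul_apply, qmat, Matrix.of_apply, sub_mul, mul_sub]
  rw [Finset.sum_sub_distrib, Finset.sum_sub_distrib, Finset.sum_sub_distrib]
  simp only [ite_mul, one_mul, zero_mul, mul_ite, mul_one, mul_zero, Finset.sum_ite_eq,
    Finset.sum_ite_eq', Finset.mem_univ, if_true]
  have e : ∑ z : Lev (k + 1), (if Fin.init z = Fin.init y then (if Fin.init x = Fin.init z then ((1 : ℂ) / 125) * (1 / 125) else 0) else 0)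
      = if Fin.init x = Fin.init y then (1 : ℂ) / 125 else 0 := by
    by_cases hx : Fin.init x = Fin.init y
    · rw [if_pos hx]
      have e1 : ∀ z : Lev (k + 1), (if Fin.init z = Fin.init y then
          (if Fin.init x = Fin.init z then ((1 : ℂ) / 125) * (1 / 125) else 0) else 0)
          = ((1 : ℂ) / 125 * (1 / 125)) * (if Fin.init z = Fin.init y then 1 else 0) := by
        intro z
        by_cases hz : Fin.init z = Fin.init y <;> simp [hz, hx]
      rw [Finset.sum_congr rfl fun z _ => e1 z, ← Finset.mul_sum, qmat_fibre_sum]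
      norm_num
    · rw [if_neg hx]
      refine Finset.sum_eq_zero fun z _ => ?_
      by_cases hz : Fin.init z = Fin.init y <;> simp [hz, hx]
  rw [e]
  simp
  rw [Finset.sum_eq_single x (fun z _ hz => by simp [Ne.symm hz]) (by simp)]
  simp

lemma qmat_trace (k : ℕ) : (qmat k).trace = ((124 * 125 ^ k : ℕ) : ℂ) := by
  simp only [Matrix.trace, Matrix.diag_apply, qmat, Matrix.of_apply, if_true, Finset.sum_const,
    Finset.card_univ, Fintype.card_pi, ZMod.card, Finset.prod_const, Fintype.card_fin, nsmul_eq_mul]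
  push_cast
  rw [pow_succ]
  norm_num
  ring

section polar

variable {n N : Type*} [Fintype n] [DecidableEq n] [Fintype N] [DecidableEq N]

/-- Polar decomposition, in the form used below. -/
lemma exists_polar (T : Matrix n N ℂ) : ∃ (Jm K : Matrix n n ℂ) (W : Matrix n N ℂ),
    Jmᴴ = Jm ∧ Jm * Jm = K ∧ K * W = T ∧ T * Wᴴ = K ∧ fro K = fro T ∧
      (1 - W * Wᴴ).PosSemidef ∧ ∀ Q : Matrix n n ℂ, Q * T = T → Q * K = K := by
  set A := T * Tᴴ with hA
  have hsa : IsSelfAdjoint A := Matrix.isHermitian_mul_conjTranspose_self T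
  have hnn : ∀ x ∈ spectrum ℝ A, 0 ≤ x := fun x hx =>
    spectrum_nonneg_of_nonneg (Matrix.nonneg_iff_posSemidef.mpr (posSemidef_self_mul_conjTranspose T)) hx
  have hc : ∀ f : ℝ → ℝ, ContinuousOn f (spectrum ℝ A) := fun f =>
    A.finite_real_spectrum.continuousOn f
  set f1 : ℝ → ℝ := fun x => Real.sqrt x with hf1
  set f2 : ℝ → ℝ := fun x => (Real.sqrt x)⁻¹ with hf2
  set f4 : ℝ → ℝ := fun x => Real.sqrt (Real.sqrt x) with hf4
  have hherm : ∀ f : ℝ → ℝ, (cfc f A)ᴴ = cfc f A := fun f => (cfc_predicate f A : IsSelfAdjoint _).star_eq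
  refine ⟨cfc f4 A, cfc f1 A, cfc f2 A * T, hherm f4, ?_, ?_, ?_, ?_, ?_, ?_⟩
  · rw [← cfc_mul f4 f4 A (hc _) (hc _)]
    refine cfc_congr fun x _ => Real.mul_self_sqrt (Real.sqrt_nonneg x)
  · rw [← Matrix.mul_assoc, ← cfc_mul f1 f2 A (hc _) (hc _)]
    have hz : (1 - cfc (fun x => f1 x * f2 x) A) * A = 0 := by
      rw [← cfc_const_one ℝ A, ← cfc_sub (fun _ : ℝ => (1:ℝ)) _ A (hc _) (hc _)]
      conv_lhs => arg 2; rw [← cfc_id' ℝ A hsa]
      rw [← cfc_mul _ (fun x : ℝ => x) A (hc _) (hc _), ← cfc_zero ℝ A]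
      refine cfc_congr fun x hx => ?_
      rcases (hnn x hx).lt_or_eq with h | h
      · simp [hf1, hf2, mul_inv_cancel₀ (Real.sqrt_pos.mpr h).ne']
      · simp [← h]
    have h0 : ((1 - cfc (fun x => f1 x * f2 x) A) * T) = 0 := by
      apply fro_eq_zero
      rw [fro_eq_rip, rip, Matrix.trace_mul_comm, Matrix.conjTranspose_mul, Matrix.mul_assoc,
        ← Matrix.mul_assoc T, ← hA, ← Matrix.mul_assoc, hz]
      simp
    rw [Matrix.sub_mul, Matrix.one_mul, sub_eq_zero] at h0
    exact h0.symm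
  · rw [Matrix.conjTranspose_mul, hherm, ← Matrix.mul_assoc, ← hA]
    conv_lhs => arg 1; rw [← cfc_id' ℝ A hsa]
    rw [← cfc_mul _ f2 A (hc _) (hc _)]
    refine cfc_congr fun x hx => ?_
    simp only [hf1, hf2]
    rw [← div_eq_mul_inv, Real.div_sqrt]
  · rw [fro_eq_rip, fro_eq_rip, rip, rip, hherm, ← cfc_mul f1 f1 A (hc _) (hc _),
      Matrix.trace_mul_comm Tᴴ T, ← hA]
    congr 2
    refine (cfc_congr fun x hx => ?_).trans (cfc_id' ℝ A hsa)
    exact Real.mul_self_sqrt (hnn x hx)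
  · rw [Matrix.conjTranspose_mul, hherm, Matrix.mul_assoc, ← Matrix.mul_assoc T, ← hA,
      ← Matrix.nonneg_iff_posSemidef, sub_nonneg]
    conv_lhs => arg 2; arg 1; rw [← cfc_id' ℝ A hsa]
    rw [← cfc_mul _ f2 A (hc _) (hc _), ← cfc_mul f2 _ A (hc _) (hc _)]
    refine cfc_le_one _ A fun x hx => ?_
    simp only [hf2]
    rcases (hnn x hx).lt_or_eq with h | h
    · have h' := Real.sqrt_pos.mpr h
      rw [← div_eq_mul_inv x, Real.div_sqrt, inv_mul_cancel₀ h'.ne']
    · simp [← h]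
  · intro Q hQ
    have e : cfc f1 A = A * cfc f2 A := by
      conv_rhs => arg 1; rw [← cfc_id' ℝ A hsa]
      rw [← cfc_mul _ f2 A (hc _) (hc _)]
      refine cfc_congr fun x hx => ?_
      simp only [hf1, hf2]
      rw [← div_eq_mul_inv, Real.div_sqrt]
    rw [e, hA, ← Matrix.mul_assoc, ← Matrix.mul_assoc, hQ]

end polar

/-- A near intertwiner gives a near invariant absolute value. -/
lemma near_inv {n N : Type*} [Fintype n] [DecidableEq n] [Fintype N] [DecidableEq N]
    {T W : Matrix n N ℂ} {Jm K P : Matrix n n ℂ} {b : Matrix N N ℂ} {θ τ : ℝ}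
    (hθ0 : 0 ≤ θ) (hθ1 : θ ≤ 1)
    (hJ : Jmᴴ = Jm) (hJJ : Jm * Jm = K) (hKW : K * W = T) (hW : (1 - W * Wᴴ).PosSemidef)
    (hW' : (1 - Wᴴ * W).PosSemidef) (hb : (1 - bᴴ * b).PosSemidef)
    (hPP : P * Pᴴ = 1) (hτK : fro K = τ) (hall : (1 - θ) * τ ≤ rip T (P * T * b)) :
    fro (Pᴴ * K * P - K) ≤ 4 * θ * τ := by
  have hKh : Kᴴ = K := by rw [← hJJ, conjTranspose_mul, hJ]
  have hτ0 : 0 ≤ τ := hτK ▸ fro_nonneg K
  obtain ⟨X, hX⟩ : ∃ X, X = W * b * Wᴴ := ⟨_, rfl⟩
  have hXc : (1 - X * Xᴴ).PosSemidef := by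
    have e : 1 - X * Xᴴ = (1 - W * Wᴴ) + W * (1 - b * bᴴ) * Wᴴ
        + (W * b) * (1 - Wᴴ * W) * (W * b)ᴴ := by
      simp only [hX, conjTranspose_mul, conjTranspose_conjTranspose, Matrix.mul_sub, Matrix.sub_mul,
        Matrix.mul_one, Matrix.one_mul, Matrix.mul_assoc]
      abel
    rw [e]
    exact (hW.add ((contraction_swap hb).mul_mul_conjTranspose_same W)).add
      (hW'.mul_mul_conjTranspose_same _)
  have hA : rip T (P * T * b) = rip (Jm * Pᴴ * Jm) (Jm * X * Jm) := by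
    simp only [rip, conjTranspose_mul, hJ, conjTranspose_conjTranspose]
    congr 1
    conv_lhs => rw [← hKW]
    rw [conjTranspose_mul, hKh, Matrix.mul_assoc, Matrix.trace_mul_comm Wᴴ]
    have : (K * (P * (K * W) * b)) * Wᴴ = K * (P * (K * X)) := by
      simp only [hX, Matrix.mul_assoc]
    rw [this, ← hJJ]
    rw [show Jm * Jm * (P * (Jm * Jm * X)) = Jm * (Jm * P * Jm * (Jm * X)) by
      simp only [Matrix.mul_assoc], Matrix.trace_mul_comm Jm]
    simp only [Matrix.mul_assoc]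
  have hJX : fro (Jm * X * Jm) ≤ τ := by
    have e : fro (Jm * X * Jm) = rip (X * K) (K * X) := by
      rw [fro_eq_rip]
      simp only [rip, conjTranspose_mul, hJ, hKh]
      congr 1
      rw [← hJJ, show Jm * (Xᴴ * Jm) * (Jm * X * Jm) = Jm * (Xᴴ * (Jm * Jm) * X * Jm) by
        simp only [Matrix.mul_assoc], Matrix.trace_mul_comm Jm,
        show Jm * Jm * Xᴴ * (Jm * Jm * X) = (Jm * Jm) * (Xᴴ * (Jm * Jm) * X) by
        simp only [Matrix.mul_assoc], Matrix.trace_mul_comm (Jm * Jm)]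
      simp only [Matrix.mul_assoc]
    rw [e]
    refine (rip_le _ _).trans ?_
    have h1 : fro (X * K) ≤ τ := by
      have e1 : fro (X * K) = fro (K * Xᴴ) := by
        simp only [fro]
        rw [Finset.sum_comm]
        refine Finset.sum_congr rfl fun i _ => Finset.sum_congr rfl fun j _ => ?_
        have : (K * Xᴴ) i j = star ((X * K) j i) := by
          rw [← conjTranspose_apply, conjTranspose_mul, hKh]
        rw [this, norm_star]
      rw [e1, ← hτK]
      refine fro_mul_le _ _ ?_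
      rw [conjTranspose_conjTranspose]
      have := contraction_swap (b := Xᴴ) (by rwa [conjTranspose_conjTranspose])
      rwa [conjTranspose_conjTranspose] at this
    have h2 : fro (K * X) ≤ τ := (fro_mul_le _ _ hXc).trans hτK.le
    calc Real.sqrt (fro (X * K) * fro (K * X)) ≤ Real.sqrt (τ * τ) :=
          Real.sqrt_le_sqrt (mul_le_mul h1 h2 (fro_nonneg _) hτ0)
      _ = τ := Real.sqrt_mul_self hτ0
  have hJP : fro (Jm * Pᴴ * Jm) = rip K (Pᴴ * K * P) := by
    rw [fro_eq_rip, rip_comm K]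
    simp only [rip, conjTranspose_mul, hJ, hKh, conjTranspose_conjTranspose]
    congr 1
    rw [← hJJ, show Jm * (P * Jm) * (Jm * Pᴴ * Jm) = Jm * (P * (Jm * Jm) * Pᴴ * Jm) by
      simp only [Matrix.mul_assoc], Matrix.trace_mul_comm Jm,
      show P * (Jm * Jm) * Pᴴ * Jm * Jm = P * ((Jm * Jm) * Pᴴ * (Jm * Jm)) by
      simp only [Matrix.mul_assoc], Matrix.trace_mul_comm P]
    rw [Matrix.trace_mul_comm (Pᴴ * _)]
    simp only [Matrix.mul_assoc]
  have h1 := hall.trans (hA.le.trans (rip_le _ _))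
  have hfP : fro (Pᴴ * K * P) = τ := by
    rw [← hτK, fro_eq_rip, fro_eq_rip]
    simp only [rip, conjTranspose_mul, hKh, conjTranspose_conjTranspose]
    congr 1
    rw [show Pᴴ * (K * P) * (Pᴴ * K * P) = Pᴴ * (K * (P * Pᴴ) * K * P) by simp only [Matrix.mul_assoc],
      hPP, Matrix.mul_one, Matrix.trace_mul_comm, Matrix.mul_assoc, hPP,
      Matrix.mul_one]
  have h2 : Real.sqrt (fro (Jm * Pᴴ * Jm) * fro (Jm * X * Jm)) ≤ Real.sqrt (rip K (Pᴴ * K * P) * τ) :=
    Real.sqrt_le_sqrt (by rw [hJP]; exact mul_le_mul_of_nonneg_left hJX (hJP ▸ fro_nonneg _))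
  have hsq : ((1 - θ) * τ) ^ 2 ≤ rip K (Pᴴ * K * P) * τ := by
    have h3 := h1.trans h2
    have h4 : 0 ≤ (1 - θ) * τ := mul_nonneg (by linarith) hτ0
    have := mul_le_mul h3 h3 h4 (Real.sqrt_nonneg _)
    rw [Real.mul_self_sqrt (mul_nonneg (hJP ▸ fro_nonneg _) hτ0)] at this
    rw [sq]; exact this
  rw [fro_sub, hfP, rip_comm, hτK]
  rcases hτ0.lt_or_eq with hpos | hzero
  · have : (1 - θ) ^ 2 * τ ≤ rip K (Pᴴ * K * P) := by
      refine le_of_mul_le_mul_right ?_ hpos
      nlinarith [hsq]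
    nlinarith [mul_nonneg (sq_nonneg θ) hτ0]
  · have hK0 : K = 0 := fro_eq_zero (by rw [hτK, ← hzero])
    rw [← hzero, hK0]
    simp [rip]

/-- The main scalar inequality. -/
theorem rank_bound : ∃ κ : ℝ, 0 < κ ∧ ∀ (N : Type) [Fintype N] [DecidableEq N] (k : ℕ),
    2 * Fintype.card N < 124 * 125 ^ k → ∀ b : GenIdx → Matrix N N ℂ,
    (∀ s, (1 - (b s)ᴴ * b s).PosSemidef) → ∀ T : Matrix (Lev (k + 1)) N ℂ, qmat k * T = T →
      ∑ s, rip T (pmat (levPerm (k + 1) (genOf s)) * T * b s)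
        ≤ (Fintype.card GenIdx - κ) * fro T := by
  obtain ⟨C, hC0, hC⟩ := pair_expander
  set θ : ℝ := 1 / (16 * C ^ 2 + 16) with hθ
  have hθ0 : 0 < θ := by positivity
  have hθ1 : θ ≤ 1 := by
    rw [hθ, div_le_one (by positivity)]; nlinarith
  refine ⟨θ, hθ0, fun N _ _ k hN b hb T hQT => ?_⟩
  set τ := fro T with hτ
  set π : Aff → Matrix (Lev (k + 1)) (Lev (k + 1)) ℂ := fun g => pmat (levPerm (k + 1) g) with hπ
  have hπu : ∀ g, (π g)ᴴ * π g = 1 := fun g => by
    rw [hπ]; simp only; rw [pmat_conjTranspose, ← map_mul, inv_mul_cancel, map_one]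
  have hπu' : ∀ g, π g * (π g)ᴴ = 1 := fun g => by
    rw [hπ]; simp only; rw [pmat_conjTranspose, ← map_mul, mul_inv_cancel, map_one]
  have hub : ∀ s, rip T (π (genOf s) * T * b s) ≤ τ := by
    intro s
    refine (rip_le _ _).trans ?_
    have h1 : fro (π (genOf s) * T * b s) ≤ fro (π (genOf s) * T) :=
      fro_mul_le _ _ (contraction_swap (hb s))
    have h2 : fro (π (genOf s) * T) = τ := by
      rw [hτ, fro_eq_rip, fro_eq_rip, rip, rip, conjTranspose_mul, Matrix.mul_assoc,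
        ← Matrix.mul_assoc (π (genOf s))ᴴ, hπu, Matrix.one_mul]
    calc Real.sqrt (fro T * fro (π (genOf s) * T * b s)) ≤ Real.sqrt (τ * τ) :=
          Real.sqrt_le_sqrt (mul_le_mul_of_nonneg_left (h1.trans h2.le) (fro_nonneg T))
      _ = τ := Real.sqrt_mul_self (fro_nonneg T)
  by_cases hall : ∀ s, (1 - θ) * τ ≤ rip T (π (genOf s) * T * b s)
  swap
  · push Not at hall
    obtain ⟨s₀, hs₀⟩ := hall
    rw [← Finset.add_sum_erase _ _ (Finset.mem_univ s₀)]
    have h1 := Finset.sum_le_sum (f := fun s => rip T (π (genOf s) * T * b s)) (g := fun _ => τ)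
      (s := Finset.univ.erase s₀) fun s _ => hub s
    rw [Finset.sum_const, Finset.card_erase_of_mem (Finset.mem_univ _), Finset.card_univ, nsmul_eq_mul,
      Nat.cast_sub Fintype.card_pos, Nat.cast_one] at h1
    simp only [hπ] at hs₀ h1 ⊢
    linarith
  -- all generators nearly intertwine: contradiction unless T = 0
  obtain ⟨Jm, K, W, hJ, hJJ, hKW, hTW, hfK, hW, hQK'⟩ := exists_polar T
  have hKh : Kᴴ = K := by rw [← hJJ, conjTranspose_mul, hJ]
  have hQK : qmat k * K = K := hQK' _ hQT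
  have hKQ : K * qmat k = K := by
    have := congrArg conjTranspose hQK
    rwa [conjTranspose_mul, hKh, qmat_conjTranspose] at this
  have hW' : (1 - Wᴴ * W).PosSemidef := by
    have := contraction_swap (b := Wᴴ) (by rwa [conjTranspose_conjTranspose])
    rwa [conjTranspose_conjTranspose] at this
  have hτ0 : 0 ≤ τ := fro_nonneg T
  have hτK : fro K = τ := hfK
  -- almost invariance
  have hinv : ∀ s, fro ((π (genOf s))ᴴ * K * π (genOf s) - K) ≤ 4 * θ * τ := fun s =>
    near_inv hθ0.le hθ1 hJ hJJ hKW hW hW' (hb s) (hπu' (genOf s)) hτK (hall s)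
  suffices hT : τ = 0 by
    have : T = 0 := fro_eq_zero hT
    rw [hT, mul_zero]
    simp [this, rip]
  by_contra hne
  have hτpos : 0 < τ := lt_of_le_of_ne hτ0 (Ne.symm hne)
  -- compare with an invariant kernel
  obtain ⟨v₀, hv₀, hclose⟩ := hC k (0, 0) (fun p => K p.1 p.2)
  have hη : ∀ g ∈ gens, ‖colM ((0, 0) : Lev (k + 1) × Lev (k + 1)) (fun p => (fun q => K q.1 q.2) ((pairPerm k g)⁻¹ p))
      - colM (0, 0) (fun p => K p.1 p.2)‖ ≤ Real.sqrt (4 * θ * τ) := by
    intro g hg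
    -- the inverse of a generator is a generator
    obtain ⟨s, hs⟩ : ∃ s, genOf s = g⁻¹ := by
      rcases hg with (⟨a, rfl⟩ | ⟨p, rfl⟩) | ⟨p, rfl⟩
      · exact ⟨Sum.inl (-a), hom_neg g1_add a⟩
      · exact ⟨Sum.inr (Sum.inl (-p)), hom_neg g2_add p⟩
      · exact ⟨Sum.inr (Sum.inr (-p)), hom_neg g3_add p⟩
    refine Real.le_sqrt_of_sq_le ?_
    rw [← colM_sub, norm_colM_sq]
    refine le_trans (le_of_eq ?_) (hinv s)
    rw [fro, Fintype.sum_prod_type]
    refine Finset.sum_congr rfl fun x _ => Finset.sum_congr rfl fun y _ => ?_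
    congr 2
    simp only [Pi.sub_apply, Matrix.sub_apply]
    congr 1
    rw [Matrix.mul_assoc, hπ]
    simp only
    rw [pmat_conjTranspose, pmat_mul_apply, mul_pmat_apply, inv_inv, hs, ← map_inv]
    rfl
  have hd := hclose _ hη
  set K₀ : Matrix (Lev (k + 1)) (Lev (k + 1)) ℂ := Matrix.of fun x y => v₀ (x, y) with hK₀
  have hd2 : fro (K - K₀) ≤ τ / 4 := by
    have e : fro (K - K₀) = ‖colM ((0, 0) : Lev (k + 1) × Lev (k + 1)) (fun p => K p.1 p.2) - colM (0, 0) v₀‖ ^ 2 := by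
      rw [← colM_sub, norm_colM_sq, Fintype.sum_prod_type]
      rfl
    rw [e]
    refine (pow_le_pow_left₀ (norm_nonneg _) hd 2).trans ?_
    rw [mul_pow, Real.sq_sqrt (by positivity)]
    have : C ^ 2 * (4 * θ) ≤ 1 / 4 := by
      rw [hθ, mul_div_assoc', mul_div_assoc', div_le_iff₀ (by positivity)]; nlinarith
    nlinarith
  obtain ⟨c, hc⟩ := invariant_mul_qmat K₀ (fun g hg x y => hv₀ g hg (x, y))
  have hKc : fro (K - c • qmat k) ≤ τ / 4 := by
    have e : K - c • qmat k = (K - K₀) * qmat k := by rw [Matrix.sub_mul, hKQ, hc]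
    rw [e]
    refine (fro_mul_le _ _ ?_).trans hd2
    rw [qmat_conjTranspose, qmat_idem]
    have : (1 - qmat k) = (1 - qmat k)ᴴ * (1 - qmat k) := by
      simp [qmat_conjTranspose, Matrix.mul_sub, Matrix.sub_mul, qmat_idem]
    rw [this]
    exact posSemidef_conjTranspose_mul_self _
  set Nq : ℝ := ((124 * 125 ^ k : ℕ) : ℝ) with hNq
  have hfq : fro (c • qmat k) = ‖c‖ ^ 2 * Nq := by
    have e : fro (qmat k) = Nq := by
      rw [fro_eq_rip, rip, qmat_conjTranspose, qmat_idem, qmat_trace, Complex.natCast_re]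
    have e2 : fro (c • qmat k) = ‖c‖ ^ 2 * fro (qmat k) := by
      simp only [fro, Finset.mul_sum, Matrix.smul_apply, norm_smul, mul_pow]
    rw [e2, e]
  have hrip : rip K (c • qmat k) ≤ ‖c‖ * |rip W T| := by
    have e : rip K (c • qmat k) = (c * K.trace).re := by
      rw [rip, hKh, Matrix.mul_smul, hKQ, trace_smul, smul_eq_mul]
    have htr : K.trace.re = rip W T := by
      rw [rip, Matrix.trace_mul_comm, hTW]
    have him : K.trace.im = 0 := by
      have := congrArg Matrix.trace hKh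
      rw [trace_conjTranspose] at this
      have := congrArg Complex.im this
      simp at this
      linarith
    rw [e, Complex.mul_re, him, htr, mul_zero, sub_zero]
    refine (le_abs_self _).trans ?_
    rw [abs_mul]
    exact mul_le_mul_of_nonneg_right (Complex.abs_re_le_norm c) (abs_nonneg _)
  have hWT : (rip W T) ^ 2 ≤ (Fintype.card N : ℝ) * τ := by
    have h1 : fro W ≤ Fintype.card N := by
      have h := trace_nonneg_re hW'
      rw [trace_sub, trace_one, Complex.sub_re, Complex.natCast_re] at h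
      have : fro W = (Wᴴ * W).trace.re := fro_eq_rip W
      linarith
    have h2 : rip W T ≤ Real.sqrt (fro W * fro T) := rip_le W T
    have h3 : -rip W T ≤ Real.sqrt (fro W * fro T) := by
      have := rip_le (-W) T
      have e1 : rip (-W) T = -rip W T := by simp [rip]
      have e2 : fro (-W) = fro W := by simp [fro]
      rwa [e1, e2] at this
    have h4 : |rip W T| ≤ Real.sqrt (fro W * fro T) := abs_le.mpr ⟨by linarith, h2⟩
    have h5 := pow_le_pow_left₀ (abs_nonneg _) h4 2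
    rw [sq_abs, Real.sq_sqrt (mul_nonneg (fro_nonneg W) (fro_nonneg T))] at h5
    exact h5.trans (mul_le_mul_of_nonneg_right h1 hτ0)
  rw [fro_sub, hfq, hτK] at hKc
  have hN' : 2 * (Fintype.card N : ℝ) < Nq := by
    rw [hNq]; exact_mod_cast hN
  have hNq0 : 0 < Nq := by
    have : (0 : ℝ) ≤ Fintype.card N := Nat.cast_nonneg _
    linarith
  have key : 2 * (‖c‖ * |rip W T|) * Nq ≤ ‖c‖ ^ 2 * Nq * Nq + (rip W T) ^ 2 := by
    nlinarith [sq_nonneg (‖c‖ * Nq - |rip W T|), sq_abs (rip W T)]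
  nlinarith [mul_le_mul_of_nonneg_right hrip hNq0.le]

end

end Vale.Agent.P083
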