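import Vale.Agent.P083.Sys
import Vale.Agent.P083.LevelBound

/-!
The shift between consecutive levels.
-/

namespace Vale.Agent.P083

open Filter Topology

set_option linter.unusedSectionVars false
set_option linter.unusedSimpArgs false

noncomputable section

lemma levPerm_inv_apply_eq {k : ℕ} (g : Aff) (x y : Lev k) :
    (levPerm k g)⁻¹ x = y ↔ x = levAct k g y := by
  rw [Equiv.Perm.inv_eq_iff_eq, levPerm_apply]

lemma pmat_mul_shift (k : ℕ) (g : Aff) (i : Lett) :
    pmat (levPerm (k + 1 + 1) g) * shiftLetter k i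
      = shiftLetter k (headAct g i) * corner k (pmat (levPerm (k + 1) (sect g i))) := by
  ext x y
  rw [shift_mul_corner, pmat_mul_apply, Matrix.of_apply, shiftLetter, Matrix.of_apply]
  simp only [pmat_apply]
  by_cases hy : y 0 = 0
  · simp only [hy, and_true, true_and]
    have key : ((levPerm (k + 1 + 1) g)⁻¹ x 0 = i ∧ Fin.tail ((levPerm (k + 1 + 1) g)⁻¹ x) = Fin.tail y)
        ↔ (x 0 = headAct g i ∧ levPerm (k + 1) (sect g i) (Fin.tail y) = Fin.tail x) := by
      constructor
      · rintro ⟨h1, h2⟩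
        have h3 : (levPerm (k + 1 + 1) g)⁻¹ x = Fin.cons i (Fin.tail y) := by
          rw [← Fin.cons_self_tail ((levPerm (k + 1 + 1) g)⁻¹ x), h1, h2]
        rw [levPerm_inv_apply_eq, levAct_cons] at h3
        exact ⟨by rw [h3, Fin.cons_zero], by rw [h3, Fin.tail_cons, levPerm_apply]⟩
      · rintro ⟨h1, h2⟩
        rw [levPerm_apply] at h2
        have h3 : (levPerm (k + 1 + 1) g)⁻¹ x = Fin.cons i (Fin.tail y) := by
          rw [levPerm_inv_apply_eq, levAct_cons, h2, ← h1, Fin.cons_self_tail]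
        exact ⟨by rw [h3, Fin.cons_zero], by rw [h3, Fin.tail_cons]⟩
    by_cases h : (levPerm (k + 1 + 1) g)⁻¹ x 0 = i ∧ Fin.tail ((levPerm (k + 1 + 1) g)⁻¹ x) = Fin.tail y
    · rw [if_pos h, if_pos (key.mp h).1, if_pos (key.mp h).2]
    · rw [if_neg h]
      by_cases h1 : x 0 = headAct g i
      · rw [if_pos h1, if_neg fun h2 => h (key.mpr ⟨h1, h2⟩)]
      · rw [if_neg h1]
  · simp [hy]

lemma qmat_comm_pmat (k : ℕ) (g : Aff) :
    qmat k * pmat (levPerm (k + 1) g) = pmat (levPerm (k + 1) g) * qmat k := by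
  ext x y
  rw [mul_pmat_apply, pmat_mul_apply]
  obtain ⟨z, rfl⟩ : ∃ z, x = levPerm (k + 1) g z := ⟨(levPerm (k + 1) g)⁻¹ x, by simp⟩
  rw [Equiv.Perm.inv_def, Equiv.symm_apply_apply]
  have h1 : (levPerm (k + 1) g z = levPerm (k + 1) g y) ↔ z = y := (levPerm (k + 1) g).injective.eq_iff
  have h2 : (Fin.init (levPerm (k + 1) g z) = Fin.init (levPerm (k + 1) g y))
      ↔ (Fin.init z = Fin.init y) := by
    simp only [levPerm_apply, init_levAct]
    exact (levPerm k g).injective.eq_iff
  simp only [qmat, Matrix.of_apply]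
  simp only [h1, h2]

lemma qmat_mul_shift (k : ℕ) (i : Lett) :
    qmat (k + 1) * shiftLetter k i = shiftLetter k i * corner k (qmat k) := by
  ext x y
  rw [shift_mul_corner, Matrix.mul_apply, Matrix.of_apply]
  simp only [shiftLetter, Matrix.of_apply, mul_ite, mul_one, mul_zero]
  by_cases hy : y 0 = 0
  · rw [Finset.sum_eq_single (Fin.cons i (Fin.tail y) : Lev (k + 1 + 1))]
    · obtain ⟨a, t, rfl⟩ : ∃ a t, x = Fin.cons a t := ⟨x 0, Fin.tail x, (Fin.cons_self_tail x).symm⟩
      have hinit : ∀ (b : Lett) (s : Lev (k + 1)),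
          Fin.init (Fin.cons b s : Lev (k + 1 + 1)) = Fin.cons b (Fin.init s) := by
        intro b s
        funext m
        refine Fin.cases ?_ (fun m => ?_) m
        · simp [Fin.init]
        · simp [Fin.init, ← Fin.succ_castSucc]
      simp only [Fin.cons_zero, Fin.tail_cons, hy, and_true, true_and, if_true, qmat, Matrix.of_apply,
        hinit, Fin.cons_inj]
      by_cases ha : a = i
      · simp [ha]
      · simp [ha]
    · intro z _ hz
      rw [if_neg]
      rintro ⟨h1, -, h2⟩
      exact hz (by rw [← Fin.cons_self_tail z, h1, h2])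
    · simp
  · simp [hy]

lemma qmat_proj (k : ℕ) :
    ((qmat k).conjTranspose * qmat k) * ((qmat k).conjTranspose * qmat k) = (qmat k).conjTranspose * qmat k := by
  rw [qmat_conjTranspose, qmat_idem, qmat_idem]

lemma shift_proj (k : ℕ) (i : Lett) :
    ((shiftLetter k i).conjTranspose * shiftLetter k i) * ((shiftLetter k i).conjTranspose * shiftLetter k i)
      = (shiftLetter k i).conjTranspose * shiftLetter k i := by
  rw [shift_conjTranspose_mul, if_pos rfl, corner_mul, Matrix.one_mul]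

/-- The filter on pairs of an index and a level: uniformity in the level. -/
abbrev pairFilter (ω : Ultrafilter ℕ) : Filter (ℕ × ℕ) := Filter.comap Prod.fst (ω : Filter ℕ)

/-- The level function. -/
abbrev levK : ℕ × ℕ → ℕ := fun p => p.2

/-- The next level. -/
abbrev levK1 : ℕ × ℕ → ℕ := fun p => p.2 + 1

/-- The first level. -/
abbrev lev0 : ℕ → ℕ := fun _ => 0

lemma tendsto_fst_pair (ω : Ultrafilter ℕ) : Tendsto Prod.fst (pairFilter ω) (ω : Filter ℕ) :=
  tendsto_comap

lemma tendsto_id_nat (ω : Ultrafilter ℕ) :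
    Tendsto (fun n : ℕ => n) (ω : Filter ℕ) (ω : Filter ℕ) := tendsto_id

lemma tendsto_next (ω : Ultrafilter ℕ) :
    Tendsto (fun p : ℕ × ℕ => (p.1, p.2 + 1)) (pairFilter ω) (pairFilter ω) :=
  tendsto_comap_iff.mpr (tendsto_fst_pair ω)

lemma tendsto_base (ω : Ultrafilter ℕ) :
    Tendsto (fun n : ℕ => (n, 0)) (ω : Filter ℕ) (pairFilter ω) :=
  tendsto_comap_iff.mpr tendsto_id

variable (B : Type) [CStarAlgebra B] [PartialOrder B] [StarOrderedRing B] (ω : Ultrafilter ℕ)

/-- Reindexing to the next level. -/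
def nextMap : AsympQuot (LevM B levK) (pairFilter ω) →⋆ₙₐ[ℂ] AsympQuot (LevM B levK1) (pairFilter ω) :=
  asyMap (M := LevM B levK) (M' := LevM B levK1) (fun p => (p.1, p.2 + 1)) (tendsto_next ω)
    fun j => NonUnitalStarAlgHom.id ℂ (LevM B levK1 j)

/-- Restriction to the first level. -/
def baseMap : AsympQuot (LevM B levK) (pairFilter ω) →⋆ₙₐ[ℂ] AsympQuot (LevM B lev0) (ω : Filter ℕ) :=
  asyMap (M := LevM B levK) (M' := LevM B lev0) (fun n => (n, 0)) (tendsto_base ω)
    fun j => NonUnitalStarAlgHom.id ℂ (LevM B lev0 j)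

/-- The corner inclusion of a level into the next. -/
def cornerMap : AsympQuot (LevM B levK) (pairFilter ω) →⋆ₙₐ[ℂ] AsympQuot (LevM B levK1) (pairFilter ω) :=
  asyMap (M := LevM B levK) (M' := LevM B levK1) (fun p => p) tendsto_id fun j => cornerB j.2

lemma nextMap_one : nextMap B ω 1 = 1 := asyMap_one _ _ _ fun _ => rfl

lemma baseMap_one : baseMap B ω 1 = 1 := asyMap_one _ _ _ fun _ => rfl

/-- The projection on the new parts, as a family. -/
def qFam : BddFam (LevM B levK) :=
  scFam (B := B) (fun j => qmat j.2) fun j => qmat_proj j.2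

/-- The family of partial isometries moving the first letter. -/
def wFam (i : Lett) : BddFam (LevM B levK1) :=
  scFam (B := B) (lev := levK1) (fun j => shiftLetter j.2 i) fun j => shift_proj j.2 i

variable {A : Type} [CStarAlgebra A]

/-- The element moving vectors of a level to the next one along a letter. -/
def wEl (φ : A →⋆ₙₐ[ℂ] ultrapower B ω) (V : Lett → A) (i : Lett) :
    AsympQuot (LevM B levK1) (pairFilter ω) :=
  asyMk (LevM B levK1) (pairFilter ω) (wFam B i) * diagMap B levK1 (tendsto_fst_pair ω) (φ (V i))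

/-- The projection on the new parts. -/
def qEl : AsympQuot (LevM B levK) (pairFilter ω) := asyMk (LevM B levK) (pairFilter ω) (qFam B)

/-- The representation at the current levels. -/
abbrev repK (φ : A →⋆ₙₐ[ℂ] ultrapower B ω) (u : Aff → A) (g : Aff) :
    AsympQuot (LevM B levK) (pairFilter ω) :=
  levL levK (tendsto_fst_pair ω) φ u g

/-- The representation at the next levels. -/
abbrev repK1 (φ : A →⋆ₙₐ[ℂ] ultrapower B ω) (u : Aff → A) (g : Aff) :
    AsympQuot (LevM B levK1) (pairFilter ω) :=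
  levL levK1 (tendsto_fst_pair ω) φ u g

/-- The representation at the first level. -/
abbrev rep0 (φ : A →⋆ₙₐ[ℂ] ultrapower B ω) (u : Aff → A) (g : Aff) :
    AsympQuot (LevM B lev0) (ω : Filter ℕ) :=
  levL lev0 (tendsto_id_nat ω) φ u g

variable {B ω}

lemma nextMap_rep (φ : A →⋆ₙₐ[ℂ] ultrapower B ω) (u : Aff → A) (g : Aff) :
    nextMap B ω (repK B ω φ u g) = repK1 B ω φ u g := by
  show nextMap B ω (_ * _) = _ * _
  obtain ⟨f, hf⟩ := asyMk_surjective (φ (u g))
  rw [← hf, map_mul]
  rfl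

lemma baseMap_rep (φ : A →⋆ₙₐ[ℂ] ultrapower B ω) (u : Aff → A) (g : Aff) :
    baseMap B ω (repK B ω φ u g) = rep0 B ω φ u g := by
  show baseMap B ω (_ * _) = _ * _
  obtain ⟨f, hf⟩ := asyMk_surjective (φ (u g))
  rw [← hf, map_mul]
  rfl

lemma nextMap_lap (φ : A →⋆ₙₐ[ℂ] ultrapower B ω) (u : Aff → A) :
    nextMap B ω (lap (repK B ω φ u)) = lap (repK1 B ω φ u) := by
  simp only [lap, avgL, map_add, map_sub, map_smul, map_sum, nextMap_one, nextMap_rep]

lemma baseMap_lap (φ : A →⋆ₙₐ[ℂ] ultrapower B ω) (u : Aff → A) :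
    baseMap B ω (lap (repK B ω φ u)) = lap (rep0 B ω φ u) := by
  simp only [lap, avgL, map_add, map_sub, map_smul, map_sum, baseMap_one, baseMap_rep]

lemma qEl_star : star (qEl B ω) = qEl B ω := by
  rw [qEl, ← map_star]
  refine congrArg _ (Subtype.ext (funext fun j => ?_))
  show star (sc B (qmat j.2)) = sc B (qmat j.2)
  rw [← map_star, Matrix.star_eq_conjTranspose, qmat_conjTranspose]

lemma qEl_idem : qEl B ω * qEl B ω = qEl B ω := by
  rw [qEl, ← map_mul]
  refine congrArg _ (Subtype.ext (funext fun j => ?_))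
  show sc B (qmat j.2) * sc B (qmat j.2) = sc B (qmat j.2)
  rw [← map_mul, qmat_idem]

lemma qEl_rep (φ : A →⋆ₙₐ[ℂ] ultrapower B ω) (u : Aff → A) (g : Aff) :
    qEl B ω * repK B ω φ u g = repK B ω φ u g * qEl B ω := by
  show qEl B ω * (_ * _) = (_ * _) * qEl B ω
  rw [qEl, qFam, mul_assoc, ← scFam_comm_diag (tendsto_fst_pair ω), ← mul_assoc, ← mul_assoc,
    ← map_mul, ← map_mul]
  congr 2
  refine Subtype.ext (funext fun j => ?_)
  show sc B (qmat j.2) * sc B (pmat (levPerm (j.2 + 1) g))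
    = sc B (pmat (levPerm (j.2 + 1) g)) * sc B (qmat j.2)
  rw [← map_mul, ← map_mul, qmat_comm_pmat]

lemma qEl_lap (φ : A →⋆ₙₐ[ℂ] ultrapower B ω) (u : Aff → A) :
    qEl B ω * lap (repK B ω φ u) = lap (repK B ω φ u) * qEl B ω := by
  simp only [lap, avgL, mul_add, add_mul, mul_sub, sub_mul, mul_one, one_mul, mul_smul_comm,
    smul_mul_assoc, Finset.mul_sum, Finset.sum_mul, qEl_rep]

lemma sc_dg_mul_sc_dg {k : ℕ} (M N : Matrix (Lev k) (Lev k) ℂ) (p q : B) :
    sc B M * (dg p : CStarMatrix (Lev k) (Lev k) B) * (sc B N * (dg q : CStarMatrix (Lev k) (Lev k) B))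
      = sc B (M * N) * (dg (p * q) : CStarMatrix (Lev k) (Lev k) B) := by
  rw [mul_assoc, ← mul_assoc (dg p : CStarMatrix (Lev k) (Lev k) B) (sc B N), ← sc_dg_comm N p,
    mul_assoc (sc B N), ← mul_assoc, map_mul, map_mul]

lemma shift_rel (φ : A →⋆ₙₐ[ℂ] ultrapower B ω) {u : Aff → A} {V : Lett → A}
    (hVu : ∀ g i, u g * V i = V (headAct g i) * u (sect g i)) (g : Aff) (i : Lett) :
    repK1 B ω φ u g * wEl B ω φ V i
      = wEl B ω φ V (headAct g i) * cornerMap B ω (repK B ω φ u (sect g i)) := by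
  obtain ⟨a, ha⟩ := asyMk_surjective (φ (u g))
  obtain ⟨b, hb⟩ := asyMk_surjective (φ (V i))
  obtain ⟨c, hc⟩ := asyMk_surjective (φ (V (headAct g i)))
  obtain ⟨d, hd⟩ := asyMk_surjective (φ (u (sect g i)))
  have hrel : asyMk (fun _ : ℕ => B) (ω : Filter ℕ) (a * b) = asyMk _ _ (c * d) := by
    rw [map_mul, map_mul, ha, hb, hc, hd, ← map_mul φ, ← map_mul φ, hVu]
  show levL levK1 _ φ u g * (_ * _) = (_ * _) * cornerMap B ω (levL levK _ φ u (sect g i))
  rw [levL, levL, ← ha, ← hb, ← hc, ← hd]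
  simp only [diagMap, cornerMap, asyMap_mk, ← map_mul]
  rw [asyMk_eq_iff] at hrel ⊢
  refine squeeze_zero (fun _ => norm_nonneg _) (fun j => ?_) (hrel.comp (tendsto_fst_pair ω))
  show ‖sc B (pmat (levPerm (j.2 + 1 + 1) g)) * (dg (a.1 j.1) : LevM B levK1 j)
        * (sc B (shiftLetter j.2 i) * (dg (b.1 j.1) : LevM B levK1 j))
      - sc B (shiftLetter j.2 (headAct g i)) * (dg (c.1 j.1) : LevM B levK1 j)
        * cornerB j.2 (sc B (pmat (levPerm (j.2 + 1) (sect g i))) * (dg (d.1 j.1) : LevM B levK j))‖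
      ≤ ‖a.1 j.1 * b.1 j.1 - c.1 j.1 * d.1 j.1‖
  rw [cornerB_sc_mul_dg, sc_dg_mul_sc_dg, sc_dg_mul_sc_dg, ← pmat_mul_shift, ← mul_sub, ← map_sub]
  refine (norm_mul_le _ _).trans ?_
  calc _ ≤ 1 * ‖a.1 j.1 * b.1 j.1 - c.1 j.1 * d.1 j.1‖ := by
        refine mul_le_mul ?_ (norm_dg_le _) (norm_nonneg _) zero_le_one
        rw [map_mul]
        refine (norm_mul_le _ _).trans ?_
        calc _ ≤ (1 : ℝ) * 1 := mul_le_mul (norm_sc_le_one (pmat_proj _ _))
              (norm_sc_le_one (shift_proj j.2 i)) (norm_nonneg _) zero_le_one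
          _ = 1 := one_mul 1
    _ = _ := one_mul _

lemma corner_qmat_proj (k : ℕ) :
    ((corner k (qmat k)).conjTranspose * corner k (qmat k))
      * ((corner k (qmat k)).conjTranspose * corner k (qmat k))
      = (corner k (qmat k)).conjTranspose * corner k (qmat k) := by
  have : (corner k (qmat k)).conjTranspose = corner k (qmat k) := by
    ext p q
    simp only [corner, Matrix.conjTranspose_apply, Matrix.of_apply, and_comm (a := q 0 = 0),
      apply_ite star, star_zero]
    rw [← Matrix.conjTranspose_apply, qmat_conjTranspose]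
  rw [this, corner_mul, qmat_idem, corner_mul, qmat_idem]

lemma qEl_wEl (φ : A →⋆ₙₐ[ℂ] ultrapower B ω) (V : Lett → A) (i : Lett) :
    nextMap B ω (qEl B ω) * wEl B ω φ V i = wEl B ω φ V i * cornerMap B ω (qEl B ω) := by
  show nextMap B ω (qEl B ω) * (_ * _) = (_ * _) * cornerMap B ω (qEl B ω)
  have e2 : famMap (M := LevM B levK) (M' := LevM B levK1) (fun j => j) (fun j => cornerB j.2) (qFam B)
      = scFam (B := B) (lev := levK1) (fun j => corner j.2 (qmat j.2)) fun j => corner_qmat_proj j.2 :=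
    Subtype.ext (funext fun j => cornerB_sc j.2 (qmat j.2))
  simp only [qEl, cornerMap, nextMap, asyMap_mk]
  rw [e2, mul_assoc (asyMk (LevM B levK1) (pairFilter ω) (wFam B i)),
    ← scFam_comm_diag (tendsto_fst_pair ω), ← mul_assoc, ← mul_assoc, ← map_mul, ← map_mul]
  congr 2
  refine Subtype.ext (funext fun j => ?_)
  show sc B (qmat (j.2 + 1)) * sc B (shiftLetter j.2 i)
    = sc B (shiftLetter j.2 i) * sc B (corner j.2 (qmat j.2))
  rw [← map_mul, ← map_mul, qmat_mul_shift]

lemma corner_one_proj (k : ℕ) :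
    ((corner k 1).conjTranspose * corner k 1) * ((corner k 1).conjTranspose * corner k 1)
      = (corner k 1).conjTranspose * corner k 1 := by
  have : (corner k 1).conjTranspose = corner k 1 := by
    rw [← (show (shiftLetter k (0 : Lett)).conjTranspose * shiftLetter k 0 = corner k 1 by
      rw [shift_conjTranspose_mul, if_pos rfl]), Matrix.conjTranspose_mul,
      Matrix.conjTranspose_conjTranspose]
  rw [this, corner_mul, Matrix.one_mul, corner_mul, Matrix.one_mul]

lemma wEl_star_mul (φ : A →⋆ₙₐ[ℂ] ultrapower B ω) {u : Aff → A} {V : Lett → A}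
    (hV : ∀ i, star (V i) * V i = u 1) (i m : Lett) :
    star (wEl B ω φ V i) * wEl B ω φ V m
      = if i = m then cornerMap B ω (repK B ω φ u 1) else 0 := by
  show star (_ * _) * (_ * _) = _
  simp only [star_mul, ← map_star (diagMap B levK1 (tendsto_fst_pair ω)), ← map_star φ,
    ← map_star (asyMk (LevM B levK1) (pairFilter ω))]
  rw [mul_assoc, ← mul_assoc (asyMk (LevM B levK1) (pairFilter ω) (star (wFam B i))), ← map_mul]
  by_cases him : i = m
  · subst him
    rw [if_pos rfl]
    have e2 : star (wFam B i) * wFam B i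
        = scFam (B := B) (lev := levK1) (fun j => corner j.2 1) fun j => corner_one_proj j.2 := by
      refine Subtype.ext (funext fun j => ?_)
      show star (sc B (shiftLetter j.2 i)) * sc B (shiftLetter j.2 i) = sc B (corner j.2 1)
      rw [← map_star, ← map_mul, Matrix.star_eq_conjTranspose, shift_conjTranspose_mul, if_pos rfl]
    rw [e2, scFam_comm_diag (tendsto_fst_pair ω), ← mul_assoc, ← map_mul, ← map_mul φ, hV,
      ← scFam_comm_diag (tendsto_fst_pair ω)]
    show _ = cornerMap B ω (levL levK _ φ u 1)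
    rw [levL]
    obtain ⟨a, ha⟩ := asyMk_surjective (φ (u 1))
    rw [← ha]
    simp only [diagMap, cornerMap, asyMap_mk, ← map_mul]
    refine congrArg _ (Subtype.ext (funext fun j => ?_))
    show sc B (corner j.2 1) * (dg (a.1 j.1) : LevM B levK1 j)
      = cornerB j.2 (sc B (pmat (levPerm (j.2 + 1) 1)) * (dg (a.1 j.1) : LevM B levK j))
    rw [cornerB_sc_mul_dg, map_one, map_one]
  · rw [if_neg him]
    have e2 : star (wFam B i) * wFam B m = 0 := by
      refine Subtype.ext (funext fun j => ?_)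
      show star (sc B (shiftLetter j.2 i)) * sc B (shiftLetter j.2 m) = 0
      rw [← map_star, ← map_mul, Matrix.star_eq_conjTranspose, shift_conjTranspose_mul, if_neg him, map_zero]
    rw [e2, map_zero, zero_mul, mul_zero]

end

end Vale.Agent.P083
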