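import Vale.Agent.P083.Rep
import Vale.Agent.P083.Mat

/-!
Homomorphisms between algebras of bounded families modulo null families, and the systems of
level algebras attached to a hypothetical embedding.
-/

namespace Vale.Agent.P083

open Filter Topology

set_option linter.unusedSectionVars false
set_option linter.unusedSimpArgs false

noncomputable section

section asyMap

variable {J J' : Type*} {M : J → Type*} {M' : J' → Type*} [∀ j, CStarAlgebra (M j)]
  [∀ j, CStarAlgebra (M' j)] {l : Filter J} {l' : Filter J'}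

/-- The image of a bounded family under a change of index and coordinatewise homomorphisms. -/
def famMap (σ : J' → J) (θ : ∀ j, M (σ j) →⋆ₙₐ[ℂ] M' j) (f : BddFam M) : BddFam M' :=
  ⟨fun j => θ j (f.1 (σ j)), by
    obtain ⟨C, hC⟩ := f.2
    exact ⟨C, fun j => (NonUnitalStarAlgHom.norm_apply_le (θ j) _).trans (hC _)⟩⟩

/-- The induced homomorphism of the quotients. -/
def asyMap (σ : J' → J) (hσ : Tendsto σ l' l) (θ : ∀ j, M (σ j) →⋆ₙₐ[ℂ] M' j) :
    AsympQuot M l →⋆ₙₐ[ℂ] AsympQuot M' l' where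
  toFun := Quotient.map' (famMap σ θ) (fun f g h => by
    refine squeeze_zero (fun _ => norm_nonneg _) (fun j => ?_)
      ((show Tendsto (fun j => ‖f.1 j - g.1 j‖) l (𝓝 0) from h).comp hσ)
    show ‖θ j (f.1 (σ j)) - θ j (g.1 (σ j))‖ ≤ _
    rw [← map_sub]
    exact NonUnitalStarAlgHom.norm_apply_le (θ j) _)
  map_smul' c := Quotient.ind' fun f =>
    congrArg (Quotient.mk'' (s₁ := (nullCon M' l').toSetoid))
      (Subtype.ext (funext fun j => map_smul (θ j) c (f.1 (σ j))))
  map_zero' := congrArg (Quotient.mk'' (s₁ := (nullCon M' l').toSetoid))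
      (Subtype.ext (funext fun j => map_zero (θ j)))
  map_add' x y := Quotient.inductionOn₂' x y fun f g =>
    congrArg (Quotient.mk'' (s₁ := (nullCon M' l').toSetoid))
      (Subtype.ext (funext fun j => map_add (θ j) (f.1 (σ j)) (g.1 (σ j))))
  map_mul' x y := Quotient.inductionOn₂' x y fun f g =>
    congrArg (Quotient.mk'' (s₁ := (nullCon M' l').toSetoid))
      (Subtype.ext (funext fun j => map_mul (θ j) (f.1 (σ j)) (g.1 (σ j))))
  map_star' := Quotient.ind' fun f =>
    congrArg (Quotient.mk'' (s₁ := (nullCon M' l').toSetoid))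
      (Subtype.ext (funext fun j => map_star (θ j) (f.1 (σ j))))

lemma asyMap_mk (σ : J' → J) (hσ : Tendsto σ l' l) (θ : ∀ j, M (σ j) →⋆ₙₐ[ℂ] M' j) (f : BddFam M) :
    asyMap σ hσ θ (asyMk M l f) = asyMk M' l' (famMap σ θ f) := rfl

lemma asyMap_one (σ : J' → J) (hσ : Tendsto σ l' l) (θ : ∀ j, M (σ j) →⋆ₙₐ[ℂ] M' j)
    (h : ∀ j, θ j 1 = 1) : asyMap σ hσ θ 1 = 1 := by
  rw [← map_one (asyMk M l), asyMap_mk, ← map_one (asyMk M' l')]
  exact congrArg _ (Subtype.ext (funext h))

end asyMap

variable {B : Type} [CStarAlgebra B] [PartialOrder B] [StarOrderedRing B]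

/-- The level algebras along a level function. -/
abbrev LevM (B : Type) {J : Type} (lev : J → ℕ) (j : J) : Type :=
  CStarMatrix (Lev (lev j + 1)) (Lev (lev j + 1)) B

variable {J : Type} {l : Filter J} {lev : J → ℕ}

/-- A family of scalar matrices. -/
def scFam (M : ∀ j, Matrix (Lev (lev j + 1)) (Lev (lev j + 1)) ℂ)
    (hM : ∀ j, ((M j).conjTranspose * M j) * ((M j).conjTranspose * M j) = (M j).conjTranspose * M j) :
    BddFam (LevM B lev) :=
  BddFam.mk (fun j => sc B (M j)) 1 fun _ => norm_sc_le_one (hM _)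

variable {ω : Ultrafilter ℕ} {nn : J → ℕ}

/-- Diagonal inclusion of the ultrapower. -/
def diagMap (B : Type) [CStarAlgebra B] [PartialOrder B] [StarOrderedRing B] (lev : J → ℕ) (hnn : Tendsto nn l (ω : Filter ℕ)) :
    ultrapower B ω →⋆ₙₐ[ℂ] AsympQuot (LevM B lev) l :=
  asyMap nn hnn fun j => (dg (n := Lev (lev j + 1)) (B := B)).toNonUnitalStarAlgHom

lemma pmat_proj (k : ℕ) (σ : Equiv.Perm (Lev k)) :
    ((pmat σ).conjTranspose * pmat σ) * ((pmat σ).conjTranspose * pmat σ) = (pmat σ).conjTranspose * pmat σ := by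
  rw [pmat_conjTranspose, ← map_mul, inv_mul_cancel, map_one, mul_one]

/-- The permutation family. -/
def permFam (lev : J → ℕ) (g : Aff) : BddFam (LevM B lev) :=
  scFam (fun j => pmat (levPerm (lev j + 1) g)) fun _ => pmat_proj _ _

variable {A : Type} [CStarAlgebra A]

/-- The representation on the levels. -/
def levL (lev : J → ℕ) (hnn : Tendsto nn l (ω : Filter ℕ)) (φ : A →⋆ₙₐ[ℂ] ultrapower B ω)
    (u : Aff → A) (g : Aff) : AsympQuot (LevM B lev) l :=
  asyMk (LevM B lev) l (permFam lev g) * diagMap B lev hnn (φ (u g))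

lemma scFam_comm_diag (hnn : Tendsto nn l (ω : Filter ℕ))
    (M : ∀ j, Matrix (Lev (lev j + 1)) (Lev (lev j + 1)) ℂ)
    (hM : ∀ j, ((M j).conjTranspose * M j) * ((M j).conjTranspose * M j) = (M j).conjTranspose * M j)
    (a : ultrapower B ω) :
    asyMk (LevM B lev) l (scFam M hM) * diagMap B lev hnn a
      = diagMap B lev hnn a * asyMk (LevM B lev) l (scFam M hM) := by
  obtain ⟨f, rfl⟩ := asyMk_surjective a
  rw [diagMap, asyMap_mk, ← map_mul, ← map_mul]
  exact congrArg _ (Subtype.ext (funext fun j => sc_dg_comm (M j) (f.1 (nn j))))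

variable {u : Aff → A} (hu : ∀ g h, u g * u h = u (g * h)) (hus : ∀ g, star (u g) = u g⁻¹)
  {hnn : Tendsto nn l (ω : Filter ℕ)} {φ : A →⋆ₙₐ[ℂ] ultrapower B ω}

include hu in
lemma levL_mul (g h : Aff) :
    levL lev hnn φ u g * levL lev hnn φ u h = levL lev hnn φ u (g * h) := by
  rw [levL, levL, levL, ← hu g h, map_mul φ, map_mul (diagMap B lev hnn), mul_assoc,
    ← mul_assoc (diagMap B lev hnn _), permFam, permFam, ← scFam_comm_diag hnn, ← mul_assoc, ← mul_assoc,
    mul_assoc _ (diagMap B lev hnn (φ (u g))), ← map_mul (asyMk (LevM B lev) l), permFam]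
  congr 2
  refine Subtype.ext (funext fun j => ?_)
  show sc B (pmat (levPerm (lev j + 1) g)) * sc B (pmat (levPerm (lev j + 1) h))
    = sc B (pmat (levPerm (lev j + 1) (g * h)))
  rw [← map_mul, ← map_mul, ← map_mul]

include hus in
lemma levL_star (g : Aff) : star (levL lev hnn φ u g) = levL lev hnn φ u g⁻¹ := by
  rw [levL, levL, star_mul, ← map_star (diagMap B lev hnn), ← map_star φ, hus, permFam, permFam,
    ← map_star (asyMk (LevM B lev) l)]
  have e : star (scFam (B := B) (fun j => pmat (levPerm (lev j + 1) g)) fun _ => pmat_proj _ _)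
      = scFam (B := B) (fun j => pmat (levPerm (lev j + 1) g⁻¹)) fun _ => pmat_proj _ _ := by
    refine Subtype.ext (funext fun j => ?_)
    show star (sc B (pmat (levPerm (lev j + 1) g))) = sc B (pmat (levPerm (lev j + 1) g⁻¹))
    rw [← map_star, Matrix.star_eq_conjTranspose, pmat_conjTranspose, ← map_inv]
  rw [e, scFam_comm_diag hnn]

end

end Vale.Agent.P083
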