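import Vale.Agent.P083.Asy

/-!
The angle criterion: three projections with pairwise angle below one half give a spectral gap,
with an explicit certificate by squares.
-/

namespace Vale.Agent.P083

open Filter Topology

set_option linter.unusedSectionVars false

variable {J : Type*} {M : J → Type*} [∀ j, CStarAlgebra (M j)] {l : Filter J}
  [∀ j, PartialOrder (M j)] [∀ j, StarOrderedRing (M j)]

lemma pair_core {p q e R : AsympQuot M l} {ε : ℝ} (hε0 : 0 < ε) (hε1 : ε ≤ 1)
    (sp : star p = p) (sq : star q = q) (se : star e = e) (sR : star R = R)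
    (hpp : p * p = p) (hqq : q * q = q) (hee : e * e = e)
    (hep : e * p = p) (hpe : p * e = p) (heq : e * q = q) (hqe : q * e = q)
    (hRR : R * R = R) (hRp : R * p = R) (hpR : p * R = R)
    (hpqp : p * q * p = ((ε : ℂ) * (ε : ℂ)) • R) :
    APos ((e - p) * (e - q) + (e - q) * (e - p) + (ε : ℂ) • ((e - p) + (e - q))) := by
  set t : AsympQuot M l := (1 + (ε : ℂ)) • e - p - q with ht
  set u : AsympQuot M l := (ε : ℂ) • q - q * p with hu
  set v : AsympQuot M l := p - R with hv
  have hεc : (ε : ℂ) ≠ 0 := by exact_mod_cast hε0.ne'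
  have h1c : (1 + (ε : ℂ)) ≠ 0 := by exact_mod_cast (show (0:ℝ) < 1 + ε by linarith).ne'
  have st : star t = t := by
    simp [ht, sp, sq, se]
  have su : star u = (ε : ℂ) • q - p * q := by
    simp [hu, sp, sq]
  have sv : star v = v := by simp [hv, sp, sR]
  have e1 : star t * t = ((1 + (ε : ℂ)) * (1 + (ε : ℂ))) • e
      - (2 * (1 + (ε : ℂ))) • (p + q) + (p + q + p * q + q * p) := by
    rw [st, ht]
    simp only [sub_mul, mul_sub, smul_mul_assoc, mul_smul_comm, smul_smul, smul_sub, hee, hep,
      hpe, heq, hqe, hpp, hqq]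
    module
  have hqqp : q * (q * p) = q * p := by rw [← mul_assoc, hqq]
  have hpqq : (p * q) * q = p * q := by rw [mul_assoc, hqq]
  have hpqqp : (p * q) * (q * p) = p * q * p := by rw [← mul_assoc, hpqq]
  have e2 : star u * u = ((ε : ℂ) * (ε : ℂ)) • q - (ε : ℂ) • (q * p + p * q)
      + ((ε : ℂ) * (ε : ℂ)) • R := by
    rw [su, hu]
    simp only [sub_mul, mul_sub, smul_mul_assoc, mul_smul_comm, smul_smul, smul_sub, hqq,
      hqqp, hpqq, hpqqp, hpqp]
    module
  have e3 : star v * v = p - R := by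
    rw [sv, hv]
    simp only [sub_mul, mul_sub, hpp, hRp, hpR, hRR]
    abel
  have key : (e - p) * (e - q) + (e - q) * (e - p) + (ε : ℂ) • ((e - p) + (e - q))
      = ((2 / (1 + ε) : ℝ) : ℂ) • (star t * t)
        + (((1 - ε) / (ε * (1 + ε)) : ℝ) : ℂ) • (star u * u)
        + (((1 - ε) * ε / (1 + ε) : ℝ) : ℂ) • (star v * v) := by
    rw [e1, e2, e3]
    simp only [sub_mul, mul_sub, hee, hep, hpe, heq, hqe]
    push_cast
    match_scalars <;> field_simp <;> ring
  rw [key]
  have := sub_nonneg.mpr hε1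
  exact (((APos.star_mul_self t).smul (by positivity)).add
    ((APos.star_mul_self u).smul (by positivity))).add
    ((APos.star_mul_self v).smul (by positivity))

/-- Two averaging projections whose product identity has the class-two form. -/
lemma pair_pos {P Q Z P₀ : AsympQuot M l} {ε : ℝ} (hε0 : 0 < ε) (hε1 : ε ≤ 1)
    (sP : star P = P) (sQ : star Q = Q) (sZ : star Z = Z) (s₀ : star P₀ = P₀)
    (hPP : P * P = P) (hQQ : Q * Q = Q) (hZZ : Z * Z = Z) (h₀₀ : P₀ * P₀ = P₀)
    (cP : Z * P = P * Z) (cQ : Z * Q = Q * Z) (c₀ : Z * P₀ = P₀ * Z) (c₀P : P₀ * P = P * P₀)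
    (hid : P * Q * P = ((ε : ℂ) * (ε : ℂ)) • (P₀ * P * (1 - Z)) + Z * Q * P) :
    APos ((1 - P) * (1 - Q) + (1 - Q) * (1 - P) + (ε : ℂ) • ((1 - P) + (1 - Q))) := by
  set R : AsympQuot M l := P₀ * P * (1 - Z) with hR
  set W : AsympQuot M l := Z * Q * P with hW
  have cW : Z * (1 - Z) = 0 := by rw [mul_sub, mul_one, hZZ, sub_self]
  have cW' : (1 - Z) * Z = 0 := by rw [sub_mul, one_mul, hZZ, sub_self]
  have cZP₀P : Z * (P₀ * P) = (P₀ * P) * Z := by
    rw [← mul_assoc, c₀, mul_assoc, cP, mul_assoc]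
  have hZR : Z * R = 0 := by
    rw [hR, ← mul_assoc, cZP₀P, mul_assoc, cW, mul_zero]
  have hRZ : R * Z = 0 := by rw [hR, mul_assoc, cW', mul_zero]
  have hZW : Z * W = W := by rw [hW, ← mul_assoc, ← mul_assoc, hZZ]
  have h1 : Z * (P * Q * P) = W := by
    rw [hid, mul_add, mul_smul_comm, hZR, smul_zero, zero_add]
    exact hZW
  have sW : star W = W := by
    conv_lhs => rw [← h1]
    rw [star_mul, star_mul, star_mul, sP, sQ, sZ]
    calc P * (Q * P) * Z = P * Q * (P * Z) := by simp only [mul_assoc]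
      _ = P * (Q * Z) * P := by rw [← cP]; simp only [mul_assoc]
      _ = (P * Z) * Q * P := by rw [← cQ]; simp only [mul_assoc]
      _ = Z * (P * Q * P) := by rw [← cP]; simp only [mul_assoc]
      _ = W := h1
  have hWP : W * P = W := by rw [hW, mul_assoc, hPP]
  have hQW : Q * W = W := by
    rw [hW, ← mul_assoc, ← mul_assoc, ← cQ, mul_assoc Z, hQQ]
  have hPW : P * W = W := by
    have := congrArg star hWP
    rwa [star_mul, sP, sW] at this
  have hWQ : W * Q = W := by
    have := congrArg star hQW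
    rwa [star_mul, sQ, sW] at this
  have hWW : W * W = W := by
    calc W * W = Z * (Q * (P * W)) := by rw [hW]; simp only [mul_assoc]
      _ = W := by rw [hPW, hQW, hZW]
  have hRW : R * W = 0 := by rw [← hZW, ← mul_assoc, hRZ, zero_mul]
  have sR : star R = R := by
    rw [hR, star_mul, star_mul, star_sub, star_one, sP, s₀, sZ, ← c₀P, sub_mul, one_mul,
      mul_sub, mul_one, cZP₀P]
  have hWR : W * R = 0 := by
    have := congrArg star hRW
    rwa [star_mul, sR, sW, star_zero] at this
  have hPR : P * R = R := by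
    rw [hR, ← mul_assoc, ← mul_assoc, ← c₀P, mul_assoc P₀ P P, hPP]
  have hRP : R * P = R := by
    have := congrArg star hPR
    rwa [star_mul, sR, sP] at this
  have hRR : R * R = R := by
    calc R * R = P₀ * (P * ((1 - Z) * R)) := by rw [hR]; simp only [mul_assoc]
      _ = P₀ * R := by rw [sub_mul, one_mul, hZR, sub_zero, hPR]
      _ = R := by rw [hR, ← mul_assoc, ← mul_assoc, h₀₀]
  have key := pair_core (p := P - W) (q := Q - W) (e := 1 - W) (R := R) hε0 hε1
    (by simp [sP, sW]) (by simp [sQ, sW]) (by simp [sW]) sR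
    (by simp only [mul_sub, sub_mul, hPP, hPW, hWP, hWW]; abel)
    (by simp only [mul_sub, sub_mul, hQQ, hQW, hWQ, hWW]; abel)
    (by simp only [mul_sub, sub_mul, one_mul, mul_one, hWW]; abel)
    (by simp only [mul_sub, sub_mul, one_mul, hWP, hWW]; abel)
    (by simp only [mul_sub, sub_mul, mul_one, hPW, hWW]; abel)
    (by simp only [mul_sub, sub_mul, one_mul, hWQ, hWW]; abel)
    (by simp only [mul_sub, sub_mul, mul_one, hQW, hWW]; abel)
    hRR (by simp only [mul_sub, hRP, hRW, sub_zero]) (by simp only [sub_mul, hPR, hWR, sub_zero])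
    (by
      have e : (P - W) * (Q - W) * (P - W) = P * Q * P - W := by
        have hPQW : P * (Q * W) = W := by rw [hQW, hPW]
        simp only [mul_sub, sub_mul, mul_assoc, hPW, hWP, hQW, hWW]
        rw [← mul_assoc W Q P, hWQ, hWP]
        abel
      rw [e, hid]; abel)
  have eP : (1 - W) - (P - W) = 1 - P := by abel
  have eQ : (1 - W) - (Q - W) = 1 - Q := by abel
  rwa [eP, eQ] at key

/-- Three projections with pairwise small angle give a gap inequality. -/
lemma triangle {a b k : AsympQuot M l} {ε : ℝ} (ha : a * a = a) (hb : b * b = b) (hk : k * k = k)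
    (hab : APos (a * b + b * a + (ε : ℂ) • (a + b)))
    (hbk : APos (b * k + k * b + (ε : ℂ) • (b + k)))
    (hka : APos (k * a + a * k + (ε : ℂ) • (k + a))) :
    APos ((a + b + k) * (a + b + k) - ((1 - 2 * ε : ℝ) : ℂ) • (a + b + k)) := by
  have e : (a + b + k) * (a + b + k) - ((1 - 2 * ε : ℝ) : ℂ) • (a + b + k)
      = (a * b + b * a + (ε : ℂ) • (a + b)) + (b * k + k * b + (ε : ℂ) • (b + k))
        + (k * a + a * k + (ε : ℂ) • (k + a)) := by
    simp only [add_mul, mul_add, ha, hb, hk]
    push_cast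
    module
  rw [e]
  exact (hab.add hbk).add hka

end Vale.Agent.P083
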