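import Mathlib

/-!
The norm ultrapower of a C*-algebra, and C*-algebras generated by a Cuntz pair.
-/

namespace Vale.Agent.P083

open Filter Topology

variable (B : Type) [CStarAlgebra B]

/-- The norm-bounded sequences in the algebra, as a star subalgebra of all sequences. -/
def ellInfty : StarSubalgebra ℂ (ℕ → B) where
  carrier := {f | ∃ C : ℝ, ∀ n, ‖f n‖ ≤ C}
  mul_mem' := by
    rintro f g ⟨C, hC⟩ ⟨D, hD⟩
    exact ⟨C * D, fun j => (norm_mul_le _ _).trans
      (mul_le_mul (hC j) (hD j) (norm_nonneg _) ((norm_nonneg _).trans (hC j)))⟩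
  add_mem' := by
    rintro f g ⟨C, hC⟩ ⟨D, hD⟩
    exact ⟨C + D, fun j => (norm_add_le _ _).trans (add_le_add (hC j) (hD j))⟩
  algebraMap_mem' c := by
    refine ⟨‖c‖, fun j => ?_⟩
    show ‖algebraMap ℂ B c‖ ≤ ‖c‖
    rcases subsingleton_or_nontrivial B with h | h
    · rw [Subsingleton.elim (algebraMap ℂ B c) 0, norm_zero]
      exact norm_nonneg _
    · rw [norm_algebraMap']
  star_mem' := by
    rintro f ⟨C, hC⟩
    exact ⟨C, fun j => by rw [Pi.star_apply, norm_star]; exact hC j⟩

/-- The type of norm-bounded sequences. -/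
def BddSeq : Type := ↥(ellInfty B)

/-- The ring of norm-bounded sequences. -/
@[instance, instance_reducible] noncomputable def bddSeqRing : Ring (BddSeq B) :=
  (inferInstance : Ring ↥(ellInfty B))

/-- The complex algebra of norm-bounded sequences. -/
@[instance, instance_reducible] noncomputable def bddSeqAlgebra : Algebra ℂ (BddSeq B) :=
  (inferInstance : Algebra ℂ ↥(ellInfty B))

/-- The termwise adjoint of a norm-bounded sequence. -/
@[instance, instance_reducible] noncomputable def bddSeqStar : Star (BddSeq B) :=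
  (inferInstance : Star ↥(ellInfty B))

variable {B}

/-- The terms of a bounded sequence. -/
def BddSeq.term (f : BddSeq B) (n : ℕ) : B := (show ↥(ellInfty B) from f).1 n

/-- The sequence of differences tends to zero in norm along the ultrafilter. -/
def NullDiff (ω : Ultrafilter ℕ) (f g : BddSeq B) : Prop :=
  Tendsto (fun n => ‖f.term n - g.term n‖) (ω : Filter ℕ) (𝓝 0)

theorem nullDiff_equiv (ω : Ultrafilter ℕ) : Equivalence (NullDiff (B := B) ω) where
  refl f := by simp [NullDiff]
  symm h := by simpa [NullDiff, norm_sub_rev] using h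
  trans {f g k} h1 h2 := squeeze_zero (fun _ => norm_nonneg _)
    (fun n => norm_sub_le_norm_sub_add_norm_sub _ (g.term n) _) (by simpa using h1.add h2)

theorem nullDiff_add (ω : Ultrafilter ℕ) {a b c d : BddSeq B} (h1 : NullDiff ω a b)
    (h2 : NullDiff ω c d) : NullDiff ω (a + c) (b + d) := by
  refine squeeze_zero (fun _ => norm_nonneg _) (fun j => ?_) (by simpa using h1.add h2)
  show ‖(a.term j + c.term j) - (b.term j + d.term j)‖ ≤ _
  rw [add_sub_add_comm]
  exact norm_add_le _ _

theorem nullDiff_mul (ω : Ultrafilter ℕ) {a b c d : BddSeq B} (h1 : NullDiff ω a b)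
    (h2 : NullDiff ω c d) : NullDiff ω (a * c) (b * d) := by
  obtain ⟨C, hC⟩ := (show ↥(ellInfty B) from a).2
  obtain ⟨D, hD⟩ := (show ↥(ellInfty B) from d).2
  refine squeeze_zero (fun _ => norm_nonneg _) (fun j => ?_)
    (by simpa using (h2.const_mul C).add (h1.mul_const D))
  show ‖a.term j * c.term j - b.term j * d.term j‖ ≤ _
  calc ‖a.term j * c.term j - b.term j * d.term j‖
      = ‖a.term j * (c.term j - d.term j) + (a.term j - b.term j) * d.term j‖ := by
        congr 1
        simp [mul_sub, sub_mul]
    _ ≤ ‖a.term j * (c.term j - d.term j)‖ + ‖(a.term j - b.term j) * d.term j‖ := norm_add_le _ _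
    _ ≤ C * ‖c.term j - d.term j‖ + ‖a.term j - b.term j‖ * D := add_le_add
        ((norm_mul_le _ _).trans (mul_le_mul_of_nonneg_right (hC j) (norm_nonneg _)))
        ((norm_mul_le _ _).trans (mul_le_mul_of_nonneg_left (hD j) (norm_nonneg _)))

theorem nullDiff_star (ω : Ultrafilter ℕ) {a b : BddSeq B} (h : NullDiff ω a b) :
    NullDiff ω (star a) (star b) := by
  show Tendsto (fun n => ‖star (a.term n) - star (b.term n)‖) (ω : Filter ℕ) (𝓝 0)
  simpa [← star_sub, norm_star] using (show Tendsto (fun n => ‖a.term n - b.term n‖) _ _ from h)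

variable (B)

/-- Congruence modulo the sequences tending to zero along the ultrafilter. -/
def nullCongr (ω : Ultrafilter ℕ) : RingCon (BddSeq B) where
  r := NullDiff ω
  iseqv := nullDiff_equiv ω
  add' := nullDiff_add ω
  mul' := nullDiff_mul ω

/-- The norm ultrapower: bounded sequences modulo those tending to zero along the ultrafilter. -/
def NormUltrapower (ω : Ultrafilter ℕ) : Type := (nullCongr B ω).Quotient

/-- The quotient ring. -/
@[instance, instance_reducible] noncomputable def normUltrapowerRing (ω : Ultrafilter ℕ) :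
    Ring (NormUltrapower B ω) :=
  (inferInstance : Ring (nullCongr B ω).Quotient)

/-- The quotient algebra. -/
@[instance, instance_reducible] noncomputable def normUltrapowerAlgebra (ω : Ultrafilter ℕ) :
    Algebra ℂ (NormUltrapower B ω) :=
  (inferInstance : Algebra ℂ (nullCongr B ω).Quotient)

noncomputable instance instStarNormUltrapower (ω : Ultrafilter ℕ) : Star (NormUltrapower B ω) where
  star := Quotient.map' star fun _ _ h => nullDiff_star ω h

/-- Two isometries whose range projections add up to one generate the C*-algebra. -/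
def CuntzPairGenerates : Prop :=
  ∃ s₀ s₁ : B, star s₀ * s₀ = 1 ∧ star s₁ * s₁ = 1 ∧ s₀ * star s₀ + s₁ * star s₁ = 1 ∧
    Dense (StarAlgebra.adjoin ℂ {s₀, s₁} : Set B)

end Vale.Agent.P083
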